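import Mathlib
import Vale.Agent.P154.PMFan
import Vale.Agent.P154.A6M0
import Vale.Agent.P154.A6M1
import Vale.Agent.P154.A6M2
import Vale.Agent.P154.A6M3
import Vale.Agent.P154.A6One

namespace Vale.Agent.P154.Sep2

theorem okA6 : datA6.ok = true := by decide +kernel

noncomputable def knownA6 : List (Cell × Cell × ℕ × ℕ) := [(((4, 1, 1), (1, 0, 0), (1, 1, 0)), ((18, 18, 13), (1, 1, 1), (56, 51, 51)), 0, 16),
  (((2, 1, 1), (4, 1, 1), (1, 1, 0)), ((18, 18, 13), (1, 1, 1), (56, 51, 51)), 0, 16),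
  (((11, 8, 5), (5, 5, 2), (1, 1, 1)), ((24, 24, 19), (1, 1, 1), (56, 51, 51)), 0, 8),
  (((2, 1, 1), (11, 8, 5), (1, 1, 1)), ((24, 24, 19), (1, 1, 1), (56, 51, 51)), 0, 2),
  (((2, 1, 1), (11, 8, 5), (1, 1, 1)), ((24, 24, 19), (1, 1, 1), (56, 51, 51)), 2, 4),
  (((2, 1, 1), (11, 8, 5), (1, 1, 1)), ((24, 24, 19), (1, 1, 1), (56, 51, 51)), 4, 8),
  (((11, 8, 5), (5, 5, 2), (1, 1, 1)), ((18, 18, 13), (24, 24, 19), (56, 51, 51)), 0, 8),
  (((2, 1, 1), (11, 8, 5), (1, 1, 1)), ((18, 18, 13), (24, 24, 19), (56, 51, 51)), 0, 8),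
  (((5, 5, 2), (1, 1, 1), (2, 1, 1)), ((18, 18, 13), (1, 1, 1), (56, 51, 51)), 8, 16),
  (((1, 1, 0), (5, 5, 2), (2, 1, 1)), ((18, 18, 13), (1, 1, 1), (56, 51, 51)), 0, 16)]

theorem known_posA6 : ∀ c ∈ knownA6, Pos datA6 c.1 c.2.1 c.2.2.1 c.2.2.2 := by
  unfold knownA6
  simp only [List.forall_mem_cons, List.not_mem_nil, false_imp_iff, implies_true, and_true]
  exact ⟨chkT_sound okA6 (by simp) _ _ _ _ _ partA6_0,
    chkT_sound okA6 (by simp) _ _ _ _ _ partA6_1,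
    chkT_sound okA6 (by simp) _ _ _ _ _ partA6_2,
    chkT_sound okA6 (by simp) _ _ _ _ _ partA6_3,
    chkT_sound okA6 (by simp) _ _ _ _ _ partA6_4,
    chkT_sound okA6 (by simp) _ _ _ _ _ partA6_5,
    chkT_sound okA6 (by simp) _ _ _ _ _ partA6_6,
    chkT_sound okA6 (by simp) _ _ _ _ _ partA6_7,
    chkT_sound okA6 (by simp) _ _ _ _ _ partA6_8,
    chkT_sound okA6 (by simp) _ _ _ _ _ partA6_9⟩

theorem topA6_0 : chkT datA6 knownA6 (.spU 2 1 3 1 (4, 1, 1) .ext (.spU 0 2 1 3 (2, 1, 1) .ext (.spU 2 3 2 1 (5, 5, 2) (.spS 8 (.spV 0 1 6 1 (24, 24, 19) (.spU 2 3 1 1 (11, 8, 5) .ext (.spS 4 (.spS 2 .ext .ext) .ext)) (.spU 2 3 1 1 (11, 8, 5) .ext .ext)) .ext) .ext)))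
    U0 ((18, 18, 13), (1, 1, 1), (56, 51, 51)) 0 16 = true := by decide +kernel

theorem mainA6 : ∀ Q ∈ fanCells fullA6.fan, Pos fullA6.D U0 Q 0 fullA6.N := by
  have e : fanCells fullA6.fan = [((18, 18, 13), (1, 1, 1), (56, 51, 51))] := rfl
  rw [e]
  simp only [List.forall_mem_cons, List.not_mem_nil, false_imp_iff, implies_true, and_true]
  exact chkT_sound okA6 known_posA6 _ _ _ _ _ topA6_0

theorem validA6 : Valid fullA6 where
  ok := okA6
  r0 := by decide +kernel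
  c0 := by decide +kernel
  ln0 := by decide +kernel
  ld0 := by decide +kernel
  dn0 := by decide +kernel
  dd0 := by decide +kernel
  Da0 := by decide +kernel
  den0 := by decide +kernel
  cn0 := by decide +kernel
  cd0 := by decide +kernel
  gn0 := by decide +kernel
  gd0 := by decide +kernel
  fan := by decide +kernel
  fan1 := by decide +kernel
  fan2 := by decide +kernel
  main := mainA6
  hm := chkFan_sound homA6_m _ _ oneA6_m
  hml := chkFan_sound homA6_ml _ _ oneA6_ml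
  hr := chk1_sound homA6_r _ _ oneA6_r
  hw := chk1_sound homA6_w _ _ oneA6_w
  hs := chk1_sound homA6_s _ _ oneA6_s
  s0 := by decide +kernel
  s1 := by decide +kernel
  v2 := by decide +kernel
  v3 := by decide +kernel

theorem kvalidA6 : KValid fullA6 where
  hkN := chk1_sound homA6_kN _ _ oneA6_kN
  hv3 := chk1_sound homA6_v3 _ _ oneA6_v3
  hq := chkFan_sound homA6_q _ _ oneA6_q
  hqm := chkFan_sound homA6_qm _ _ oneA6_qm

theorem cornerA6 : (2 * (fullA6.den : ℤ) + (4 * fullA6.r20 + 8 * fullA6.r30 + 4 * fullA6.r11 +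
    4 * fullA6.r02)) * fullA6.dd ≤ fullA6.N * fullA6.dn * fullA6.den := by decide +kernel

end Vale.Agent.P154.Sep2
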