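import Mathlib
import Vale.Agent.P154.PMR
import Vale.Agent.P154.B10Data

namespace Vale.Agent.P154.Sep2

def homB10_m : hom 20 (eM fullB10) = true := by decide +kernel

def oneB10_m_0 : chk1K []
    (eM fullB10) 20 (.leaf 0 184)
    ((13, 13, 10), (1, 1, 1), (36, 35, 31)) = true := by decide +kernel

theorem posB10_m_0 : ∀ a b c : ℝ, InC ((13, 13, 10), (1, 1, 1), (36, 35, 31)) a b c → 0 ≤ PExp.ev (vec a b c) (eM fullB10) :=
  chk1K_sound homB10_m (by simp)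
    _ _ oneB10_m_0

def oneB10_m_1 : chk1K []
    (eM fullB10) 20 (.leaf 0 190)
    ((36, 35, 31), (1, 1, 1), (24, 23, 22)) = true := by decide +kernel

theorem posB10_m_1 : ∀ a b c : ℝ, InC ((36, 35, 31), (1, 1, 1), (24, 23, 22)) a b c → 0 ≤ PExp.ev (vec a b c) (eM fullB10) :=
  chk1K_sound homB10_m (by simp)
    _ _ oneB10_m_1

def oneB10_m_2 : chk1K []
    (eM fullB10) 20 (.leaf 0 188)
    ((24, 23, 22), (1, 1, 1), (33, 31, 31)) = true := by decide +kernel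

theorem posB10_m_2 : ∀ a b c : ℝ, InC ((24, 23, 22), (1, 1, 1), (33, 31, 31)) a b c → 0 ≤ PExp.ev (vec a b c) (eM fullB10) :=
  chk1K_sound homB10_m (by simp)
    _ _ oneB10_m_2

theorem allB10_m : ∀ Q ∈ fanCells fullB10.fan, ∀ a b c : ℝ, InC Q a b c →
    0 ≤ PExp.ev (vec a b c) (eM fullB10) := by
  have e : fanCells fullB10.fan = [((13, 13, 10), (1, 1, 1), (36, 35, 31)), ((36, 35, 31), (1, 1, 1), (24, 23, 22)), ((24, 23, 22), (1, 1, 1), (33, 31, 31))] := rfl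
  rw [e]
  simp only [List.forall_mem_cons, List.not_mem_nil, false_imp_iff, implies_true, and_true]
  exact ⟨posB10_m_0, posB10_m_1, posB10_m_2⟩

def homB10_ml : hom 80 (eMLR fullB10 rpB10) = true := by decide +kernel

def oneB10_ml_0 : chk1K []
    (eMLR fullB10 rpB10) 80 (.leaf 0 631)
    ((13, 13, 10), (1, 1, 1), (36, 35, 31)) = true := by decide +kernel

theorem posB10_ml_0 : ∀ a b c : ℝ, InC ((13, 13, 10), (1, 1, 1), (36, 35, 31)) a b c → 0 ≤ PExp.ev (vec a b c) (eMLR fullB10 rpB10) :=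
  chk1K_sound homB10_ml (by simp)
    _ _ oneB10_ml_0

def oneB10_ml_1 : chk1K []
    (eMLR fullB10 rpB10) 80 (.leaf 0 655)
    ((36, 35, 31), (1, 1, 1), (24, 23, 22)) = true := by decide +kernel

theorem posB10_ml_1 : ∀ a b c : ℝ, InC ((36, 35, 31), (1, 1, 1), (24, 23, 22)) a b c → 0 ≤ PExp.ev (vec a b c) (eMLR fullB10 rpB10) :=
  chk1K_sound homB10_ml (by simp)
    _ _ oneB10_ml_1

def oneB10_ml_2 : chk1K []
    (eMLR fullB10 rpB10) 80 (.leaf 0 649)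
    ((24, 23, 22), (1, 1, 1), (33, 31, 31)) = true := by decide +kernel

theorem posB10_ml_2 : ∀ a b c : ℝ, InC ((24, 23, 22), (1, 1, 1), (33, 31, 31)) a b c → 0 ≤ PExp.ev (vec a b c) (eMLR fullB10 rpB10) :=
  chk1K_sound homB10_ml (by simp)
    _ _ oneB10_ml_2

theorem allB10_ml : ∀ Q ∈ fanCells fullB10.fan, ∀ a b c : ℝ, InC Q a b c →
    0 ≤ PExp.ev (vec a b c) (eMLR fullB10 rpB10) := by
  have e : fanCells fullB10.fan = [((13, 13, 10), (1, 1, 1), (36, 35, 31)), ((36, 35, 31), (1, 1, 1), (24, 23, 22)), ((24, 23, 22), (1, 1, 1), (33, 31, 31))] := rfl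
  rw [e]
  simp only [List.forall_mem_cons, List.not_mem_nil, false_imp_iff, implies_true, and_true]
  exact ⟨posB10_ml_0, posB10_ml_1, posB10_ml_2⟩

def homB10_r : hom 80 (eRR fullB10 rpB10) = true := by decide +kernel

def oB10_r_0_0 : chk1K [] (eRR fullB10 rpB10) 80 (.spU 1 2 1 1 (3, 1, 0) (.leaf 0 305) (.leaf 0 304))
    ((4, 1, 1), (1, 0, 0), (1, 1, 0)) = true := by decide +kernel

def oB10_r_0_1 : chk1K [] (eRR fullB10 rpB10) 80 (.spU 0 2 1 3 (2, 1, 1) (.leaf 0 291) (.spU 2 3 2 1 (5, 5, 2) (.spU 2 3 1 1 (11, 8, 5) (.spU 1 1 4 3 (3, 3, 2) (.leaf 0 384) (.leaf 0 412)) (.leaf 0 375)) (.leaf 0 312)))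
    ((1, 1, 1), (4, 1, 1), (1, 1, 0)) = true := by decide +kernel

def oneB10_r_0 : chk1K [((4, 1, 1), (1, 0, 0), (1, 1, 0)), ((1, 1, 1), (4, 1, 1), (1, 1, 0))]
    (eRR fullB10 rpB10) 80 (.spU 2 1 3 1 (4, 1, 1) .ext .ext)
    U0 = true := by decide +kernel

theorem posB10_r_0 : ∀ a b c : ℝ, InC U0 a b c → 0 ≤ PExp.ev (vec a b c) (eRR fullB10 rpB10) :=
  chk1K_sound homB10_r (by
    simp only [List.forall_mem_cons, List.not_mem_nil, false_imp_iff, implies_true, and_true]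
    exact ⟨chk1K_sound homB10_r (by simp) _ _ oB10_r_0_0,
      chk1K_sound homB10_r (by simp) _ _ oB10_r_0_1⟩)
    _ _ oneB10_r_0

def homB10_w : hom 20 (eW fullB10) = true := by decide +kernel

def oneB10_w_0 : chk1K []
    (eW fullB10) 20 (.spU 2 1 3 1 (4, 1, 1) (.leaf 0 97) (.spU 0 2 1 3 (2, 1, 1) (.leaf 0 103) (.spU 2 3 2 1 (5, 5, 2) (.leaf 0 112) (.leaf 0 111))))
    U0 = true := by decide +kernel

theorem posB10_w_0 : ∀ a b c : ℝ, InC U0 a b c → 0 ≤ PExp.ev (vec a b c) (eW fullB10) :=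
  chk1K_sound homB10_w (by simp)
    _ _ oneB10_w_0

def homB10_s : hom 8 (eSR rpB10) = true := by decide +kernel

def oneB10_s_0 : chk1K []
    (eSR rpB10) 8 (.leaf 0 50)
    U0 = true := by decide +kernel

theorem posB10_s_0 : ∀ a b c : ℝ, InC U0 a b c → 0 ≤ PExp.ev (vec a b c) (eSR rpB10) :=
  chk1K_sound homB10_s (by simp)
    _ _ oneB10_s_0

def homB10_kN : hom 10 (eKN fullB10) = true := by decide +kernel

def oneB10_kN_0 : chk1K []
    (eKN fullB10) 10 (.leaf 0 39)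
    U0 = true := by decide +kernel

theorem posB10_kN_0 : ∀ a b c : ℝ, InC U0 a b c → 0 ≤ PExp.ev (vec a b c) (eKN fullB10) :=
  chk1K_sound homB10_kN (by simp)
    _ _ oneB10_kN_0

def homB10_v3 : hom 10 (eV3 fullB10) = true := by decide +kernel

def oB10_v3_0_0 : chk1K [] (eV3 fullB10) 10 (.spU 1 2 1 1 (3, 1, 0) (.spU 1 3 1 1 (7, 4, 1) (.leaf 0 60) (.leaf 0 58)) (.spU 2 1 6 1 (10, 1, 1) (.spU 1 4 1 1 (7, 1, 0) (.leaf 0 61) (.leaf 0 59)) (.leaf 0 60)))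
    ((4, 1, 1), (1, 0, 0), (1, 1, 0)) = true := by decide +kernel

def oB10_v3_0_1 : chk1K [] (eV3 fullB10) 10 (.spU 1 3 1 1 (13, 7, 4) (.spU 2 3 1 1 (25, 16, 7) (.leaf 0 79) (.leaf 0 76)) (.spU 2 1 2 1 (8, 5, 3) (.leaf 0 70) (.spU 2 1 3 1 (25, 16, 7) (.leaf 0 77) (.leaf 0 80))))
    ((4, 3, 1), (2, 1, 1), (7, 4, 1)) = true := by decide +kernel

def oB10_v3_0_2 : chk1K [] (eV3 fullB10) 10 (.leaf 0 61)
    ((1, 1, 0), (4, 3, 1), (7, 4, 1)) = true := by decide +kernel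

def oB10_v3_0_3 : chk1K [] (eV3 fullB10) 10 (.spU 0 2 1 3 (5, 2, 1) (.spU 1 1 3 1 (13, 7, 4) (.leaf 0 67) (.leaf 0 70)) (.leaf 0 57))
    ((4, 1, 1), (7, 4, 1), (2, 1, 1)) = true := by decide +kernel

def oB10_v3_0_4 : chk1K [] (eV3 fullB10) 10 (.spU 2 3 1 1 (11, 8, 5) (.leaf 0 68) (.spU 2 1 1 1 (3, 2, 2) (.leaf 0 66) (.spU 2 1 6 1 (17, 14, 11) (.leaf 0 72) (.leaf 0 77))))
    ((5, 5, 2), (1, 1, 1), (2, 1, 1)) = true := by decide +kernel

def oB10_v3_0_5 : chk1K [] (eV3 fullB10) 10 (.spU 2 1 2 1 (4, 3, 1) (.leaf 0 60) (.leaf 0 61))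
    ((1, 1, 0), (5, 5, 2), (2, 1, 1)) = true := by decide +kernel

def oneB10_v3_0 : chk1K [((4, 1, 1), (1, 0, 0), (1, 1, 0)), ((4, 3, 1), (2, 1, 1), (7, 4, 1)), ((1, 1, 0), (4, 3, 1), (7, 4, 1)), ((4, 1, 1), (7, 4, 1), (2, 1, 1)), ((5, 5, 2), (1, 1, 1), (2, 1, 1)), ((1, 1, 0), (5, 5, 2), (2, 1, 1))]
    (eV3 fullB10) 10 (.spU 2 1 3 1 (4, 1, 1) .ext (.spU 0 2 1 3 (2, 1, 1) (.spU 1 1 3 1 (7, 4, 1) (.spU 1 2 1 1 (4, 3, 1) .ext .ext) .ext) (.spU 2 3 2 1 (5, 5, 2) .ext .ext)))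
    U0 = true := by decide +kernel

theorem posB10_v3_0 : ∀ a b c : ℝ, InC U0 a b c → 0 ≤ PExp.ev (vec a b c) (eV3 fullB10) :=
  chk1K_sound homB10_v3 (by
    simp only [List.forall_mem_cons, List.not_mem_nil, false_imp_iff, implies_true, and_true]
    exact ⟨chk1K_sound homB10_v3 (by simp) _ _ oB10_v3_0_0,
      chk1K_sound homB10_v3 (by simp) _ _ oB10_v3_0_1,
      chk1K_sound homB10_v3 (by simp) _ _ oB10_v3_0_2,
      chk1K_sound homB10_v3 (by simp) _ _ oB10_v3_0_3,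
      chk1K_sound homB10_v3 (by simp) _ _ oB10_v3_0_4,
      chk1K_sound homB10_v3 (by simp) _ _ oB10_v3_0_5⟩)
    _ _ oneB10_v3_0

def homB10_q : hom 20 (eQ fullB10) = true := by decide +kernel

def oneB10_q_0 : chk1K []
    (eQ fullB10) 20 (.leaf 0 189)
    ((13, 13, 10), (1, 1, 1), (36, 35, 31)) = true := by decide +kernel

theorem posB10_q_0 : ∀ a b c : ℝ, InC ((13, 13, 10), (1, 1, 1), (36, 35, 31)) a b c → 0 ≤ PExp.ev (vec a b c) (eQ fullB10) :=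
  chk1K_sound homB10_q (by simp)
    _ _ oneB10_q_0

def oneB10_q_1 : chk1K []
    (eQ fullB10) 20 (.leaf 0 195)
    ((36, 35, 31), (1, 1, 1), (24, 23, 22)) = true := by decide +kernel

theorem posB10_q_1 : ∀ a b c : ℝ, InC ((36, 35, 31), (1, 1, 1), (24, 23, 22)) a b c → 0 ≤ PExp.ev (vec a b c) (eQ fullB10) :=
  chk1K_sound homB10_q (by simp)
    _ _ oneB10_q_1

def oneB10_q_2 : chk1K []
    (eQ fullB10) 20 (.leaf 0 193)
    ((24, 23, 22), (1, 1, 1), (33, 31, 31)) = true := by decide +kernel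

theorem posB10_q_2 : ∀ a b c : ℝ, InC ((24, 23, 22), (1, 1, 1), (33, 31, 31)) a b c → 0 ≤ PExp.ev (vec a b c) (eQ fullB10) :=
  chk1K_sound homB10_q (by simp)
    _ _ oneB10_q_2

theorem allB10_q : ∀ Q ∈ fanCells fullB10.fan, ∀ a b c : ℝ, InC Q a b c →
    0 ≤ PExp.ev (vec a b c) (eQ fullB10) := by
  have e : fanCells fullB10.fan = [((13, 13, 10), (1, 1, 1), (36, 35, 31)), ((36, 35, 31), (1, 1, 1), (24, 23, 22)), ((24, 23, 22), (1, 1, 1), (33, 31, 31))] := rfl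
  rw [e]
  simp only [List.forall_mem_cons, List.not_mem_nil, false_imp_iff, implies_true, and_true]
  exact ⟨posB10_q_0, posB10_q_1, posB10_q_2⟩

def homB10_qm : hom 40 (eQM fullB10) = true := by decide +kernel

def oneB10_qm_0 : chk1K []
    (eQM fullB10) 40 (.leaf 0 379)
    ((13, 13, 10), (1, 1, 1), (36, 35, 31)) = true := by decide +kernel

theorem posB10_qm_0 : ∀ a b c : ℝ, InC ((13, 13, 10), (1, 1, 1), (36, 35, 31)) a b c → 0 ≤ PExp.ev (vec a b c) (eQM fullB10) :=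
  chk1K_sound homB10_qm (by simp)
    _ _ oneB10_qm_0

def oneB10_qm_1 : chk1K []
    (eQM fullB10) 40 (.leaf 0 391)
    ((36, 35, 31), (1, 1, 1), (24, 23, 22)) = true := by decide +kernel

theorem posB10_qm_1 : ∀ a b c : ℝ, InC ((36, 35, 31), (1, 1, 1), (24, 23, 22)) a b c → 0 ≤ PExp.ev (vec a b c) (eQM fullB10) :=
  chk1K_sound homB10_qm (by simp)
    _ _ oneB10_qm_1

def oneB10_qm_2 : chk1K []
    (eQM fullB10) 40 (.leaf 0 389)
    ((24, 23, 22), (1, 1, 1), (33, 31, 31)) = true := by decide +kernel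

theorem posB10_qm_2 : ∀ a b c : ℝ, InC ((24, 23, 22), (1, 1, 1), (33, 31, 31)) a b c → 0 ≤ PExp.ev (vec a b c) (eQM fullB10) :=
  chk1K_sound homB10_qm (by simp)
    _ _ oneB10_qm_2

theorem allB10_qm : ∀ Q ∈ fanCells fullB10.fan, ∀ a b c : ℝ, InC Q a b c →
    0 ≤ PExp.ev (vec a b c) (eQM fullB10) := by
  have e : fanCells fullB10.fan = [((13, 13, 10), (1, 1, 1), (36, 35, 31)), ((36, 35, 31), (1, 1, 1), (24, 23, 22)), ((24, 23, 22), (1, 1, 1), (33, 31, 31))] := rfl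
  rw [e]
  simp only [List.forall_mem_cons, List.not_mem_nil, false_imp_iff, implies_true, and_true]
  exact ⟨posB10_qm_0, posB10_qm_1, posB10_qm_2⟩

end Vale.Agent.P154.Sep2
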