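import Mathlib
import Vale.Agent.P154.PMR
import Vale.Agent.P154.B10M0
import Vale.Agent.P154.B10M1
import Vale.Agent.P154.B10M2
import Vale.Agent.P154.B10M3
import Vale.Agent.P154.B10One

namespace Vale.Agent.P154.Sep2

theorem okB10 : datB10.ok = true := by decide +kernel

noncomputable def knownB10 : List (Cell × Cell × ℕ × ℕ) := [(((4, 1, 1), (1, 0, 0), (1, 1, 0)), ((13, 13, 10), (1, 1, 1), (36, 35, 31)), 0, 64),
  (((2, 1, 1), (4, 1, 1), (5, 5, 2)), ((13, 13, 10), (1, 1, 1), (36, 35, 31)), 0, 32),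
  (((2, 1, 1), (4, 1, 1), (5, 5, 2)), ((13, 13, 10), (1, 1, 1), (36, 35, 31)), 32, 64),
  (((3, 2, 2), (2, 1, 1), (5, 5, 2)), ((13, 13, 10), (1, 1, 1), (36, 35, 31)), 0, 16),
  (((5, 4, 4), (3, 2, 2), (6, 6, 5)), ((13, 13, 10), (1, 1, 1), (36, 35, 31)), 0, 8),
  (((1, 1, 1), (5, 4, 4), (6, 6, 5)), ((19, 19, 16), (1, 1, 1), (36, 35, 31)), 0, 4),
  (((1, 1, 1), (5, 4, 4), (6, 6, 5)), ((19, 19, 16), (1, 1, 1), (36, 35, 31)), 4, 8),
  (((1, 1, 1), (5, 4, 4), (6, 6, 5)), ((13, 13, 10), (19, 19, 16), (36, 35, 31)), 0, 8),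
  (((6, 6, 5), (1, 1, 1), (3, 2, 2)), ((13, 13, 10), (1, 1, 1), (36, 35, 31)), 8, 16),
  (((3, 3, 2), (6, 6, 5), (3, 2, 2)), ((19, 19, 16), (1, 1, 1), (36, 35, 31)), 0, 8),
  (((3, 3, 2), (6, 6, 5), (3, 2, 2)), ((13, 13, 10), (19, 19, 16), (36, 35, 31)), 0, 8),
  (((3, 3, 2), (6, 6, 5), (3, 2, 2)), ((13, 13, 10), (1, 1, 1), (36, 35, 31)), 8, 16),
  (((5, 5, 2), (3, 3, 2), (3, 2, 2)), ((13, 13, 10), (1, 1, 1), (36, 35, 31)), 0, 16),
  (((1, 1, 1), (2, 1, 1), (5, 5, 2)), ((13, 13, 10), (1, 1, 1), (36, 35, 31)), 16, 32),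
  (((3, 3, 2), (1, 1, 1), (2, 1, 1)), ((13, 13, 10), (1, 1, 1), (36, 35, 31)), 32, 64),
  (((5, 5, 2), (3, 3, 2), (2, 1, 1)), ((13, 13, 10), (1, 1, 1), (36, 35, 31)), 32, 48),
  (((5, 5, 2), (3, 3, 2), (2, 1, 1)), ((13, 13, 10), (1, 1, 1), (36, 35, 31)), 48, 56),
  (((5, 5, 2), (3, 3, 2), (2, 1, 1)), ((13, 13, 10), (1, 1, 1), (36, 35, 31)), 56, 64),
  (((7, 4, 1), (1, 1, 0), (5, 5, 2)), ((13, 13, 10), (1, 1, 1), (36, 35, 31)), 0, 64),
  (((13, 7, 4), (4, 1, 1), (7, 4, 1)), ((13, 13, 10), (1, 1, 1), (36, 35, 31)), 0, 32),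
  (((5, 5, 2), (13, 7, 4), (7, 4, 1)), ((13, 13, 10), (1, 1, 1), (36, 35, 31)), 0, 32),
  (((4, 1, 1), (7, 4, 1), (5, 5, 2)), ((13, 13, 10), (1, 1, 1), (36, 35, 31)), 32, 64),
  (((4, 1, 1), (1, 0, 0), (1, 1, 0)), ((36, 35, 31), (1, 1, 1), (24, 23, 22)), 0, 64),
  (((2, 1, 1), (4, 1, 1), (5, 5, 2)), ((36, 35, 31), (1, 1, 1), (24, 23, 22)), 0, 64),
  (((3, 2, 2), (2, 1, 1), (3, 3, 2)), ((36, 35, 31), (1, 1, 1), (24, 23, 22)), 0, 16),
  (((1, 1, 1), (3, 2, 2), (3, 3, 2)), ((36, 35, 31), (1, 1, 1), (24, 23, 22)), 0, 16),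
  (((5, 5, 2), (3, 3, 2), (2, 1, 1)), ((36, 35, 31), (1, 1, 1), (24, 23, 22)), 0, 16),
  (((1, 1, 1), (2, 1, 1), (5, 5, 2)), ((36, 35, 31), (1, 1, 1), (24, 23, 22)), 16, 32),
  (((1, 1, 1), (2, 1, 1), (5, 5, 2)), ((36, 35, 31), (1, 1, 1), (24, 23, 22)), 32, 64),
  (((1, 1, 0), (5, 5, 2), (4, 1, 1)), ((36, 35, 31), (1, 1, 1), (24, 23, 22)), 0, 64),
  (((4, 1, 1), (1, 0, 0), (1, 1, 0)), ((24, 23, 22), (1, 1, 1), (33, 31, 31)), 0, 64),
  (((1, 1, 1), (4, 1, 1), (1, 1, 0)), ((24, 23, 22), (1, 1, 1), (33, 31, 31)), 0, 64)]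

theorem known_posB10 : ∀ c ∈ knownB10, Pos datB10 c.1 c.2.1 c.2.2.1 c.2.2.2 := by
  unfold knownB10
  simp only [List.forall_mem_cons, List.not_mem_nil, false_imp_iff, implies_true, and_true]
  exact ⟨chkT_sound okB10 (by simp) _ _ _ _ _ partB10_0,
    chkT_sound okB10 (by simp) _ _ _ _ _ partB10_1,
    chkT_sound okB10 (by simp) _ _ _ _ _ partB10_2,
    chkT_sound okB10 (by simp) _ _ _ _ _ partB10_3,
    chkT_sound okB10 (by simp) _ _ _ _ _ partB10_4,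
    chkT_sound okB10 (by simp) _ _ _ _ _ partB10_5,
    chkT_sound okB10 (by simp) _ _ _ _ _ partB10_6,
    chkT_sound okB10 (by simp) _ _ _ _ _ partB10_7,
    chkT_sound okB10 (by simp) _ _ _ _ _ partB10_8,
    chkT_sound okB10 (by simp) _ _ _ _ _ partB10_9,
    chkT_sound okB10 (by simp) _ _ _ _ _ partB10_10,
    chkT_sound okB10 (by simp) _ _ _ _ _ partB10_11,
    chkT_sound okB10 (by simp) _ _ _ _ _ partB10_12,
    chkT_sound okB10 (by simp) _ _ _ _ _ partB10_13,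
    chkT_sound okB10 (by simp) _ _ _ _ _ partB10_14,
    chkT_sound okB10 (by simp) _ _ _ _ _ partB10_15,
    chkT_sound okB10 (by simp) _ _ _ _ _ partB10_16,
    chkT_sound okB10 (by simp) _ _ _ _ _ partB10_17,
    chkT_sound okB10 (by simp) _ _ _ _ _ partB10_18,
    chkT_sound okB10 (by simp) _ _ _ _ _ partB10_19,
    chkT_sound okB10 (by simp) _ _ _ _ _ partB10_20,
    chkT_sound okB10 (by simp) _ _ _ _ _ partB10_21,
    chkT_sound okB10 (by simp) _ _ _ _ _ partB10_22,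
    chkT_sound okB10 (by simp) _ _ _ _ _ partB10_23,
    chkT_sound okB10 (by simp) _ _ _ _ _ partB10_24,
    chkT_sound okB10 (by simp) _ _ _ _ _ partB10_25,
    chkT_sound okB10 (by simp) _ _ _ _ _ partB10_26,
    chkT_sound okB10 (by simp) _ _ _ _ _ partB10_27,
    chkT_sound okB10 (by simp) _ _ _ _ _ partB10_28,
    chkT_sound okB10 (by simp) _ _ _ _ _ partB10_29,
    chkT_sound okB10 (by simp) _ _ _ _ _ partB10_30,
    chkT_sound okB10 (by simp) _ _ _ _ _ partB10_31⟩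

def topB10_0 : chkT datB10 knownB10 (.spU 2 1 3 1 (4, 1, 1) .ext (.spU 2 3 2 1 (5, 5, 2) (.spU 1 2 1 3 (2, 1, 1) (.spS 32 .ext .ext) (.spS 32 (.spS 16 (.spU 0 1 1 1 (3, 2, 2) .ext (.spU 2 1 4 3 (3, 3, 2) (.spU 0 1 3 1 (6, 6, 5) (.spS 8 (.spU 1 2 1 1 (5, 4, 4) .ext (.spV 0 1 6 1 (19, 19, 16) (.spS 4 .ext .ext) .ext)) .ext) (.spS 8 (.spV 0 1 6 1 (19, 19, 16) .ext .ext) .ext)) .ext)) .ext) (.spU 2 1 4 3 (3, 3, 2) .ext (.spS 48 .ext (.spS 56 .ext .ext))))) (.spU 2 1 3 1 (7, 4, 1) .ext (.spS 32 (.spU 2 1 2 1 (13, 7, 4) .ext .ext) .ext))))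
    U0 ((13, 13, 10), (1, 1, 1), (36, 35, 31)) 0 64 = true := by decide +kernel

def topB10_1 : chkT datB10 knownB10 (.spU 2 1 3 1 (4, 1, 1) .ext (.spU 2 3 2 1 (5, 5, 2) (.spU 1 2 1 3 (2, 1, 1) .ext (.spS 32 (.spS 16 (.spU 2 1 4 3 (3, 3, 2) (.spU 1 1 1 1 (3, 2, 2) .ext .ext) .ext) .ext) .ext)) .ext))
    U0 ((36, 35, 31), (1, 1, 1), (24, 23, 22)) 0 64 = true := by decide +kernel

def topB10_2 : chkT datB10 knownB10 (.spU 2 1 3 1 (4, 1, 1) .ext .ext)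
    U0 ((24, 23, 22), (1, 1, 1), (33, 31, 31)) 0 64 = true := by decide +kernel

theorem mainB10 : ∀ Q ∈ fanCells fullB10.fan, Pos fullB10.D U0 Q 0 fullB10.N := by
  have e : fanCells fullB10.fan = [((13, 13, 10), (1, 1, 1), (36, 35, 31)), ((36, 35, 31), (1, 1, 1), (24, 23, 22)), ((24, 23, 22), (1, 1, 1), (33, 31, 31))] := rfl
  rw [e]
  simp only [List.forall_mem_cons, List.not_mem_nil, false_imp_iff, implies_true, and_true]
  exact ⟨chkT_sound okB10 known_posB10 _ _ _ _ _ topB10_0, chkT_sound okB10 known_posB10 _ _ _ _ _ topB10_1, chkT_sound okB10 known_posB10 _ _ _ _ _ topB10_2⟩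

theorem validB10 : ValidR fullB10 rpB10 where
  pok := by decide +kernel
  ok := okB10
  r0 := by decide +kernel
  c0 := by decide +kernel
  ln0 := by decide +kernel
  ld0 := by decide +kernel
  dn0 := by decide +kernel
  dd0 := by decide +kernel
  Da0 := by decide +kernel
  cn0 := by decide +kernel
  cd0 := by decide +kernel
  gn0 := by decide +kernel
  gd0 := by decide +kernel
  fan := by decide +kernel
  fan1 := by decide +kernel
  fan2 := by decide +kernel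
  main := mainB10
  hm := allB10_m
  hml := allB10_ml
  hr := posB10_r_0
  hw := posB10_w_0
  hs := posB10_s_0
  s0 := by decide +kernel
  s1 := by decide +kernel
  v2 := by decide +kernel
  v3 := by decide +kernel

theorem kvalidB10 : KValid fullB10 where
  hkN := posB10_kN_0
  hv3 := posB10_v3_0
  hq := allB10_q
  hqm := allB10_qm

def cornerB10 : (2 * (rpB10.den : ℤ) + (rpB10.L.map fun m => m.2.2 * 2 ^ (m.1 + m.2.1)).sum) *
    fullB10.dd ≤ fullB10.N * fullB10.dn * rpB10.den := by decide +kernel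

end Vale.Agent.P154.Sep2
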