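import Mathlib
import Vale.Agent.P154.C3Data

namespace Vale.Agent.P154.Sep2

/-- cell 0: 77 leaves -/
theorem sC3_0 : chkFanP fullC3 scC3 [(.spU 0 3 2 1 (5, 5, 2) (.spU 0 1 4 3 (3, 3, 2) (.spU 0 1 3 1 (6, 6, 5) (.spU 1 86 1 1 (179, 178, 160) (.spU 0 1 2 1 (365, 362, 308) (.leaf 6 274) (.spU 2 30 1 1 (359, 358, 310) (.spU 1 2 1 1 (723, 718, 628) (.spU 0 1 2 1 (1453, 1442, 1244) (.spU 1 1 1 2 (362, 360, 309) (.leaf 5 319) (.leaf 6 319)) (.leaf 5 324)) (.leaf 5 303)) (.spU 0 60 1 1 (719, 718, 610) (.spU 1 1 1 2 (362, 360, 309) (.leaf 6 307) (.spU 2 1 2 3 (479, 478, 410) (.leaf 5 302) (.leaf 6 310))) (.leaf 6 299)))) (.spU 2 1 6 1 (12, 12, 11) (.spU 1 172 1 1 (351, 350, 332) (.spU 0 1 2 1 (709, 706, 652) (.leaf 4 294) (.spU 2 30 1 1 (711, 710, 662) (.leaf 3 314) (.leaf 4 308))) (.spU 2 1 12 1 (24, 24, 23) (.spU 1 344 1 1 (695,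 694, 676) (.spU 0 3 5 8 (480, 479, 461) (.leaf 2 293) (.leaf 1 303)) (.spU 2 1 24 1 (48, 48, 47) (.leaf 0 289) (.leaf 1 290))) (.spU 0 2 1 3 (16, 16, 15) (.spU 0 5 3 8 (19, 19, 18) (.leaf 2 270) (.leaf 3 270)) (.spU 2 1 30 1 (711, 710, 662) (.spU 1 1 1 2 (14, 14, 13) (.leaf 3 289) (.leaf 4 288)) (.leaf 3 299))))) (.spU 0 2 1 3 (8, 8, 7) (.spU 0 5 3 4 (19, 19, 17) (.leaf 4 252) (.leaf 5 251)) (.spU 2 1 30 1 (359, 358, 310) (.spU 1 1 1 2 (7, 7, 6) (.leaf 5 268) (.spU 2 1 60 1 (719, 718, 610) (.leaf 6 288) (.spU 0 2 1 3 (479, 478, 410) (.leaf 6 302) (.leaf 5 292)))) (.leaf 5 279))))) (.spU 0 2 1 3 (4, 4, 3) (.spU 0 3 2 1 (24, 24, 19) (.spU 0 1 4 3 (16, 16, 13) (.leaf 6 234) (.spU 0 1 1 8 (5, 5, 4) (.leaf 6 234) (.leaf 7 236))) (.leaf 7 235)) (.spU 2 1 32 1 (189, 188, 138) (.leaf 8 249) (.spU 0 5 3 8 (129, 128, 98) (.spU 0 3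 2 5 (153, 152, 114) (.leaf 8 266) (.leaf 7 260)) (.leaf 7 253))))) (.spU 2 1 22 1 (203, 202, 118) (.leaf 9 251) (.spU 0 7 4 11 (133, 132, 90) (.leaf 9 265) (.spU 2 32 1 1 (189, 188, 138) (.spU 1 5 3 8 (108, 107, 80) (.spU 0 3 2 5 (118, 117, 84) (.spU 1 5 3 8 (154, 153, 108) (.leaf 8 274) (.spU 2 1 1 1 (251, 249, 174) (.spU 1 5 4 3 (427, 424, 294) (.leaf 8 291) (.spU 2 1 2 1 (517, 513, 354) (.leaf 9 298) (.leaf 8 301))) (.leaf 8 277))) (.leaf 8 271)) (.spU 2 3 5 8 (129, 128, 98) (.leaf 7 264) (.spU 0 2 3 5 (153, 152, 114) (.leaf 7 269) (.leaf 8 273)))) (.spU 0 64 1 1 (381, 380, 266) (.spU 1 3 5 8 (154, 153, 108) (.spU 0 4 5 3 (427, 424, 294) (.spU 1 3 1 4 (195, 194, 134) (.leaf 8 296) (.leaf 9 288)) (.leaf 8 295)) (.leaf 8 287)) (.spU 0 128 1 1 (765, 764, 522) (.spU 1 1 3 4 (195, 194, 134) (.leaf 9 299) (.leaf 8 304)) (.leaf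 9 293))))))) (.spU 2 1 130 1 (223, 222, 74) (.leaf 9 252) (.spU 0 7 3 10 (132, 131, 74) (.leaf 9 266) (.spU 2 22 1 1 (203, 202, 118) (.spU 1 5 4 3 (331, 328, 222) (.leaf 9 284) (.spU 2 4 7 11 (133, 132, 90) (.spU 1 7 2 13 (101, 100, 74) (.spU 0 4 1 7 (105, 104, 74) (.spU 0 3 1 2 (323, 320, 222) (.leaf 9 289) (.spU 2 1 1 2 (119, 118, 82) (.leaf 8 279) (.leaf 9 280))) (.spU 2 3 5 8 (113, 112, 80) (.leaf 8 263) (.spU 0 1 1 2 (123, 122, 85) (.leaf 8 265) (.spU 2 1 1 2 (119, 118, 82) (.spU 1 1 1 1 (256, 254, 175) (.leaf 8 276) (.leaf 9 276)) (.leaf 8 265))))) (.spU 2 3 5 8 (108, 107, 80) (.spU 1 1 1 2 (97, 96, 74) (.spU 0 1 1 2 (99, 98, 74) (.leaf 8 262) (.leaf 7 262)) (.leaf 7 261)) (.spU 0 2 3 5 (118, 117, 84) (.leaf 8 264) (.spU 2 5 3 8 (113, 112, 80) (.spU 1 1 1 1 (251, 249, 174) (.leaf 8 275) (.spU 2 1 1 2 (123, 122, 85)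 (.spU 1 2 1 1 (517, 513, 354) (.leaf 8 293) (.spU 2 1 1 1 (256, 254, 175) (.leaf 9 293) (.leaf 8 293))) (.leaf 8 275))) (.leaf 8 264))))) (.leaf 9 284))) (.leaf 9 264)))))]
    [((1, 1, 0), (1, 1, 1), (93, 92, 74))] = true := by decide +kernel

/-- cell 1: 13 leaves -/
theorem sC3_1 : chkFanP fullC3 scC3 [(.spU 0 1 86 1 (179, 178, 160) (.spU 1 40 1 1 (82, 81, 76) (.spU 0 3 7 10 (54, 53, 48) (.leaf 5 260) (.leaf 4 264)) (.spU 2 1 172 1 (351, 350, 332) (.spU 1 80 1 1 (162, 161, 156) (.spU 0 3 7 10 (106, 105, 100) (.leaf 3 279) (.leaf 2 284)) (.spU 2 1 344 1 (695, 694, 676) (.leaf 0 293) (.spU 0 5 3 8 (480, 479, 461) (.leaf 1 306) (.leaf 2 297)))) (.spU 0 2 1 1 (709, 706, 652) (.leaf 3 301) (.leaf 4 296)))) (.spU 0 2 1 1 (365, 362, 308) (.spU 0 1 2 1 (723, 718, 628) (.leaf 5 295) (.spU 0 2 1 1 (1453, 1442, 1244) (.leaf 5 320)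 (.leaf 6 315))) (.leaf 6 277)))]
    [((93, 92, 74), (1, 1, 1), (42, 41, 36))] = true := by decide +kernel

/-- cell 2: 7 leaves -/
theorem sC3_2 : chkFanP fullC3 scC3 [(.spU 0 1 40 1 (82, 81, 76) (.spU 1 41 1 2 (42, 41, 40) (.leaf 3 245) (.spU 2 1 80 1 (162, 161, 156) (.spU 1 41 1 1 (83, 82, 81) (.leaf 1 261) (.leaf 0 257)) (.spU 0 7 3 10 (106, 105, 100) (.leaf 2 264) (.leaf 3 255)))) (.spU 0 7 3 10 (54, 53, 48) (.leaf 4 247) (.leaf 5 240)))]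
    [((42, 41, 36), (1, 1, 1), (43, 41, 39))] = true := by decide +kernel

/-- cell 3: 4 leaves -/
theorem sC3_3 : chkFanP fullC3 scC3 [(.spU 0 1 41 2 (42, 41, 40) (.spU 1 56 1 1 (115, 111, 111) (.leaf 2 253) (.spU 2 1 41 1 (83, 82, 81) (.leaf 0 251) (.leaf 1 256))) (.leaf 3 241))]
    [((43, 41, 39), (1, 1, 1), (59, 55, 55))] = true := by decide +kernel

end Vale.Agent.P154.Sep2
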