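import Mathlib
import Vale.Agent.P154.C3Data

namespace Vale.Agent.P154.Sep2

/-- piece 5: 20 leaves -/
def pcC3_5 : Pc := ⟨2, 10000, [(0, 0, (-2731320)), (1, 0, 1408535)]⟩
theorem homuC3_5 : hom (pcC3_5.w * fullC3.D.r) (eRp fullC3 pcC3_5) = true := by decide +kernel
theorem uC3_5 : chk1 (eRp fullC3 pcC3_5) (pcC3_5.w * fullC3.D.r)
    (.spU 2 1 3 1 (4, 1, 1) (.spU 1 2 1 1 (3, 1, 0) (.spU 1 3 1 1 (7, 4, 1) (.leaf 0 156) (.spU 2 1 2 1 (5, 3, 0) (.leaf 0 154) (.leaf 0 158))) (.leaf 0 139)) (.spU 0 2 1 3 (2, 1, 1) (.spU 1 1 3 1 (7, 4, 1) (.leaf 0 147) (.leaf 0 154)) (.spU 2 3 2 1 (5, 5, 2) (.spU 2 3 1 1 (11, 8, 5) (.leaf 0 165) (.spU 2 4 3 1 (10, 7, 7) (.spU 2 1 1 3 (7, 5, 4) (.spU 1 1 5 4 (5, 3, 3) (.spU 1 4 1 1 (15, 9, 8) (.leaf 0 178) (.spU 2 1 3 1 (11, 6, 6) (.spU 1 8 1 1 (31, 17, 16) (.leaf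 0 199) (.spU 2 1 6 1 (23, 12, 12) (.leaf 0 198) (.leaf 0 202))) (.leaf 0 181))) (.leaf 0 172)) (.spU 2 6 1 1 (23, 14, 11) (.leaf 0 190) (.spU 2 1 4 1 (15, 9, 8) (.leaf 0 189) (.leaf 0 192)))) (.leaf 0 173))) (.spU 2 1 2 1 (4, 3, 1) (.leaf 0 150) (.spU 2 1 3 1 (11, 8, 5) (.leaf 0 164) (.leaf 0 169))))))
    U0 = true := by decide +kernel

/-- piece 6: 15 leaves -/
def pcC3_6 : Pc := ⟨2, 10000, [(0, 0, (-8179477)), (1, 0, 4147679)]⟩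
theorem homuC3_6 : hom (pcC3_6.w * fullC3.D.r) (eRp fullC3 pcC3_6) = true := by decide +kernel
theorem uC3_6 : chk1 (eRp fullC3 pcC3_6) (pcC3_6.w * fullC3.D.r)
    (.spU 2 1 3 1 (4, 1, 1) (.spU 1 2 1 1 (3, 1, 0) (.spU 1 3 1 1 (7, 4, 1) (.leaf 0 156) (.spU 2 1 2 1 (5, 3, 0) (.leaf 0 155) (.spU 2 1 3 1 (16, 7, 1) (.spU 1 2 1 1 (11, 5, 0) (.leaf 0 180) (.leaf 0 178)) (.leaf 0 176)))) (.leaf 0 140)) (.spU 0 2 1 3 (2, 1, 1) (.spU 1 1 3 1 (7, 4, 1) (.leaf 0 148) (.spU 0 2 1 3 (5, 2, 1) (.spU 1 1 3 1 (13, 7, 4) (.spU 1 2 1 1 (9, 4, 3) (.leaf 0 176) (.leaf 0 173)) (.leaf 0 174)) (.spU 2 3 2 1 (14, 5, 5) (.leaf 0 171) (.spU 2 1 2 1 (9, 4, 3) (.spU 1 7 1 4 (7, 3, 3) (.leaf 0 179) (.leaf 0 164)) (.leaf 0 177))))) (.leaf 0 123)))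
    U0 = true := by decide +kernel

/-- piece 7: 9 leaves -/
def pcC3_7 : Pc := ⟨2, 10000, [(0, 0, (-23024015)), (1, 0, 11584906)]⟩
theorem homuC3_7 : hom (pcC3_7.w * fullC3.D.r) (eRp fullC3 pcC3_7) = true := by decide +kernel
theorem uC3_7 : chk1 (eRp fullC3 pcC3_7) (pcC3_7.w * fullC3.D.r)
    (.spU 2 1 3 1 (4, 1, 1) (.spU 1 2 1 1 (3, 1, 0) (.spU 1 3 1 1 (7, 4, 1) (.leaf 0 157) (.spU 2 1 2 1 (5, 3, 0) (.leaf 0 155) (.spU 2 1 3 1 (16, 7, 1) (.spU 1 2 1 1 (11, 5, 0) (.leaf 0 181) (.leaf 0 179)) (.leaf 0 177)))) (.leaf 0 141)) (.spU 0 2 1 3 (2, 1, 1) (.spU 1 1 3 1 (7, 4, 1) (.leaf 0 148) (.leaf 0 155)) (.leaf 0 123)))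
    U0 = true := by decide +kernel

/-- piece 8: 12 leaves -/
def pcC3_8 : Pc := ⟨2, 10000, [(0, 0, (-52575692)), (1, 0, 26375564)]⟩
theorem homuC3_8 : hom (pcC3_8.w * fullC3.D.r) (eRp fullC3 pcC3_8) = true := by decide +kernel
theorem uC3_8 : chk1 (eRp fullC3 pcC3_8) (pcC3_8.w * fullC3.D.r)
    (.spU 2 1 3 1 (4, 1, 1) (.spU 1 2 1 1 (3, 1, 0) (.spU 1 3 1 1 (7, 4, 1) (.leaf 0 158) (.spU 2 1 2 1 (5, 3, 0) (.leaf 0 156) (.spU 2 1 3 1 (16, 7, 1) (.spU 1 2 1 1 (11, 5, 0) (.leaf 0 182) (.spU 2 1 6 1 (34, 13, 1) (.spU 1 4 1 1 (23, 9, 0) (.spU 1 3 1 1 (67, 28, 1) (.leaf 0 221) (.spU 2 1 2 1 (45, 19, 0) (.leaf 0 221) (.leaf 0 224))) (.leaf 0 200)) (.leaf 0 201))) (.leaf 0 178)))) (.leaf 0 142)) (.spU 0 2 1 3 (2, 1, 1) (.leaf 0 138) (.leaf 0 124)))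
    U0 = true := by decide +kernel

/-- piece 9: 10 leaves -/
def pcC3_9 : Pc := ⟨2, 10000, [(0, 0, (-134449177)), (1, 0, 67332682)]⟩
theorem homuC3_9 : hom (pcC3_9.w * fullC3.D.r) (eRp fullC3 pcC3_9) = true := by decide +kernel
theorem uC3_9 : chk1 (eRp fullC3 pcC3_9) (pcC3_9.w * fullC3.D.r)
    (.spU 2 1 3 1 (4, 1, 1) (.spU 1 2 1 1 (3, 1, 0) (.spU 1 3 1 1 (7, 4, 1) (.leaf 0 159) (.spU 2 1 2 1 (5, 3, 0) (.leaf 0 157) (.spU 2 1 3 1 (16, 7, 1) (.spU 1 2 1 1 (11, 5, 0) (.leaf 0 183) (.spU 2 1 6 1 (34, 13, 1) (.spU 1 4 1 1 (23, 9, 0) (.leaf 0 205) (.leaf 0 201)) (.leaf 0 202))) (.leaf 0 179)))) (.leaf 0 143)) (.spU 0 2 1 3 (2, 1, 1) (.leaf 0 140) (.leaf 0 124)))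
    U0 = true := by decide +kernel

/-- piece 10: 8 leaves -/
def pcC3_10 : Pc := ⟨2, 10000, [(0, 0, (-540734885)), (1, 0, 270511329)]⟩
theorem homuC3_10 : hom (pcC3_10.w * fullC3.D.r) (eRp fullC3 pcC3_10) = true := by decide +kernel
theorem uC3_10 : chk1 (eRp fullC3 pcC3_10) (pcC3_10.w * fullC3.D.r)
    (.spU 2 1 3 1 (4, 1, 1) (.spU 1 2 1 1 (3, 1, 0) (.spU 1 3 1 1 (7, 4, 1) (.leaf 0 161) (.spU 2 1 2 1 (5, 3, 0) (.leaf 0 159) (.spU 2 1 3 1 (16, 7, 1) (.spU 1 2 1 1 (11, 5, 0) (.leaf 0 185) (.leaf 0 183)) (.leaf 0 181)))) (.leaf 0 145)) (.spU 0 2 1 3 (2, 1, 1) (.leaf 0 141) (.leaf 0 126)))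
    U0 = true := by decide +kernel

/-- piece 11: 7 leaves -/
def pcC3_11 : Pc := ⟨2, 10000, [(0, 0, (-6162086809)), (1, 0, 3081255442)]⟩
theorem homuC3_11 : hom (pcC3_11.w * fullC3.D.r) (eRp fullC3 pcC3_11) = true := by decide +kernel
theorem uC3_11 : chk1 (eRp fullC3 pcC3_11) (pcC3_11.w * fullC3.D.r)
    (.spU 2 1 3 1 (4, 1, 1) (.spU 1 2 1 1 (3, 1, 0) (.leaf 0 149) (.spU 2 1 6 1 (10, 1, 1) (.spU 1 4 1 1 (7, 1, 0) (.spU 1 3 1 1 (19, 4, 1) (.leaf 0 192) (.spU 2 1 2 1 (13, 3, 0) (.leaf 0 191) (.leaf 0 194))) (.leaf 0 172)) (.leaf 0 171))) (.leaf 0 140))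
    U0 = true := by decide +kernel

end Vale.Agent.P154.Sep2
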