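import Mathlib
import Vale.Agent.P154.C3Data
import Vale.Agent.P154.Pe.GC_1

namespace Vale.Agent.P154.Sep2

/-- cell 0: 85 leaves -/
theorem vC3_0 : chkFanP fullC3 pcC3 [(.spU 0 3 2 1 (5, 5, 2) (.spU 0 1 4 3 (3, 3, 2) (.spU 0 1 3 1 (6, 6, 5) (.spU 1 86 1 1 (179, 178, 160) (.spU 0 1 2 1 (365, 362, 308) (.spU 0 1 4 1 (737, 730, 604) (.spU 1 1 15 1 (183, 182, 149) (.leaf 1 710) (.spU 2 1 8 1 (1481, 1466, 1196) (.leaf 2 765) (.leaf 1 792))) (.leaf 1 725)) (.leaf 1 665)) (.spU 2 1 6 1 (12, 12, 11) (.leaf 0 575) (.spU 0 2 1 3 (8, 8, 7) (.spU 0 5 3 4 (19, 19, 17) (.leaf 0 583) (.leaf 1 581)) (.leaf 1 575)))) (.spU 0 2 1 3 (4, 4, 3) (.spU 0 3 2 1 (24, 24, 19) (.spU 0 1 4 3 (16, 16, 13) (.spU 1 15 1 1 (183, 182, 149) (.leaf 2 610) (.leaf 1 579)) (.leaf 2 542)) (.leaf 2 534)) (.spU 2 1 32 1 (189, 188, 138) (.spU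 1 3 2 1 (17, 17, 12) (.spU 0 1 4 3 (11, 11, 8) (.leaf 2 578) (.leaf 3 584)) (.leaf 3 581)) (.leaf 2 608)))) (.spU 2 1 22 1 (203, 202, 118) (.spU 1 2 3 1 (19, 19, 10) (.spU 0 1 7 8 (5, 5, 3) (.spU 1 65 1 1 (398, 397, 248) (.leaf 4 676) (.spU 2 2 3 1 (19, 19, 12) (.spU 1 130 1 1 (788, 787, 508) (.leaf 4 736) (.spU 2 1 6 1 (37, 37, 24) (.leaf 3 700) (.leaf 4 705))) (.leaf 4 645))) (.spU 0 3 11 7 (16, 16, 9) (.leaf 4 590) (.spU 2 1 11 1 (412, 411, 228) (.spU 1 3 4 11 (11, 11, 6) (.leaf 5 272) (.spU 2 1 22 1 (830, 829, 448) (.spU 1 3 5 4 (28, 28, 15) (.leaf 5 291) (.spU 2 1 44 1 (1666, 1665, 888) (.spU 1 4 3 5 (32, 32, 17) (.leaf 5 311) (.leaf 6 311)) (.leaf 5 322))) (.leaf 5 302))) (.leaf 4 680)))) (.spU 2 1 44 1 (423, 422, 206) (.spU 1 4 1 3 (13, 13, 6) (.spU 0 1 1 16 (2, 2, 1) (.leaf 6 272) (.spU 0 1 6 1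 (25, 25, 12) (.leaf 6 272) (.leaf 7 273))) (.spU 2 1 88 1 (863, 862, 382) (.spU 1 3 1 4 (7, 7, 3) (.spU 0 2 1 3 (9, 9, 4) (.spU 1 66 1 1 (1721, 1720, 778) (.leaf 8 323) (.spU 2 3 2 1 (53, 53, 24) (.leaf 7 312) (.spU 0 7 1 4 (29, 29, 13) (.leaf 7 312) (.leaf 8 312)))) (.leaf 8 292)) (.spU 2 1 176 1 (1743, 1742, 734) (.spU 1 3 2 1 (29, 29, 12) (.spU 0 1 4 3 (19, 19, 8) (.leaf 8 312) (.spU 2 1 60 1 (3483, 3482, 1454) (.spU 1 2 3 1 (115, 115, 48) (.leaf 8 332) (.leaf 9 332)) (.leaf 8 343))) (.leaf 9 312)) (.leaf 8 323))) (.leaf 7 303))) (.spU 0 7 4 11 (283, 282, 150) (.leaf 6 286) (.spU 2 11 1 1 (412, 411, 228) (.leaf 4 710) (.spU 0 22 1 1 (830, 829, 448) (.leaf 4 756) (.spU 0 44 1 1 (1666, 1665, 888) (.spU 1 1 3 1 (1679, 1675, 898) (.leaf 6 333) (.leaf 5 337)) (.leaf 6 315))))))) (.spU 0 7 4 11 (133, 132,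 90) (.spU 0 4 3 7 (163, 162, 102) (.spU 1 1 65 1 (398, 397, 248) (.spU 0 1 130 1 (788, 787, 508) (.leaf 3 712) (.leaf 4 745)) (.leaf 4 696)) (.leaf 3 611)) (.spU 2 32 1 1 (189, 188, 138) (.spU 1 5 3 8 (108, 107, 80) (.leaf 3 643) (.leaf 2 635)) (.leaf 3 619))))) (.spU 2 1 130 1 (223, 222, 74) (.spU 1 6 1 1 (11, 11, 2) (.spU 0 1 2 3 (7, 7, 2) (.spU 0 1 1 4 (3, 3, 1) (.spU 1 43 1 1 (438, 437, 160) (.leaf 10 283) (.spU 2 2 1 1 (11, 11, 4) (.spU 0 1 2 1 (21, 21, 8) (.leaf 9 273) (.spU 0 2 1 1 (43, 43, 16) (.leaf 9 275) (.leaf 10 275))) (.leaf 10 272))) (.spU 0 1 2 1 (13, 13, 4) (.leaf 10 254) (.leaf 11 255))) (.leaf 11 254)) (.leaf 11 254)) (.spU 0 7 3 10 (132, 131, 74) (.spU 0 4 3 7 (171, 170, 74) (.leaf 9 269) (.spU 2 28 1 1 (272, 271, 130) (.spU 1 5 4 3 (448, 445, 222) (.leaf 8 292) (.spU 2 1 2 1 (536,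 533, 278) (.leaf 6 299) (.leaf 7 302))) (.spU 0 56 1 1 (552, 551, 242) (.leaf 8 295) (.leaf 9 286)))) (.spU 2 22 1 1 (203, 202, 118) (.spU 1 5 4 3 (331, 328, 222) (.leaf 4 684) (.spU 2 4 7 11 (133, 132, 90) (.spU 1 7 2 13 (101, 100, 74) (.leaf 3 667) (.spU 2 3 5 8 (108, 107, 80) (.leaf 2 612) (.leaf 3 623))) (.leaf 4 684))) (.spU 0 44 1 1 (423, 422, 206) (.spU 0 4 7 11 (283, 282, 150) (.leaf 4 678) (.leaf 6 290)) (.spU 2 1 28 1 (272, 271, 130) (.spU 1 88 1 1 (863, 862, 382) (.leaf 7 308) (.spU 2 1 56 1 (552, 551, 242) (.spU 1 176 1 1 (1743, 1742, 734) (.leaf 8 328) (.leaf 9 319)) (.leaf 8 310))) (.leaf 6 290)))))))]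
    [((1, 1, 0), (1, 1, 1), (93, 92, 74))] = true := by decide +kernel

end Vale.Agent.P154.Sep2
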