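import Mathlib
import Vale.Agent.P154.C3M0
import Vale.Agent.P154.C3M1
import Vale.Agent.P154.C3M2
import Vale.Agent.P154.C3M3
import Vale.Agent.P154.C3M4
import Vale.Agent.P154.C3M5
import Vale.Agent.P154.C3M6
import Vale.Agent.P154.C3M7
import Vale.Agent.P154.C3M8
import Vale.Agent.P154.C3M9
import Vale.Agent.P154.C3M10
import Vale.Agent.P154.C3M11
import Vale.Agent.P154.C3M12
import Vale.Agent.P154.C3M13
import Vale.Agent.P154.C3M14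
import Vale.Agent.P154.C3M15
import Vale.Agent.P154.C3M16
import Vale.Agent.P154.C3M17
import Vale.Agent.P154.C3M18
import Vale.Agent.P154.C3M19
import Vale.Agent.P154.C3M20
import Vale.Agent.P154.C3One
import Vale.Agent.P154.C3U0
import Vale.Agent.P154.C3U1
import Vale.Agent.P154.C3U2
import Vale.Agent.P154.C3U3
import Vale.Agent.P154.C3U4
import Vale.Agent.P154.C3UL
import Vale.Agent.P154.C3V0
import Vale.Agent.P154.C3V1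
import Vale.Agent.P154.C3V2
import Vale.Agent.P154.C3V3
import Vale.Agent.P154.C3S

namespace Vale.Agent.P154.Sep2

theorem okC3 : datC3.ok = true := by decide +kernel

noncomputable def knownC3 : List (Cell × Cell × ℕ × ℕ) := [(((4, 2, 1), (3, 1, 0), (5, 5, 2)), ((107, 106, 74), (1, 1, 0), (1, 1, 1)), 0, 16),
  (((6, 4, 3), (4, 2, 1), (5, 5, 2)), ((107, 106, 74), (1, 1, 0), (1, 1, 1)), 0, 16),
  (((12, 10, 7), (3, 3, 2), (10, 8, 7)), ((3, 3, 2), (1, 1, 1), (107, 106, 74)), 0, 16),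
  (((6, 4, 3), (12, 10, 7), (10, 8, 7)), ((3, 3, 2), (1, 1, 1), (107, 106, 74)), 0, 16),
  (((16, 14, 13), (10, 8, 7), (6, 6, 5)), ((3, 3, 2), (1, 1, 1), (107, 106, 74)), 0, 16),
  (((22, 20, 19), (16, 14, 13), (6, 6, 5)), ((6, 6, 5), (1, 1, 1), (107, 106, 74)), 0, 8),
  (((1, 1, 1), (22, 20, 19), (6, 6, 5)), ((6, 6, 5), (1, 1, 1), (107, 106, 74)), 0, 4),
  (((1, 1, 1), (22, 20, 19), (6, 6, 5)), ((6, 6, 5), (1, 1, 1), (107, 106, 74)), 4, 8),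
  (((22, 20, 19), (16, 14, 13), (6, 6, 5)), ((6, 6, 5), (1, 1, 1), (107, 106, 74)), 8, 16),
  (((1, 1, 1), (22, 20, 19), (6, 6, 5)), ((108, 107, 75), (107, 106, 74), (6, 6, 5)), 8, 16),
  (((1, 1, 1), (22, 20, 19), (6, 6, 5)), ((109, 108, 76), (108, 107, 75), (6, 6, 5)), 8, 16),
  (((11, 11, 10), (1, 1, 1), (22, 20, 19)), ((1, 1, 1), (109, 108, 76), (6, 6, 5)), 8, 16),
  (((6, 6, 5), (11, 11, 10), (22, 20, 19)), ((1, 1, 1), (109, 108, 76), (6, 6, 5)), 8, 16),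
  (((1, 1, 1), (16, 14, 13), (6, 6, 5)), ((3, 3, 2), (6, 6, 5), (107, 106, 74)), 0, 16),
  (((4, 4, 3), (6, 6, 5), (10, 8, 7)), ((108, 107, 75), (107, 106, 74), (6, 6, 5)), 0, 4),
  (((4, 4, 3), (6, 6, 5), (10, 8, 7)), ((109, 108, 76), (108, 107, 75), (6, 6, 5)), 0, 4),
  (((4, 4, 3), (6, 6, 5), (10, 8, 7)), ((110, 109, 77), (109, 108, 76), (6, 6, 5)), 0, 4),
  (((4, 4, 3), (6, 6, 5), (10, 8, 7)), ((1, 1, 1), (110, 109, 77), (6, 6, 5)), 0, 4),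
  (((4, 4, 3), (6, 6, 5), (10, 8, 7)), ((6, 6, 5), (1, 1, 1), (107, 106, 74)), 4, 8),
  (((3, 3, 2), (4, 4, 3), (10, 8, 7)), ((6, 6, 5), (1, 1, 1), (107, 106, 74)), 0, 8),
  (((3, 3, 2), (6, 6, 5), (10, 8, 7)), ((6, 6, 5), (1, 1, 1), (107, 106, 74)), 8, 16),
  (((3, 3, 2), (6, 6, 5), (10, 8, 7)), ((3, 3, 2), (6, 6, 5), (107, 106, 74)), 0, 16),
  (((12, 10, 7), (3, 3, 2), (10, 8, 7)), ((5, 5, 2), (3, 3, 2), (107, 106, 74)), 0, 16),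
  (((6, 4, 3), (12, 10, 7), (10, 8, 7)), ((5, 5, 2), (3, 3, 2), (107, 106, 74)), 0, 8),
  (((6, 4, 3), (12, 10, 7), (10, 8, 7)), ((5, 5, 2), (3, 3, 2), (107, 106, 74)), 8, 16),
  (((1, 1, 1), (10, 8, 7), (3, 3, 2)), ((5, 5, 2), (3, 3, 2), (107, 106, 74)), 0, 16),
  (((5, 5, 2), (3, 3, 2), (6, 4, 3)), ((3, 3, 2), (1, 1, 1), (107, 106, 74)), 0, 16),
  (((46, 36, 23), (22, 20, 11), (12, 10, 7)), ((19, 19, 10), (3, 3, 2), (137, 136, 86)), 0, 8),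
  (((6, 4, 3), (46, 36, 23), (12, 10, 7)), ((19, 19, 10), (3, 3, 2), (137, 136, 86)), 0, 8),
  (((11, 9, 5), (5, 5, 2), (22, 20, 11)), ((37, 37, 22), (3, 3, 2), (137, 136, 86)), 0, 4),
  (((6, 4, 3), (11, 9, 5), (22, 20, 11)), ((37, 37, 22), (3, 3, 2), (137, 136, 86)), 0, 4),
  (((5, 5, 2), (22, 20, 11), (6, 4, 3)), ((19, 19, 10), (37, 37, 22), (137, 136, 86)), 0, 4),
  (((5, 5, 2), (22, 20, 11), (6, 4, 3)), ((19, 19, 10), (3, 3, 2), (137, 136, 86)), 4, 8),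
  (((12, 10, 7), (6, 4, 3), (5, 5, 2)), ((5, 5, 2), (19, 19, 10), (137, 136, 86)), 0, 8),
  (((12, 10, 7), (6, 4, 3), (5, 5, 2)), ((107, 106, 74), (137, 136, 86), (3, 3, 2)), 0, 8),
  (((12, 10, 7), (6, 4, 3), (5, 5, 2)), ((5, 5, 2), (3, 3, 2), (107, 106, 74)), 8, 16),
  (((19, 19, 10), (3, 3, 2), (12, 10, 7)), ((55, 55, 34), (3, 3, 2), (107, 106, 74)), 0, 16),
  (((19, 19, 10), (3, 3, 2), (12, 10, 7)), ((37, 37, 22), (55, 55, 34), (107, 106, 74)), 0, 16),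
  (((19, 19, 10), (3, 3, 2), (12, 10, 7)), ((19, 19, 10), (37, 37, 22), (107, 106, 74)), 0, 16),
  (((19, 19, 10), (3, 3, 2), (12, 10, 7)), ((5, 5, 2), (19, 19, 10), (107, 106, 74)), 0, 16),
  (((13, 13, 6), (19, 19, 10), (22, 20, 11)), ((19, 19, 10), (3, 3, 2), (137, 136, 86)), 0, 8),
  (((5, 5, 2), (13, 13, 6), (22, 20, 11)), ((19, 19, 10), (3, 3, 2), (137, 136, 86)), 0, 4),
  (((5, 5, 2), (13, 13, 6), (22, 20, 11)), ((19, 19, 10), (3, 3, 2), (137, 136, 86)), 4, 8),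
  (((22, 20, 11), (5, 5, 2), (19, 19, 10)), ((5, 5, 2), (19, 19, 10), (137, 136, 86)), 0, 8),
  (((12, 10, 7), (22, 20, 11), (19, 19, 10)), ((137, 136, 86), (5, 5, 2), (3, 3, 2)), 0, 8),
  (((22, 20, 11), (5, 5, 2), (19, 19, 10)), ((19, 19, 10), (3, 3, 2), (137, 136, 86)), 8, 16),
  (((43, 39, 24), (12, 10, 7), (22, 20, 11)), ((37, 37, 22), (3, 3, 2), (137, 136, 86)), 8, 16),
  (((19, 19, 10), (43, 39, 24), (22, 20, 11)), ((37, 37, 22), (3, 3, 2), (137, 136, 86)), 8, 16),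
  (((12, 10, 7), (22, 20, 11), (19, 19, 10)), ((19, 19, 10), (37, 37, 22), (137, 136, 86)), 8, 16),
  (((5, 5, 2), (19, 19, 10), (12, 10, 7)), ((5, 5, 2), (19, 19, 10), (137, 136, 86)), 8, 16),
  (((5, 5, 2), (19, 19, 10), (12, 10, 7)), ((107, 106, 74), (137, 136, 86), (3, 3, 2)), 0, 16),
  (((1, 1, 1), (6, 4, 3), (5, 5, 2)), ((1, 1, 0), (5, 5, 2), (107, 106, 74)), 0, 16),
  (((9, 7, 0), (1, 1, 0), (5, 5, 2)), ((3, 3, 2), (1, 1, 1), (107, 106, 74)), 0, 16),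
  (((9, 7, 0), (1, 1, 0), (5, 5, 2)), ((5, 5, 2), (3, 3, 2), (107, 106, 74)), 0, 16),
  (((9, 7, 0), (1, 1, 0), (5, 5, 2)), ((1, 1, 0), (5, 5, 2), (107, 106, 74)), 0, 16),
  (((5, 3, 0), (9, 7, 0), (5, 5, 2)), ((107, 106, 74), (1, 1, 0), (1, 1, 1)), 0, 16),
  (((3, 1, 0), (5, 3, 0), (5, 5, 2)), ((107, 106, 74), (1, 1, 0), (1, 1, 1)), 0, 16),
  (((4, 1, 1), (1, 0, 0), (3, 1, 0)), ((107, 106, 74), (1, 1, 0), (1, 1, 1)), 0, 16),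
  (((14, 5, 5), (4, 1, 1), (4, 2, 1)), ((3, 3, 2), (1, 1, 1), (107, 106, 74)), 0, 16),
  (((2, 1, 1), (14, 5, 5), (4, 2, 1)), ((6, 6, 5), (1, 1, 1), (107, 106, 74)), 0, 16),
  (((2, 1, 1), (14, 5, 5), (4, 2, 1)), ((3, 3, 2), (6, 6, 5), (107, 106, 74)), 0, 16),
  (((2, 1, 1), (4, 1, 1), (4, 2, 1)), ((5, 5, 2), (3, 3, 2), (107, 106, 74)), 0, 16),
  (((2, 1, 1), (4, 1, 1), (4, 2, 1)), ((1, 1, 0), (5, 5, 2), (107, 106, 74)), 0, 16),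
  (((3, 2, 2), (2, 1, 1), (6, 4, 3)), ((6, 6, 5), (1, 1, 1), (107, 106, 74)), 0, 16),
  (((3, 2, 2), (2, 1, 1), (6, 4, 3)), ((3, 3, 2), (6, 6, 5), (107, 106, 74)), 0, 16),
  (((5, 4, 4), (3, 2, 2), (10, 8, 7)), ((3, 3, 2), (1, 1, 1), (107, 106, 74)), 0, 16),
  (((9, 8, 8), (5, 4, 4), (16, 14, 13)), ((6, 6, 5), (1, 1, 1), (107, 106, 74)), 0, 16),
  (((9, 8, 8), (5, 4, 4), (16, 14, 13)), ((3, 3, 2), (6, 6, 5), (107, 106, 74)), 0, 16),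
  (((15, 14, 14), (9, 8, 8), (22, 20, 19)), ((6, 6, 5), (1, 1, 1), (107, 106, 74)), 0, 4),
  (((1, 1, 1), (15, 14, 14), (22, 20, 19)), ((6, 6, 5), (1, 1, 1), (107, 106, 74)), 0, 4),
  (((22, 20, 19), (1, 1, 1), (9, 8, 8)), ((6, 6, 5), (1, 1, 1), (107, 106, 74)), 4, 8),
  (((16, 14, 13), (22, 20, 19), (9, 8, 8)), ((6, 6, 5), (1, 1, 1), (107, 106, 74)), 0, 8),
  (((22, 20, 19), (1, 1, 1), (9, 8, 8)), ((6, 6, 5), (1, 1, 1), (107, 106, 74)), 8, 16),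
  (((16, 14, 13), (22, 20, 19), (9, 8, 8)), ((6, 6, 5), (1, 1, 1), (107, 106, 74)), 8, 16),
  (((1, 1, 1), (9, 8, 8), (16, 14, 13)), ((3, 3, 2), (6, 6, 5), (107, 106, 74)), 0, 16),
  (((10, 8, 7), (16, 14, 13), (5, 4, 4)), ((3, 3, 2), (1, 1, 1), (107, 106, 74)), 0, 16),
  (((6, 4, 3), (10, 8, 7), (3, 2, 2)), ((6, 6, 5), (1, 1, 1), (107, 106, 74)), 0, 16),
  (((22, 16, 13), (10, 8, 7), (3, 2, 2)), ((3, 3, 2), (6, 6, 5), (107, 106, 74)), 0, 8),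
  (((6, 4, 3), (22, 16, 13), (3, 2, 2)), ((3, 3, 2), (6, 6, 5), (107, 106, 74)), 0, 8),
  (((6, 4, 3), (10, 8, 7), (3, 2, 2)), ((3, 3, 2), (6, 6, 5), (107, 106, 74)), 8, 16),
  (((6, 4, 3), (1, 1, 1), (2, 1, 1)), ((5, 5, 2), (3, 3, 2), (107, 106, 74)), 0, 16),
  (((4, 2, 1), (6, 4, 3), (2, 1, 1)), ((5, 5, 2), (1, 1, 1), (107, 106, 74)), 0, 16),
  (((3, 2, 2), (2, 1, 1), (6, 4, 3)), ((1, 1, 0), (5, 5, 2), (107, 106, 74)), 0, 16),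
  (((5, 4, 4), (3, 2, 2), (6, 4, 3)), ((1, 1, 0), (5, 5, 2), (107, 106, 74)), 0, 16),
  (((9, 8, 8), (5, 4, 4), (10, 8, 7)), ((1, 1, 0), (5, 5, 2), (107, 106, 74)), 0, 16),
  (((1, 1, 1), (9, 8, 8), (10, 8, 7)), ((1, 1, 0), (5, 5, 2), (107, 106, 74)), 0, 16),
  (((6, 4, 3), (10, 8, 7), (5, 4, 4)), ((1, 1, 0), (5, 5, 2), (107, 106, 74)), 0, 16),
  (((4, 2, 1), (6, 4, 3), (2, 1, 1)), ((1, 1, 0), (5, 5, 2), (107, 106, 74)), 0, 16),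
  (((3, 1, 0), (4, 2, 1), (4, 1, 1)), ((107, 106, 74), (1, 1, 0), (1, 1, 1)), 0, 16),
  (((5, 3, 0), (1, 1, 0), (4, 1, 1)), ((108, 107, 75), (1, 1, 1), (106, 105, 74)), 0, 16),
  (((5, 3, 0), (1, 1, 0), (4, 1, 1)), ((107, 106, 74), (108, 107, 75), (106, 105, 74)), 0, 16),
  (((3, 1, 0), (5, 3, 0), (4, 1, 1)), ((106, 105, 74), (107, 106, 74), (1, 1, 1)), 0, 16),
  (((1, 0, 0), (3, 1, 0), (4, 1, 1)), ((106, 105, 74), (107, 106, 74), (1, 1, 1)), 0, 16),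
  (((2, 1, 1), (4, 1, 1), (5, 5, 2)), ((106, 105, 74), (107, 106, 74), (1, 1, 1)), 0, 16),
  (((3, 2, 2), (2, 1, 1), (5, 5, 2)), ((106, 105, 74), (107, 106, 74), (1, 1, 1)), 0, 16),
  (((5, 4, 4), (3, 2, 2), (3, 3, 2)), ((106, 105, 74), (107, 106, 74), (1, 1, 1)), 0, 16),
  (((9, 8, 8), (5, 4, 4), (6, 6, 5)), ((106, 105, 74), (107, 106, 74), (1, 1, 1)), 0, 8),
  (((11, 10, 9), (6, 6, 5), (9, 8, 8)), ((106, 105, 74), (107, 106, 74), (1, 1, 1)), 8, 16),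
  (((5, 4, 4), (11, 10, 9), (9, 8, 8)), ((106, 105, 74), (107, 106, 74), (1, 1, 1)), 8, 16),
  (((15, 14, 14), (9, 8, 8), (6, 6, 5)), ((106, 105, 74), (107, 106, 74), (1, 1, 1)), 0, 4),
  (((1, 1, 1), (15, 14, 14), (6, 6, 5)), ((106, 105, 74), (107, 106, 74), (1, 1, 1)), 0, 4),
  (((1, 1, 1), (9, 8, 8), (6, 6, 5)), ((106, 105, 74), (107, 106, 74), (1, 1, 1)), 4, 8),
  (((1, 1, 1), (9, 8, 8), (6, 6, 5)), ((109, 108, 76), (1, 1, 1), (106, 105, 74)), 8, 12),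
  (((1, 1, 1), (9, 8, 8), (6, 6, 5)), ((109, 108, 76), (1, 1, 1), (106, 105, 74)), 12, 14),
  (((1, 1, 1), (9, 8, 8), (6, 6, 5)), ((107, 106, 75), (106, 105, 74), (109, 108, 76)), 14, 16),
  (((1, 1, 1), (9, 8, 8), (6, 6, 5)), ((108, 107, 76), (107, 106, 75), (109, 108, 76)), 14, 16),
  (((11, 11, 10), (1, 1, 1), (9, 8, 8)), ((1, 1, 1), (108, 107, 76), (109, 108, 76)), 14, 16),
  (((6, 6, 5), (11, 11, 10), (9, 8, 8)), ((1, 1, 1), (108, 107, 76), (109, 108, 76)), 14, 16),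
  (((1, 1, 1), (9, 8, 8), (6, 6, 5)), ((108, 107, 75), (109, 108, 76), (106, 105, 74)), 8, 16),
  (((1, 1, 1), (9, 8, 8), (6, 6, 5)), ((107, 106, 74), (108, 107, 75), (106, 105, 74)), 8, 16),
  (((4, 4, 3), (6, 6, 5), (5, 4, 4)), ((106, 105, 74), (107, 106, 74), (1, 1, 1)), 0, 8),
  (((3, 3, 2), (4, 4, 3), (5, 4, 4)), ((106, 105, 74), (107, 106, 74), (1, 1, 1)), 0, 8),
  (((3, 3, 2), (6, 6, 5), (5, 4, 4)), ((106, 105, 74), (107, 106, 74), (1, 1, 1)), 8, 16),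
  (((5, 5, 2), (3, 3, 2), (3, 2, 2)), ((106, 105, 74), (107, 106, 74), (1, 1, 1)), 0, 16),
  (((1, 1, 0), (5, 5, 2), (4, 1, 1)), ((106, 105, 74), (107, 106, 74), (1, 1, 1)), 0, 16),
  (((4, 1, 1), (1, 0, 0), (1, 1, 0)), ((105, 104, 74), (106, 105, 74), (1, 1, 1)), 0, 16),
  (((2, 1, 1), (4, 1, 1), (5, 5, 2)), ((105, 104, 74), (106, 105, 74), (1, 1, 1)), 0, 16),
  (((3, 2, 2), (2, 1, 1), (5, 5, 2)), ((105, 104, 74), (106, 105, 74), (1, 1, 1)), 0, 16),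
  (((5, 4, 4), (3, 2, 2), (3, 3, 2)), ((105, 104, 74), (106, 105, 74), (1, 1, 1)), 0, 16),
  (((9, 8, 8), (5, 4, 4), (6, 6, 5)), ((105, 104, 74), (106, 105, 74), (1, 1, 1)), 0, 16),
  (((1, 1, 1), (9, 8, 8), (6, 6, 5)), ((105, 104, 74), (106, 105, 74), (1, 1, 1)), 0, 8),
  (((1, 1, 1), (9, 8, 8), (6, 6, 5)), ((106, 105, 75), (105, 104, 74), (106, 105, 74)), 8, 16),
  (((1, 1, 1), (9, 8, 8), (6, 6, 5)), ((107, 106, 76), (106, 105, 75), (106, 105, 74)), 8, 16),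
  (((1, 1, 1), (9, 8, 8), (6, 6, 5)), ((108, 107, 77), (107, 106, 76), (106, 105, 74)), 8, 16),
  (((1, 1, 1), (9, 8, 8), (6, 6, 5)), ((109, 108, 78), (108, 107, 77), (106, 105, 74)), 8, 16),
  (((11, 11, 10), (1, 1, 1), (9, 8, 8)), ((1, 1, 1), (109, 108, 78), (106, 105, 74)), 8, 16),
  (((6, 6, 5), (11, 11, 10), (9, 8, 8)), ((1, 1, 1), (109, 108, 78), (106, 105, 74)), 8, 16),
  (((3, 3, 2), (6, 6, 5), (5, 4, 4)), ((105, 104, 74), (106, 105, 74), (1, 1, 1)), 0, 8),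
  (((3, 3, 2), (6, 6, 5), (5, 4, 4)), ((105, 104, 74), (106, 105, 74), (1, 1, 1)), 8, 16),
  (((5, 5, 2), (3, 3, 2), (3, 2, 2)), ((105, 104, 74), (106, 105, 74), (1, 1, 1)), 0, 16),
  (((1, 1, 0), (5, 5, 2), (4, 1, 1)), ((105, 104, 74), (106, 105, 74), (1, 1, 1)), 0, 16),
  (((4, 1, 1), (1, 0, 0), (1, 1, 0)), ((104, 103, 74), (105, 104, 74), (1, 1, 1)), 0, 16),
  (((2, 1, 1), (4, 1, 1), (5, 5, 2)), ((104, 103, 74), (105, 104, 74), (1, 1, 1)), 0, 16),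
  (((3, 2, 2), (2, 1, 1), (5, 5, 2)), ((104, 103, 74), (105, 104, 74), (1, 1, 1)), 0, 16),
  (((5, 4, 4), (3, 2, 2), (3, 3, 2)), ((104, 103, 74), (105, 104, 74), (1, 1, 1)), 0, 16),
  (((9, 8, 8), (5, 4, 4), (6, 6, 5)), ((104, 103, 74), (105, 104, 74), (1, 1, 1)), 0, 16),
  (((1, 1, 1), (9, 8, 8), (6, 6, 5)), ((104, 103, 74), (105, 104, 74), (1, 1, 1)), 0, 8),
  (((1, 1, 1), (9, 8, 8), (6, 6, 5)), ((104, 103, 74), (105, 104, 74), (1, 1, 1)), 8, 16),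
  (((3, 3, 2), (6, 6, 5), (5, 4, 4)), ((104, 103, 74), (105, 104, 74), (1, 1, 1)), 0, 8),
  (((3, 3, 2), (6, 6, 5), (5, 4, 4)), ((104, 103, 74), (105, 104, 74), (1, 1, 1)), 8, 16),
  (((5, 5, 2), (3, 3, 2), (3, 2, 2)), ((104, 103, 74), (105, 104, 74), (1, 1, 1)), 0, 16),
  (((1, 1, 0), (5, 5, 2), (4, 1, 1)), ((104, 103, 74), (105, 104, 74), (1, 1, 1)), 0, 16),
  (((4, 1, 1), (1, 0, 0), (1, 1, 0)), ((103, 102, 74), (104, 103, 74), (1, 1, 1)), 0, 16),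
  (((2, 1, 1), (4, 1, 1), (5, 5, 2)), ((103, 102, 74), (104, 103, 74), (1, 1, 1)), 0, 16),
  (((3, 2, 2), (2, 1, 1), (5, 5, 2)), ((103, 102, 74), (104, 103, 74), (1, 1, 1)), 0, 16),
  (((5, 4, 4), (3, 2, 2), (3, 3, 2)), ((103, 102, 74), (104, 103, 74), (1, 1, 1)), 0, 16),
  (((9, 8, 8), (5, 4, 4), (6, 6, 5)), ((103, 102, 74), (104, 103, 74), (1, 1, 1)), 0, 16),
  (((1, 1, 1), (9, 8, 8), (6, 6, 5)), ((103, 102, 74), (104, 103, 74), (1, 1, 1)), 0, 8),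
  (((1, 1, 1), (9, 8, 8), (6, 6, 5)), ((103, 102, 74), (104, 103, 74), (1, 1, 1)), 8, 16),
  (((3, 3, 2), (6, 6, 5), (5, 4, 4)), ((103, 102, 74), (104, 103, 74), (1, 1, 1)), 0, 16),
  (((5, 5, 2), (3, 3, 2), (3, 2, 2)), ((103, 102, 74), (104, 103, 74), (1, 1, 1)), 0, 16),
  (((1, 1, 0), (5, 5, 2), (4, 1, 1)), ((103, 102, 74), (104, 103, 74), (1, 1, 1)), 0, 16),
  (((4, 1, 1), (1, 0, 0), (1, 1, 0)), ((102, 101, 74), (103, 102, 74), (1, 1, 1)), 0, 16),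
  (((2, 1, 1), (4, 1, 1), (5, 5, 2)), ((102, 101, 74), (103, 102, 74), (1, 1, 1)), 0, 16),
  (((3, 2, 2), (2, 1, 1), (5, 5, 2)), ((102, 101, 74), (103, 102, 74), (1, 1, 1)), 0, 16),
  (((5, 4, 4), (3, 2, 2), (3, 3, 2)), ((102, 101, 74), (103, 102, 74), (1, 1, 1)), 0, 16),
  (((9, 8, 8), (5, 4, 4), (6, 6, 5)), ((102, 101, 74), (103, 102, 74), (1, 1, 1)), 0, 16),
  (((1, 1, 1), (9, 8, 8), (6, 6, 5)), ((102, 101, 74), (103, 102, 74), (1, 1, 1)), 0, 16),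
  (((3, 3, 2), (6, 6, 5), (5, 4, 4)), ((102, 101, 74), (103, 102, 74), (1, 1, 1)), 0, 16),
  (((5, 5, 2), (3, 3, 2), (3, 2, 2)), ((102, 101, 74), (103, 102, 74), (1, 1, 1)), 0, 16),
  (((1, 1, 0), (5, 5, 2), (4, 1, 1)), ((102, 101, 74), (103, 102, 74), (1, 1, 1)), 0, 16),
  (((4, 1, 1), (1, 0, 0), (1, 1, 0)), ((101, 100, 74), (102, 101, 74), (1, 1, 1)), 0, 16),
  (((2, 1, 1), (4, 1, 1), (5, 5, 2)), ((101, 100, 74), (102, 101, 74), (1, 1, 1)), 0, 16),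
  (((3, 2, 2), (2, 1, 1), (5, 5, 2)), ((101, 100, 74), (102, 101, 74), (1, 1, 1)), 0, 16),
  (((5, 4, 4), (3, 2, 2), (3, 3, 2)), ((101, 100, 74), (102, 101, 74), (1, 1, 1)), 0, 16),
  (((9, 8, 8), (5, 4, 4), (6, 6, 5)), ((101, 100, 74), (102, 101, 74), (1, 1, 1)), 0, 16),
  (((1, 1, 1), (9, 8, 8), (6, 6, 5)), ((101, 100, 74), (102, 101, 74), (1, 1, 1)), 0, 16),
  (((3, 3, 2), (6, 6, 5), (5, 4, 4)), ((101, 100, 74), (102, 101, 74), (1, 1, 1)), 0, 16),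
  (((5, 5, 2), (3, 3, 2), (3, 2, 2)), ((101, 100, 74), (102, 101, 74), (1, 1, 1)), 0, 16),
  (((1, 1, 0), (5, 5, 2), (4, 1, 1)), ((101, 100, 74), (102, 101, 74), (1, 1, 1)), 0, 16),
  (((4, 1, 1), (1, 0, 0), (1, 1, 0)), ((100, 99, 74), (101, 100, 74), (1, 1, 1)), 0, 16),
  (((2, 1, 1), (4, 1, 1), (5, 5, 2)), ((100, 99, 74), (101, 100, 74), (1, 1, 1)), 0, 16),
  (((3, 2, 2), (2, 1, 1), (5, 5, 2)), ((100, 99, 74), (101, 100, 74), (1, 1, 1)), 0, 16),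
  (((5, 4, 4), (3, 2, 2), (3, 3, 2)), ((100, 99, 74), (101, 100, 74), (1, 1, 1)), 0, 16),
  (((9, 8, 8), (5, 4, 4), (6, 6, 5)), ((100, 99, 74), (101, 100, 74), (1, 1, 1)), 0, 16),
  (((1, 1, 1), (9, 8, 8), (6, 6, 5)), ((100, 99, 74), (101, 100, 74), (1, 1, 1)), 0, 16),
  (((3, 3, 2), (6, 6, 5), (5, 4, 4)), ((100, 99, 74), (101, 100, 74), (1, 1, 1)), 0, 16),
  (((5, 5, 2), (3, 3, 2), (3, 2, 2)), ((100, 99, 74), (101, 100, 74), (1, 1, 1)), 0, 16),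
  (((1, 1, 0), (5, 5, 2), (4, 1, 1)), ((100, 99, 74), (101, 100, 74), (1, 1, 1)), 0, 16),
  (((4, 1, 1), (1, 0, 0), (1, 1, 0)), ((99, 98, 74), (100, 99, 74), (1, 1, 1)), 0, 16),
  (((2, 1, 1), (4, 1, 1), (5, 5, 2)), ((99, 98, 74), (100, 99, 74), (1, 1, 1)), 0, 16),
  (((3, 2, 2), (2, 1, 1), (5, 5, 2)), ((99, 98, 74), (100, 99, 74), (1, 1, 1)), 0, 16),
  (((5, 4, 4), (3, 2, 2), (3, 3, 2)), ((99, 98, 74), (100, 99, 74), (1, 1, 1)), 0, 16),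
  (((6, 6, 5), (1, 1, 1), (5, 4, 4)), ((99, 98, 74), (100, 99, 74), (1, 1, 1)), 0, 16),
  (((3, 3, 2), (6, 6, 5), (5, 4, 4)), ((99, 98, 74), (100, 99, 74), (1, 1, 1)), 0, 16),
  (((5, 5, 2), (3, 3, 2), (3, 2, 2)), ((99, 98, 74), (100, 99, 74), (1, 1, 1)), 0, 16),
  (((1, 1, 0), (5, 5, 2), (4, 1, 1)), ((99, 98, 74), (100, 99, 74), (1, 1, 1)), 0, 16),
  (((4, 1, 1), (1, 0, 0), (1, 1, 0)), ((98, 97, 74), (99, 98, 74), (1, 1, 1)), 0, 16),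
  (((2, 1, 1), (4, 1, 1), (5, 5, 2)), ((98, 97, 74), (99, 98, 74), (1, 1, 1)), 0, 16),
  (((3, 2, 2), (2, 1, 1), (5, 5, 2)), ((98, 97, 74), (99, 98, 74), (1, 1, 1)), 0, 16),
  (((5, 4, 4), (3, 2, 2), (3, 3, 2)), ((98, 97, 74), (99, 98, 74), (1, 1, 1)), 0, 16),
  (((6, 6, 5), (1, 1, 1), (5, 4, 4)), ((98, 97, 74), (99, 98, 74), (1, 1, 1)), 0, 16),
  (((3, 3, 2), (6, 6, 5), (5, 4, 4)), ((98, 97, 74), (99, 98, 74), (1, 1, 1)), 0, 16),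
  (((5, 5, 2), (3, 3, 2), (3, 2, 2)), ((98, 97, 74), (99, 98, 74), (1, 1, 1)), 0, 16),
  (((1, 1, 0), (5, 5, 2), (4, 1, 1)), ((98, 97, 74), (99, 98, 74), (1, 1, 1)), 0, 16),
  (((4, 1, 1), (1, 0, 0), (1, 1, 0)), ((97, 96, 74), (98, 97, 74), (1, 1, 1)), 0, 16),
  (((2, 1, 1), (4, 1, 1), (5, 5, 2)), ((97, 96, 74), (98, 97, 74), (1, 1, 1)), 0, 16),
  (((3, 2, 2), (2, 1, 1), (5, 5, 2)), ((97, 96, 74), (98, 97, 74), (1, 1, 1)), 0, 16),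
  (((5, 4, 4), (3, 2, 2), (3, 3, 2)), ((97, 96, 74), (98, 97, 74), (1, 1, 1)), 0, 16),
  (((6, 6, 5), (1, 1, 1), (5, 4, 4)), ((97, 96, 74), (98, 97, 74), (1, 1, 1)), 0, 16),
  (((3, 3, 2), (6, 6, 5), (5, 4, 4)), ((97, 96, 74), (98, 97, 74), (1, 1, 1)), 0, 16),
  (((5, 5, 2), (3, 3, 2), (3, 2, 2)), ((97, 96, 74), (98, 97, 74), (1, 1, 1)), 0, 16),
  (((1, 1, 0), (5, 5, 2), (4, 1, 1)), ((97, 96, 74), (98, 97, 74), (1, 1, 1)), 0, 16),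
  (((4, 1, 1), (1, 0, 0), (1, 1, 0)), ((96, 95, 74), (97, 96, 74), (1, 1, 1)), 0, 16),
  (((2, 1, 1), (4, 1, 1), (5, 5, 2)), ((96, 95, 74), (97, 96, 74), (1, 1, 1)), 0, 16),
  (((3, 2, 2), (2, 1, 1), (5, 5, 2)), ((96, 95, 74), (97, 96, 74), (1, 1, 1)), 0, 16),
  (((5, 4, 4), (3, 2, 2), (6, 6, 5)), ((96, 95, 74), (97, 96, 74), (1, 1, 1)), 0, 16),
  (((1, 1, 1), (5, 4, 4), (6, 6, 5)), ((96, 95, 74), (97, 96, 74), (1, 1, 1)), 0, 16),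
  (((3, 3, 2), (6, 6, 5), (3, 2, 2)), ((96, 95, 74), (97, 96, 74), (1, 1, 1)), 0, 16),
  (((5, 5, 2), (3, 3, 2), (3, 2, 2)), ((96, 95, 74), (97, 96, 74), (1, 1, 1)), 0, 16),
  (((1, 1, 0), (5, 5, 2), (4, 1, 1)), ((96, 95, 74), (97, 96, 74), (1, 1, 1)), 0, 16),
  (((4, 1, 1), (1, 0, 0), (1, 1, 0)), ((95, 94, 74), (96, 95, 74), (1, 1, 1)), 0, 16),
  (((2, 1, 1), (4, 1, 1), (5, 5, 2)), ((95, 94, 74), (96, 95, 74), (1, 1, 1)), 0, 16),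
  (((3, 2, 2), (2, 1, 1), (5, 5, 2)), ((95, 94, 74), (96, 95, 74), (1, 1, 1)), 0, 16),
  (((6, 6, 5), (1, 1, 1), (3, 2, 2)), ((95, 94, 74), (96, 95, 74), (1, 1, 1)), 0, 16),
  (((3, 3, 2), (6, 6, 5), (3, 2, 2)), ((95, 94, 74), (96, 95, 74), (1, 1, 1)), 0, 16),
  (((5, 5, 2), (3, 3, 2), (3, 2, 2)), ((95, 94, 74), (96, 95, 74), (1, 1, 1)), 0, 16),
  (((1, 1, 0), (5, 5, 2), (4, 1, 1)), ((95, 94, 74), (96, 95, 74), (1, 1, 1)), 0, 16),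
  (((4, 1, 1), (1, 0, 0), (1, 1, 0)), ((94, 93, 74), (95, 94, 74), (1, 1, 1)), 0, 16),
  (((2, 1, 1), (4, 1, 1), (5, 5, 2)), ((94, 93, 74), (95, 94, 74), (1, 1, 1)), 0, 16),
  (((3, 2, 2), (2, 1, 1), (5, 5, 2)), ((94, 93, 74), (95, 94, 74), (1, 1, 1)), 0, 16),
  (((6, 6, 5), (1, 1, 1), (3, 2, 2)), ((94, 93, 74), (95, 94, 74), (1, 1, 1)), 0, 16),
  (((3, 3, 2), (6, 6, 5), (3, 2, 2)), ((94, 93, 74), (95, 94, 74), (1, 1, 1)), 0, 16),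
  (((5, 5, 2), (3, 3, 2), (3, 2, 2)), ((94, 93, 74), (95, 94, 74), (1, 1, 1)), 0, 16),
  (((1, 1, 0), (5, 5, 2), (4, 1, 1)), ((94, 93, 74), (95, 94, 74), (1, 1, 1)), 0, 16),
  (((4, 1, 1), (1, 0, 0), (1, 1, 0)), ((93, 92, 74), (94, 93, 74), (1, 1, 1)), 0, 16),
  (((2, 1, 1), (4, 1, 1), (5, 5, 2)), ((93, 92, 74), (94, 93, 74), (1, 1, 1)), 0, 16),
  (((3, 2, 2), (2, 1, 1), (5, 5, 2)), ((93, 92, 74), (94, 93, 74), (1, 1, 1)), 0, 16),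
  (((3, 3, 2), (1, 1, 1), (3, 2, 2)), ((93, 92, 74), (94, 93, 74), (1, 1, 1)), 0, 16),
  (((5, 5, 2), (3, 3, 2), (3, 2, 2)), ((93, 92, 74), (94, 93, 74), (1, 1, 1)), 0, 16),
  (((1, 1, 0), (5, 5, 2), (4, 1, 1)), ((93, 92, 74), (94, 93, 74), (1, 1, 1)), 0, 16),
  (((4, 1, 1), (1, 0, 0), (1, 1, 0)), ((93, 92, 74), (1, 1, 1), (42, 41, 36)), 0, 16),
  (((2, 1, 1), (4, 1, 1), (5, 5, 2)), ((93, 92, 74), (1, 1, 1), (42, 41, 36)), 0, 16),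
  (((3, 2, 2), (2, 1, 1), (5, 5, 2)), ((93, 92, 74), (1, 1, 1), (42, 41, 36)), 0, 16),
  (((1, 1, 1), (3, 2, 2), (5, 5, 2)), ((93, 92, 74), (1, 1, 1), (42, 41, 36)), 0, 16),
  (((1, 1, 0), (5, 5, 2), (4, 1, 1)), ((93, 92, 74), (1, 1, 1), (42, 41, 36)), 0, 16),
  (((4, 1, 1), (1, 0, 0), (1, 1, 0)), ((42, 41, 36), (1, 1, 1), (43, 41, 39)), 0, 16),
  (((5, 5, 2), (1, 1, 1), (4, 1, 1)), ((42, 41, 36), (1, 1, 1), (43, 41, 39)), 0, 16),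
  (((1, 1, 0), (5, 5, 2), (4, 1, 1)), ((42, 41, 36), (1, 1, 1), (43, 41, 39)), 0, 16),
  (((1, 0, 0), (1, 1, 0), (1, 1, 1)), ((43, 41, 39), (1, 1, 1), (59, 55, 55)), 0, 16)]

set_option maxRecDepth 100000 in
theorem known_posC3 : ∀ c ∈ knownC3, Pos datC3 c.1 c.2.1 c.2.2.1 c.2.2.2 := by
  unfold knownC3
  simp only [List.forall_mem_cons, List.not_mem_nil, false_imp_iff, implies_true, and_true]
  exact ⟨chkT_sound okC3 (by simp) _ _ _ _ _ partC3_0,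
    chkT_sound okC3 (by simp) _ _ _ _ _ partC3_1,
    chkT_sound okC3 (by simp) _ _ _ _ _ partC3_2,
    chkT_sound okC3 (by simp) _ _ _ _ _ partC3_3,
    chkT_sound okC3 (by simp) _ _ _ _ _ partC3_4,
    chkT_sound okC3 (by simp) _ _ _ _ _ partC3_5,
    chkT_sound okC3 (by simp) _ _ _ _ _ partC3_6,
    chkT_sound okC3 (by simp) _ _ _ _ _ partC3_7,
    chkT_sound okC3 (by simp) _ _ _ _ _ partC3_8,
    chkT_sound okC3 (by simp) _ _ _ _ _ partC3_9,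
    chkT_sound okC3 (by simp) _ _ _ _ _ partC3_10,
    chkT_sound okC3 (by simp) _ _ _ _ _ partC3_11,
    chkT_sound okC3 (by simp) _ _ _ _ _ partC3_12,
    chkT_sound okC3 (by simp) _ _ _ _ _ partC3_13,
    chkT_sound okC3 (by simp) _ _ _ _ _ partC3_14,
    chkT_sound okC3 (by simp) _ _ _ _ _ partC3_15,
    chkT_sound okC3 (by simp) _ _ _ _ _ partC3_16,
    chkT_sound okC3 (by simp) _ _ _ _ _ partC3_17,
    chkT_sound okC3 (by simp) _ _ _ _ _ partC3_18,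
    chkT_sound okC3 (by simp) _ _ _ _ _ partC3_19,
    chkT_sound okC3 (by simp) _ _ _ _ _ partC3_20,
    chkT_sound okC3 (by simp) _ _ _ _ _ partC3_21,
    chkT_sound okC3 (by simp) _ _ _ _ _ partC3_22,
    chkT_sound okC3 (by simp) _ _ _ _ _ partC3_23,
    chkT_sound okC3 (by simp) _ _ _ _ _ partC3_24,
    chkT_sound okC3 (by simp) _ _ _ _ _ partC3_25,
    chkT_sound okC3 (by simp) _ _ _ _ _ partC3_26,
    chkT_sound okC3 (by simp) _ _ _ _ _ partC3_27,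
    chkT_sound okC3 (by simp) _ _ _ _ _ partC3_28,
    chkT_sound okC3 (by simp) _ _ _ _ _ partC3_29,
    chkT_sound okC3 (by simp) _ _ _ _ _ partC3_30,
    chkT_sound okC3 (by simp) _ _ _ _ _ partC3_31,
    chkT_sound okC3 (by simp) _ _ _ _ _ partC3_32,
    chkT_sound okC3 (by simp) _ _ _ _ _ partC3_33,
    chkT_sound okC3 (by simp) _ _ _ _ _ partC3_34,
    chkT_sound okC3 (by simp) _ _ _ _ _ partC3_35,
    chkT_sound okC3 (by simp) _ _ _ _ _ partC3_36,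
    chkT_sound okC3 (by simp) _ _ _ _ _ partC3_37,
    chkT_sound okC3 (by simp) _ _ _ _ _ partC3_38,
    chkT_sound okC3 (by simp) _ _ _ _ _ partC3_39,
    chkT_sound okC3 (by simp) _ _ _ _ _ partC3_40,
    chkT_sound okC3 (by simp) _ _ _ _ _ partC3_41,
    chkT_sound okC3 (by simp) _ _ _ _ _ partC3_42,
    chkT_sound okC3 (by simp) _ _ _ _ _ partC3_43,
    chkT_sound okC3 (by simp) _ _ _ _ _ partC3_44,
    chkT_sound okC3 (by simp) _ _ _ _ _ partC3_45,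
    chkT_sound okC3 (by simp) _ _ _ _ _ partC3_46,
    chkT_sound okC3 (by simp) _ _ _ _ _ partC3_47,
    chkT_sound okC3 (by simp) _ _ _ _ _ partC3_48,
    chkT_sound okC3 (by simp) _ _ _ _ _ partC3_49,
    chkT_sound okC3 (by simp) _ _ _ _ _ partC3_50,
    chkT_sound okC3 (by simp) _ _ _ _ _ partC3_51,
    chkT_sound okC3 (by simp) _ _ _ _ _ partC3_52,
    chkT_sound okC3 (by simp) _ _ _ _ _ partC3_53,
    chkT_sound okC3 (by simp) _ _ _ _ _ partC3_54,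
    chkT_sound okC3 (by simp) _ _ _ _ _ partC3_55,
    chkT_sound okC3 (by simp) _ _ _ _ _ partC3_56,
    chkT_sound okC3 (by simp) _ _ _ _ _ partC3_57,
    chkT_sound okC3 (by simp) _ _ _ _ _ partC3_58,
    chkT_sound okC3 (by simp) _ _ _ _ _ partC3_59,
    chkT_sound okC3 (by simp) _ _ _ _ _ partC3_60,
    chkT_sound okC3 (by simp) _ _ _ _ _ partC3_61,
    chkT_sound okC3 (by simp) _ _ _ _ _ partC3_62,
    chkT_sound okC3 (by simp) _ _ _ _ _ partC3_63,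
    chkT_sound okC3 (by simp) _ _ _ _ _ partC3_64,
    chkT_sound okC3 (by simp) _ _ _ _ _ partC3_65,
    chkT_sound okC3 (by simp) _ _ _ _ _ partC3_66,
    chkT_sound okC3 (by simp) _ _ _ _ _ partC3_67,
    chkT_sound okC3 (by simp) _ _ _ _ _ partC3_68,
    chkT_sound okC3 (by simp) _ _ _ _ _ partC3_69,
    chkT_sound okC3 (by simp) _ _ _ _ _ partC3_70,
    chkT_sound okC3 (by simp) _ _ _ _ _ partC3_71,
    chkT_sound okC3 (by simp) _ _ _ _ _ partC3_72,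
    chkT_sound okC3 (by simp) _ _ _ _ _ partC3_73,
    chkT_sound okC3 (by simp) _ _ _ _ _ partC3_74,
    chkT_sound okC3 (by simp) _ _ _ _ _ partC3_75,
    chkT_sound okC3 (by simp) _ _ _ _ _ partC3_76,
    chkT_sound okC3 (by simp) _ _ _ _ _ partC3_77,
    chkT_sound okC3 (by simp) _ _ _ _ _ partC3_78,
    chkT_sound okC3 (by simp) _ _ _ _ _ partC3_79,
    chkT_sound okC3 (by simp) _ _ _ _ _ partC3_80,
    chkT_sound okC3 (by simp) _ _ _ _ _ partC3_81,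
    chkT_sound okC3 (by simp) _ _ _ _ _ partC3_82,
    chkT_sound okC3 (by simp) _ _ _ _ _ partC3_83,
    chkT_sound okC3 (by simp) _ _ _ _ _ partC3_84,
    chkT_sound okC3 (by simp) _ _ _ _ _ partC3_85,
    chkT_sound okC3 (by simp) _ _ _ _ _ partC3_86,
    chkT_sound okC3 (by simp) _ _ _ _ _ partC3_87,
    chkT_sound okC3 (by simp) _ _ _ _ _ partC3_88,
    chkT_sound okC3 (by simp) _ _ _ _ _ partC3_89,
    chkT_sound okC3 (by simp) _ _ _ _ _ partC3_90,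
    chkT_sound okC3 (by simp) _ _ _ _ _ partC3_91,
    chkT_sound okC3 (by simp) _ _ _ _ _ partC3_92,
    chkT_sound okC3 (by simp) _ _ _ _ _ partC3_93,
    chkT_sound okC3 (by simp) _ _ _ _ _ partC3_94,
    chkT_sound okC3 (by simp) _ _ _ _ _ partC3_95,
    chkT_sound okC3 (by simp) _ _ _ _ _ partC3_96,
    chkT_sound okC3 (by simp) _ _ _ _ _ partC3_97,
    chkT_sound okC3 (by simp) _ _ _ _ _ partC3_98,
    chkT_sound okC3 (by simp) _ _ _ _ _ partC3_99,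
    chkT_sound okC3 (by simp) _ _ _ _ _ partC3_100,
    chkT_sound okC3 (by simp) _ _ _ _ _ partC3_101,
    chkT_sound okC3 (by simp) _ _ _ _ _ partC3_102,
    chkT_sound okC3 (by simp) _ _ _ _ _ partC3_103,
    chkT_sound okC3 (by simp) _ _ _ _ _ partC3_104,
    chkT_sound okC3 (by simp) _ _ _ _ _ partC3_105,
    chkT_sound okC3 (by simp) _ _ _ _ _ partC3_106,
    chkT_sound okC3 (by simp) _ _ _ _ _ partC3_107,
    chkT_sound okC3 (by simp) _ _ _ _ _ partC3_108,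
    chkT_sound okC3 (by simp) _ _ _ _ _ partC3_109,
    chkT_sound okC3 (by simp) _ _ _ _ _ partC3_110,
    chkT_sound okC3 (by simp) _ _ _ _ _ partC3_111,
    chkT_sound okC3 (by simp) _ _ _ _ _ partC3_112,
    chkT_sound okC3 (by simp) _ _ _ _ _ partC3_113,
    chkT_sound okC3 (by simp) _ _ _ _ _ partC3_114,
    chkT_sound okC3 (by simp) _ _ _ _ _ partC3_115,
    chkT_sound okC3 (by simp) _ _ _ _ _ partC3_116,
    chkT_sound okC3 (by simp) _ _ _ _ _ partC3_117,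
    chkT_sound okC3 (by simp) _ _ _ _ _ partC3_118,
    chkT_sound okC3 (by simp) _ _ _ _ _ partC3_119,
    chkT_sound okC3 (by simp) _ _ _ _ _ partC3_120,
    chkT_sound okC3 (by simp) _ _ _ _ _ partC3_121,
    chkT_sound okC3 (by simp) _ _ _ _ _ partC3_122,
    chkT_sound okC3 (by simp) _ _ _ _ _ partC3_123,
    chkT_sound okC3 (by simp) _ _ _ _ _ partC3_124,
    chkT_sound okC3 (by simp) _ _ _ _ _ partC3_125,
    chkT_sound okC3 (by simp) _ _ _ _ _ partC3_126,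
    chkT_sound okC3 (by simp) _ _ _ _ _ partC3_127,
    chkT_sound okC3 (by simp) _ _ _ _ _ partC3_128,
    chkT_sound okC3 (by simp) _ _ _ _ _ partC3_129,
    chkT_sound okC3 (by simp) _ _ _ _ _ partC3_130,
    chkT_sound okC3 (by simp) _ _ _ _ _ partC3_131,
    chkT_sound okC3 (by simp) _ _ _ _ _ partC3_132,
    chkT_sound okC3 (by simp) _ _ _ _ _ partC3_133,
    chkT_sound okC3 (by simp) _ _ _ _ _ partC3_134,
    chkT_sound okC3 (by simp) _ _ _ _ _ partC3_135,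
    chkT_sound okC3 (by simp) _ _ _ _ _ partC3_136,
    chkT_sound okC3 (by simp) _ _ _ _ _ partC3_137,
    chkT_sound okC3 (by simp) _ _ _ _ _ partC3_138,
    chkT_sound okC3 (by simp) _ _ _ _ _ partC3_139,
    chkT_sound okC3 (by simp) _ _ _ _ _ partC3_140,
    chkT_sound okC3 (by simp) _ _ _ _ _ partC3_141,
    chkT_sound okC3 (by simp) _ _ _ _ _ partC3_142,
    chkT_sound okC3 (by simp) _ _ _ _ _ partC3_143,
    chkT_sound okC3 (by simp) _ _ _ _ _ partC3_144,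
    chkT_sound okC3 (by simp) _ _ _ _ _ partC3_145,
    chkT_sound okC3 (by simp) _ _ _ _ _ partC3_146,
    chkT_sound okC3 (by simp) _ _ _ _ _ partC3_147,
    chkT_sound okC3 (by simp) _ _ _ _ _ partC3_148,
    chkT_sound okC3 (by simp) _ _ _ _ _ partC3_149,
    chkT_sound okC3 (by simp) _ _ _ _ _ partC3_150,
    chkT_sound okC3 (by simp) _ _ _ _ _ partC3_151,
    chkT_sound okC3 (by simp) _ _ _ _ _ partC3_152,
    chkT_sound okC3 (by simp) _ _ _ _ _ partC3_153,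
    chkT_sound okC3 (by simp) _ _ _ _ _ partC3_154,
    chkT_sound okC3 (by simp) _ _ _ _ _ partC3_155,
    chkT_sound okC3 (by simp) _ _ _ _ _ partC3_156,
    chkT_sound okC3 (by simp) _ _ _ _ _ partC3_157,
    chkT_sound okC3 (by simp) _ _ _ _ _ partC3_158,
    chkT_sound okC3 (by simp) _ _ _ _ _ partC3_159,
    chkT_sound okC3 (by simp) _ _ _ _ _ partC3_160,
    chkT_sound okC3 (by simp) _ _ _ _ _ partC3_161,
    chkT_sound okC3 (by simp) _ _ _ _ _ partC3_162,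
    chkT_sound okC3 (by simp) _ _ _ _ _ partC3_163,
    chkT_sound okC3 (by simp) _ _ _ _ _ partC3_164,
    chkT_sound okC3 (by simp) _ _ _ _ _ partC3_165,
    chkT_sound okC3 (by simp) _ _ _ _ _ partC3_166,
    chkT_sound okC3 (by simp) _ _ _ _ _ partC3_167,
    chkT_sound okC3 (by simp) _ _ _ _ _ partC3_168,
    chkT_sound okC3 (by simp) _ _ _ _ _ partC3_169,
    chkT_sound okC3 (by simp) _ _ _ _ _ partC3_170,
    chkT_sound okC3 (by simp) _ _ _ _ _ partC3_171,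
    chkT_sound okC3 (by simp) _ _ _ _ _ partC3_172,
    chkT_sound okC3 (by simp) _ _ _ _ _ partC3_173,
    chkT_sound okC3 (by simp) _ _ _ _ _ partC3_174,
    chkT_sound okC3 (by simp) _ _ _ _ _ partC3_175,
    chkT_sound okC3 (by simp) _ _ _ _ _ partC3_176,
    chkT_sound okC3 (by simp) _ _ _ _ _ partC3_177,
    chkT_sound okC3 (by simp) _ _ _ _ _ partC3_178,
    chkT_sound okC3 (by simp) _ _ _ _ _ partC3_179,
    chkT_sound okC3 (by simp) _ _ _ _ _ partC3_180,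
    chkT_sound okC3 (by simp) _ _ _ _ _ partC3_181,
    chkT_sound okC3 (by simp) _ _ _ _ _ partC3_182,
    chkT_sound okC3 (by simp) _ _ _ _ _ partC3_183,
    chkT_sound okC3 (by simp) _ _ _ _ _ partC3_184,
    chkT_sound okC3 (by simp) _ _ _ _ _ partC3_185,
    chkT_sound okC3 (by simp) _ _ _ _ _ partC3_186,
    chkT_sound okC3 (by simp) _ _ _ _ _ partC3_187,
    chkT_sound okC3 (by simp) _ _ _ _ _ partC3_188,
    chkT_sound okC3 (by simp) _ _ _ _ _ partC3_189,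
    chkT_sound okC3 (by simp) _ _ _ _ _ partC3_190,
    chkT_sound okC3 (by simp) _ _ _ _ _ partC3_191,
    chkT_sound okC3 (by simp) _ _ _ _ _ partC3_192,
    chkT_sound okC3 (by simp) _ _ _ _ _ partC3_193,
    chkT_sound okC3 (by simp) _ _ _ _ _ partC3_194,
    chkT_sound okC3 (by simp) _ _ _ _ _ partC3_195,
    chkT_sound okC3 (by simp) _ _ _ _ _ partC3_196,
    chkT_sound okC3 (by simp) _ _ _ _ _ partC3_197,
    chkT_sound okC3 (by simp) _ _ _ _ _ partC3_198,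
    chkT_sound okC3 (by simp) _ _ _ _ _ partC3_199,
    chkT_sound okC3 (by simp) _ _ _ _ _ partC3_200,
    chkT_sound okC3 (by simp) _ _ _ _ _ partC3_201,
    chkT_sound okC3 (by simp) _ _ _ _ _ partC3_202,
    chkT_sound okC3 (by simp) _ _ _ _ _ partC3_203,
    chkT_sound okC3 (by simp) _ _ _ _ _ partC3_204,
    chkT_sound okC3 (by simp) _ _ _ _ _ partC3_205,
    chkT_sound okC3 (by simp) _ _ _ _ _ partC3_206,
    chkT_sound okC3 (by simp) _ _ _ _ _ partC3_207,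
    chkT_sound okC3 (by simp) _ _ _ _ _ partC3_208,
    chkT_sound okC3 (by simp) _ _ _ _ _ partC3_209,
    chkT_sound okC3 (by simp) _ _ _ _ _ partC3_210,
    chkT_sound okC3 (by simp) _ _ _ _ _ partC3_211,
    chkT_sound okC3 (by simp) _ _ _ _ _ partC3_212,
    chkT_sound okC3 (by simp) _ _ _ _ _ partC3_213,
    chkT_sound okC3 (by simp) _ _ _ _ _ partC3_214,
    chkT_sound okC3 (by simp) _ _ _ _ _ partC3_215,
    chkT_sound okC3 (by simp) _ _ _ _ _ partC3_216,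
    chkT_sound okC3 (by simp) _ _ _ _ _ partC3_217,
    chkT_sound okC3 (by simp) _ _ _ _ _ partC3_218,
    chkT_sound okC3 (by simp) _ _ _ _ _ partC3_219,
    chkT_sound okC3 (by simp) _ _ _ _ _ partC3_220,
    chkT_sound okC3 (by simp) _ _ _ _ _ partC3_221,
    chkT_sound okC3 (by simp) _ _ _ _ _ partC3_222,
    chkT_sound okC3 (by simp) _ _ _ _ _ partC3_223,
    chkT_sound okC3 (by simp) _ _ _ _ _ partC3_224,
    chkT_sound okC3 (by simp) _ _ _ _ _ partC3_225,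
    chkT_sound okC3 (by simp) _ _ _ _ _ partC3_226,
    chkT_sound okC3 (by simp) _ _ _ _ _ partC3_227,
    chkT_sound okC3 (by simp) _ _ _ _ _ partC3_228,
    chkT_sound okC3 (by simp) _ _ _ _ _ partC3_229,
    chkT_sound okC3 (by simp) _ _ _ _ _ partC3_230,
    chkT_sound okC3 (by simp) _ _ _ _ _ partC3_231,
    chkT_sound okC3 (by simp) _ _ _ _ _ partC3_232,
    chkT_sound okC3 (by simp) _ _ _ _ _ partC3_233,
    chkT_sound okC3 (by simp) _ _ _ _ _ partC3_234,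
    chkT_sound okC3 (by simp) _ _ _ _ _ partC3_235,
    chkT_sound okC3 (by simp) _ _ _ _ _ partC3_236,
    chkT_sound okC3 (by simp) _ _ _ _ _ partC3_237,
    chkT_sound okC3 (by simp) _ _ _ _ _ partC3_238,
    chkT_sound okC3 (by simp) _ _ _ _ _ partC3_239⟩

theorem topC3_0 : chkT datC3 knownC3 (.spV 2 1 1 1 (94, 93, 74) (.spV 0 1 1 1 (95, 94, 74) (.spV 0 1 1 1 (96, 95, 74) (.spV 0 1 1 1 (97, 96, 74) (.spV 0 1 1 1 (98, 97, 74) (.spV 0 1 1 1 (99, 98, 74) (.spV 0 1 1 1 (100, 99, 74) (.spV 0 1 1 1 (101, 100, 74) (.spV 0 1 1 1 (102, 101, 74) (.spV 0 1 1 1 (103, 102, 74) (.spV 0 1 1 1 (104, 103, 74) (.spV 0 1 1 1 (105, 104, 74) (.spV 0 1 1 1 (106, 105, 74) (.spV 0 1 1 1 (107, 106, 74) (.spU 0 2 1 1 (3, 1, 0) (.spU 1 3 2 1 (5, 5, 2) (.spU 1 1 1 1 (4, 2, 1) .ext (.spU 0 2 1 1 (6, 4, 3) .ext (.spV 1 3 2 1 (5, 5, 2) (.spU 2 1 4 3 (3, 3, 2) (.spV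 0 1 4 3 (3, 3, 2) (.spU 1 4 1 1 (10, 8, 7) (.spU 1 1 2 1 (12, 10, 7) .ext .ext) (.spU 2 1 3 1 (6, 6, 5) (.spU 1 6 1 1 (16, 14, 13) .ext (.spV 0 1 3 1 (6, 6, 5) (.spS 8 (.spU 0 6 1 1 (22, 20, 19) .ext (.spS 4 .ext .ext)) (.spU 0 6 1 1 (22, 20, 19) .ext (.spV 1 1 1 1 (108, 107, 75) .ext (.spV 0 1 1 1 (109, 108, 76) .ext (.spU 2 1 5 1 (11, 11, 10) .ext .ext))))) .ext)) (.spV 0 1 3 1 (6, 6, 5) (.spS 8 (.spU 0 2 1 3 (4, 4, 3) (.spS 4 (.spV 1 1 1 1 (108, 107, 75) .ext (.spV 0 1 1 1 (109, 108, 76) .ext (.spV 0 1 1 1 (110, 109, 77) .ext .ext))) .ext) .ext) .ext) .ext))) (.spU 1 4 1 1 (10, 8, 7) (.spU 1 1 2 1 (12, 10, 7) .ext (.spS 8 .ext .ext)) .ext)) (.spV 0 1 4 3 (3, 3, 2) .ext (.spU 1 2 1 1 (12, 10, 7) (.spS 8 (.spV 2 1 6 1 (137, 136, 86) (.spV 1 2 3 1 (19, 19, 10) (.spU 2 2 1 1 (22, 20, 11) (.spU 2 4 1 1 (46, 36, 23) .ext .ext) (.spS 4 (.spV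 0 1 6 1 (37, 37, 22) (.spU 2 1 1 1 (11, 9, 5) .ext .ext) .ext) .ext)) .ext) .ext) .ext) (.spU 2 2 3 1 (19, 19, 10) (.spV 0 2 3 1 (19, 19, 10) (.spV 0 1 6 1 (37, 37, 22) (.spV 0 1 6 1 (55, 55, 34) .ext .ext) .ext) .ext) (.spV 2 1 6 1 (137, 136, 86) (.spS 8 (.spU 2 1 2 1 (22, 20, 11) (.spV 1 2 3 1 (19, 19, 10) (.spU 1 4 1 3 (13, 13, 6) .ext (.spS 4 .ext .ext)) .ext) .ext) (.spV 1 2 3 1 (19, 19, 10) (.spU 2 1 2 1 (22, 20, 11) .ext (.spV 0 1 6 1 (37, 37, 22) (.spU 2 1 2 1 (43, 39, 24) .ext .ext) .ext)) .ext)) .ext))))) .ext))) (.spU 2 1 2 1 (5, 3, 0) (.spU 0 1 4 1 (9, 7, 0) (.spV 1 3 2 1 (5, 5, 2) (.spV 0 1 4 3 (3, 3, 2) .ext .ext) .ext) .ext) .ext)) (.spU 2 1 3 1 (4, 1, 1) .ext (.spU 2 1 1 1 (4, 2, 1) (.spU 1 2 1 3 (2, 1, 1) (.spV 1 3 2 1 (5, 5, 2) (.spV 0 1 4 3 (3, 3, 2) (.spU 0 3 2 1 (14, 5, 5) .ext (.spV 0 1 3 1 (6, 6, 5) .ext .ext))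 .ext) .ext) (.spV 1 3 2 1 (5, 5, 2) (.spU 2 1 2 1 (6, 4, 3) (.spV 0 1 4 3 (3, 3, 2) (.spU 1 1 1 1 (3, 2, 2) (.spV 0 1 3 1 (6, 6, 5) .ext .ext) (.spU 2 1 4 1 (10, 8, 7) (.spU 1 2 1 1 (5, 4, 4) .ext (.spU 2 1 6 1 (16, 14, 13) (.spU 1 4 1 1 (9, 8, 8) (.spV 0 1 3 1 (6, 6, 5) .ext .ext) (.spV 0 1 3 1 (6, 6, 5) (.spS 8 (.spU 2 1 6 1 (22, 20, 19) (.spS 4 (.spU 1 6 1 1 (15, 14, 14) .ext .ext) .ext) .ext) (.spU 2 1 6 1 (22, 20, 19) .ext .ext)) .ext)) .ext)) (.spV 0 1 3 1 (6, 6, 5) .ext (.spS 8 (.spU 0 2 1 1 (22, 16, 13) .ext .ext) .ext)))) .ext) .ext) (.spU 2 1 2 1 (6, 4, 3) (.spU 1 1 1 1 (3, 2, 2) .ext (.spU 0 2 1 1 (5, 4, 4) .ext (.spU 2 1 4 1 (10, 8, 7) (.spU 1 4 1 1 (9, 8, 8) .ext .ext) .ext))) .ext))) .ext))) (.spU 2 1 3 1 (4, 1, 1) (.spU 1 2 1 1 (3, 1, 0) (.spU 0 1 2 1 (5, 3, 0) (.spV 1 1 1 1 (108, 107, 75) .ext .ext) .ext) .ext) (.spU 2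 3 2 1 (5, 5, 2) (.spU 1 2 1 3 (2, 1, 1) .ext (.spU 0 1 1 1 (3, 2, 2) .ext (.spU 2 1 4 3 (3, 3, 2) (.spU 1 2 1 1 (5, 4, 4) .ext (.spU 2 1 3 1 (6, 6, 5) (.spU 1 4 1 1 (9, 8, 8) (.spS 8 .ext (.spU 1 1 1 1 (11, 10, 9) .ext .ext)) (.spS 8 (.spS 4 (.spU 0 6 1 1 (15, 14, 14) .ext .ext) .ext) (.spV 1 1 1 1 (108, 107, 75) (.spV 0 1 1 1 (109, 108, 76) (.spS 12 .ext (.spS 14 .ext (.spV 1 1 1 1 (107, 106, 75) .ext (.spV 0 1 1 1 (108, 107, 76) .ext (.spU 2 1 5 1 (11, 11, 10) .ext .ext))))) .ext) .ext))) (.spS 8 (.spU 0 2 1 3 (4, 4, 3) .ext .ext) .ext))) .ext))) .ext))) (.spU 2 1 3 1 (4, 1, 1) .ext (.spU 2 3 2 1 (5, 5, 2) (.spU 1 2 1 3 (2, 1, 1) .ext (.spU 0 1 1 1 (3, 2, 2) .ext (.spU 2 1 4 3 (3, 3, 2) (.spU 1 2 1 1 (5, 4, 4) .ext (.spU 2 1 3 1 (6, 6, 5) (.spU 1 4 1 1 (9, 8, 8) .ext (.spS 8 .ext (.spV 2 1 1 1 (106, 105, 75) .ext (.spV 0 1 1 1 (107,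 106, 76) .ext (.spV 0 1 1 1 (108, 107, 77) .ext (.spV 0 1 1 1 (109, 108, 78) .ext (.spU 2 1 5 1 (11, 11, 10) .ext .ext))))))) (.spS 8 .ext .ext))) .ext))) .ext))) (.spU 2 1 3 1 (4, 1, 1) .ext (.spU 2 3 2 1 (5, 5, 2) (.spU 1 2 1 3 (2, 1, 1) .ext (.spU 0 1 1 1 (3, 2, 2) .ext (.spU 2 1 4 3 (3, 3, 2) (.spU 1 2 1 1 (5, 4, 4) .ext (.spU 2 1 3 1 (6, 6, 5) (.spU 1 4 1 1 (9, 8, 8) .ext (.spS 8 .ext .ext)) (.spS 8 .ext .ext))) .ext))) .ext))) (.spU 2 1 3 1 (4, 1, 1) .ext (.spU 2 3 2 1 (5, 5, 2) (.spU 1 2 1 3 (2, 1, 1) .ext (.spU 0 1 1 1 (3, 2, 2) .ext (.spU 2 1 4 3 (3, 3, 2) (.spU 1 2 1 1 (5, 4, 4) .ext (.spU 2 1 3 1 (6, 6, 5) (.spU 1 4 1 1 (9, 8, 8) .ext (.spS 8 .ext .ext)) .ext)) .ext))) .ext))) (.spU 2 1 3 1 (4, 1, 1) .ext (.spU 2 3 2 1 (5, 5, 2) (.spU 1 2 1 3 (2, 1, 1) .ext (.spU 0 1 1 1 (3, 2, 2) .ext (.spU 2 1 4 3 (3, 3, 2) (.spU 1 2 1 1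 (5, 4, 4) .ext (.spU 2 1 3 1 (6, 6, 5) (.spU 1 4 1 1 (9, 8, 8) .ext .ext) .ext)) .ext))) .ext))) (.spU 2 1 3 1 (4, 1, 1) .ext (.spU 2 3 2 1 (5, 5, 2) (.spU 1 2 1 3 (2, 1, 1) .ext (.spU 0 1 1 1 (3, 2, 2) .ext (.spU 2 1 4 3 (3, 3, 2) (.spU 1 2 1 1 (5, 4, 4) .ext (.spU 2 1 3 1 (6, 6, 5) (.spU 1 4 1 1 (9, 8, 8) .ext .ext) .ext)) .ext))) .ext))) (.spU 2 1 3 1 (4, 1, 1) .ext (.spU 2 3 2 1 (5, 5, 2) (.spU 1 2 1 3 (2, 1, 1) .ext (.spU 0 1 1 1 (3, 2, 2) .ext (.spU 2 1 4 3 (3, 3, 2) (.spU 1 2 1 1 (5, 4, 4) .ext (.spU 2 1 3 1 (6, 6, 5) (.spU 1 4 1 1 (9, 8, 8) .ext .ext) .ext)) .ext))) .ext))) (.spU 2 1 3 1 (4, 1, 1) .ext (.spU 2 3 2 1 (5, 5, 2) (.spU 1 2 1 3 (2, 1, 1) .ext (.spU 0 1 1 1 (3, 2, 2) .ext (.spU 2 1 4 3 (3, 3, 2) (.spU 1 2 1 1 (5, 4, 4) .ext (.spU 2 1 3 1 (6, 6, 5) .ext .ext)) .ext))) .ext))) (.spU 2 1 3 1 (4, 1, 1) .ext (.spU 2 3 2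 1 (5, 5, 2) (.spU 1 2 1 3 (2, 1, 1) .ext (.spU 0 1 1 1 (3, 2, 2) .ext (.spU 2 1 4 3 (3, 3, 2) (.spU 1 2 1 1 (5, 4, 4) .ext (.spU 2 1 3 1 (6, 6, 5) .ext .ext)) .ext))) .ext))) (.spU 2 1 3 1 (4, 1, 1) .ext (.spU 2 3 2 1 (5, 5, 2) (.spU 1 2 1 3 (2, 1, 1) .ext (.spU 0 1 1 1 (3, 2, 2) .ext (.spU 2 1 4 3 (3, 3, 2) (.spU 1 2 1 1 (5, 4, 4) .ext (.spU 2 1 3 1 (6, 6, 5) .ext .ext)) .ext))) .ext))) (.spU 2 1 3 1 (4, 1, 1) .ext (.spU 2 3 2 1 (5, 5, 2) (.spU 1 2 1 3 (2, 1, 1) .ext (.spU 0 1 1 1 (3, 2, 2) .ext (.spU 2 1 4 3 (3, 3, 2) (.spU 0 1 3 1 (6, 6, 5) (.spU 1 2 1 1 (5, 4, 4) .ext .ext) .ext) .ext))) .ext))) (.spU 2 1 3 1 (4, 1, 1) .ext (.spU 2 3 2 1 (5, 5, 2) (.spU 1 2 1 3 (2, 1, 1) .ext (.spU 0 1 1 1 (3, 2, 2) .ext (.spU 2 1 4 3 (3, 3, 2) (.spU 0 1 3 1 (6, 6, 5) .ext .ext) .ext))) .ext))) (.spU 2 1 3 1 (4, 1, 1) .ext (.spU 2 3 2 1 (5, 5, 2)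 (.spU 1 2 1 3 (2, 1, 1) .ext (.spU 0 1 1 1 (3, 2, 2) .ext (.spU 2 1 4 3 (3, 3, 2) (.spU 0 1 3 1 (6, 6, 5) .ext .ext) .ext))) .ext))) (.spU 2 1 3 1 (4, 1, 1) .ext (.spU 2 3 2 1 (5, 5, 2) (.spU 1 2 1 3 (2, 1, 1) .ext (.spU 0 1 1 1 (3, 2, 2) .ext (.spU 2 1 4 3 (3, 3, 2) .ext .ext))) .ext)))
    U0 ((1, 1, 0), (1, 1, 1), (93, 92, 74)) 0 16 = true := by decide +kernel

theorem topC3_1 : chkT datC3 knownC3 (.spU 2 1 3 1 (4, 1, 1) .ext (.spU 2 3 2 1 (5, 5, 2) (.spU 1 2 1 3 (2, 1, 1) .ext (.spU 0 1 1 1 (3, 2, 2) .ext .ext)) .ext))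
    U0 ((93, 92, 74), (1, 1, 1), (42, 41, 36)) 0 16 = true := by decide +kernel

theorem topC3_2 : chkT datC3 knownC3 (.spU 2 1 3 1 (4, 1, 1) .ext (.spU 2 3 2 1 (5, 5, 2) .ext .ext))
    U0 ((42, 41, 36), (1, 1, 1), (43, 41, 39)) 0 16 = true := by decide +kernel

theorem topC3_3 : chkT datC3 knownC3 .ext
    U0 ((43, 41, 39), (1, 1, 1), (59, 55, 55)) 0 16 = true := by decide +kernel

theorem cellsC3 : fanCells fullC3.fan = [((1, 1, 0), (1, 1, 1), (93, 92, 74)), ((93, 92, 74), (1, 1, 1), (42, 41, 36)), ((42, 41, 36), (1, 1, 1), (43, 41, 39)), ((43, 41, 39), (1, 1, 1), (59, 55, 55))] := rfl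

theorem mainC3 : ∀ Q ∈ fanCells fullC3.fan, Pos fullC3.D U0 Q 0 fullC3.N := by
  rw [cellsC3]
  simp only [List.forall_mem_cons, List.not_mem_nil, false_imp_iff, implies_true, and_true]
  exact ⟨chkT_sound okC3 known_posC3 _ _ _ _ _ topC3_0, chkT_sound okC3 known_posC3 _ _ _ _ _ topC3_1, chkT_sound okC3 known_posC3 _ _ _ _ _ topC3_2, chkT_sound okC3 known_posC3 _ _ _ _ _ topC3_3⟩

theorem hallC3_v : (pcC3.all fun p => hom (p.w * fullC3.D.r) (eMp fullC3 p)) = true := by decide +kernel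
theorem allC3_v : ∀ Q ∈ fanCells fullC3.fan, ∀ a b c, InC Q a b c →
    ∃ p ∈ pcC3, 0 ≤ PExp.ev (vec a b c) (eMp fullC3 p) := by
  rw [cellsC3]
  simp only [List.forall_mem_cons, List.not_mem_nil, false_imp_iff, implies_true, and_true]
  exact ⟨chkFanP_sound hallC3_v _ _ vC3_0 _ (by simp), chkFanP_sound hallC3_v _ _ vC3_1 _ (by simp), chkFanP_sound hallC3_v _ _ vC3_2 _ (by simp), chkFanP_sound hallC3_v _ _ vC3_3 _ (by simp)⟩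

theorem hallC3_s : (scC3.all fun p => hom (p.w * fullC3.D.r) (eMp fullC3 p)) = true := by decide +kernel
theorem allC3_s : ∀ Q ∈ fanCells fullC3.fan, ∀ a b c, InC Q a b c →
    ∃ p ∈ scC3, 0 ≤ PExp.ev (vec a b c) (eMp fullC3 p) := by
  rw [cellsC3]
  simp only [List.forall_mem_cons, List.not_mem_nil, false_imp_iff, implies_true, and_true]
  exact ⟨chkFanP_sound hallC3_s _ _ sC3_0 _ (by simp), chkFanP_sound hallC3_s _ _ sC3_1 _ (by simp), chkFanP_sound hallC3_s _ _ sC3_2 _ (by simp), chkFanP_sound hallC3_s _ _ sC3_3 _ (by simp)⟩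

theorem hcuC3 : ∀ p ∈ pcC3, ∀ a b c : ℝ, InC U0 a b c → 0 ≤ PExp.ev (vec a b c) (eRp fullC3 p) := by
  unfold pcC3
  simp only [List.forall_mem_cons, List.not_mem_nil, false_imp_iff, implies_true, and_true]
  exact ⟨chk1_sound homuC3_0 _ _ uC3_0,
    chk1_sound homuC3_1 _ _ uC3_1,
    chk1_sound homuC3_2 _ _ uC3_2,
    chk1_sound homuC3_3 _ _ uC3_3,
    chk1_sound homuC3_4 _ _ uC3_4,
    chk1_sound homuC3_5 _ _ uC3_5,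
    chk1_sound homuC3_6 _ _ uC3_6,
    chk1_sound homuC3_7 _ _ uC3_7,
    chk1_sound homuC3_8 _ _ uC3_8,
    chk1_sound homuC3_9 _ _ uC3_9,
    chk1_sound homuC3_10 _ _ uC3_10,
    chk1_sound homuC3_11 _ _ uC3_11⟩

theorem validC3 : ValidB fullC3 pcC3 scC3 where
  ok := okC3
  r0 := by decide +kernel
  c0 := by decide +kernel
  ln0 := by decide +kernel
  ld0 := by decide +kernel
  dn0 := by decide +kernel
  dd0 := by decide +kernel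
  Da0 := by decide +kernel
  den0 := by decide +kernel
  cn0 := by decide +kernel
  cd0 := by decide +kernel
  gn0 := by decide +kernel
  gd0 := by decide +kernel
  fan := by decide +kernel
  fan1 := by decide +kernel
  fan2 := by decide +kernel
  main := mainC3
  hm := chkFan_sound homC3_m _ _ oneC3_m
  hw := chk1_sound homC3_w _ _ oneC3_w
  s0 := by decide +kernel
  s1 := by decide +kernel
  v2 := by decide +kernel
  v3 := by decide +kernel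
  okP := by
    unfold pcC3
    simp only [List.forall_mem_cons, List.not_mem_nil, false_imp_iff, implies_true, and_true]
    decide +kernel
  okS := by
    unfold scC3
    simp only [List.forall_mem_cons, List.not_mem_nil, false_imp_iff, implies_true, and_true]
    decide +kernel
  hcv := allC3_v
  hcu := hcuC3
  hst := allC3_s
  hN := chkFan_sound homC3_n _ _ oneC3_n
  hz := rfl

end Vale.Agent.P154.Sep2
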