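import Mathlib
import Vale.Agent.P154.PMR
import Vale.Agent.P154.P12Data

namespace Vale.Agent.P154.Sep2

def partP12_1 : chkT datP12 [] (.spU 1 4 1 3 (11, 3, 2) (.leaf 62 348) (.leaf 53 340))
    ((5, 2, 1), (4, 1, 1), (17, 5, 2))
    ((33, 33, 23), (1, 1, 1), (64, 63, 55)) 0 16 = true := by decide +kernel

def partP12_21 : chkT datP12 [] (.spU 2 1 4 1 (9, 7, 0) (.leaf 51 341) (.leaf 54 344))
    ((1, 1, 0), (7, 4, 1), (5, 3, 0))
    ((33, 33, 23), (1, 1, 1), (64, 63, 55)) 36 40 = true := by decide +kernel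

def partP12_23 : chkT datP12 [] (.leaf 47 335)
    ((7, 4, 1), (4, 1, 1), (3, 1, 0))
    ((33, 33, 23), (1, 1, 1), (64, 63, 55)) 40 48 = true := by decide +kernel

def partP12_37 : chkT datP12 [] (.spU 1 1 3 1 (20, 14, 11) (.leaf 57 349) (.leaf 62 354))
    ((2, 1, 1), (11, 8, 5), (3, 2, 2))
    ((33, 33, 23), (1, 1, 1), (64, 63, 55)) 0 8 = true := by decide +kernel

def partP12_41 : chkT datP12 [] (.leaf 45 344)
    ((6, 6, 5), (1, 1, 1), (5, 4, 4))
    ((39, 39, 29), (9, 9, 7), (64, 63, 55)) 0 4 = true := by decide +kernel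

def partP12_52 : chkT datP12 [] (.spU 2 1 2 1 (21, 19, 10) (.leaf 68 362) (.leaf 70 363))
    ((5, 5, 2), (19, 19, 10), (11, 9, 6))
    ((33, 33, 23), (1, 1, 1), (64, 63, 55)) 0 4 = true := by decide +kernel

def partP12_56 : chkT datP12 [] (.leaf 51 344)
    ((3, 2, 2), (11, 9, 6), (3, 3, 2))
    ((33, 33, 23), (1, 1, 1), (64, 63, 55)) 0 8 = true := by decide +kernel

def partP12_69 : chkT datP12 [] (.leaf 52 340)
    ((4, 1, 1), (13, 7, 4), (2, 1, 1))
    ((33, 33, 23), (1, 1, 1), (64, 63, 55)) 48 64 = true := by decide +kernel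

def partP12_71 : chkT datP12 [] (.spU 1 2 3 1 (19, 19, 10) (.leaf 62 356) (.leaf 63 356))
    ((11, 8, 5), (5, 5, 2), (3, 3, 2))
    ((33, 33, 23), (1, 1, 1), (64, 63, 55)) 32 64 = true := by decide +kernel

def partP12_80 : chkT datP12 [] (.leaf 76 370)
    ((43, 43, 10), (7, 7, 2), (23, 20, 5))
    ((33, 33, 23), (1, 1, 1), (64, 63, 55)) 0 4 = true := by decide +kernel

def partP12_91 : chkT datP12 [] (.leaf 55 343)
    ((4, 1, 1), (5, 2, 1), (13, 7, 4))
    ((33, 33, 23), (1, 1, 1), (64, 63, 55)) 0 32 = true := by decide +kernel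

def partP12_102 : chkT datP12 [] (.spU 2 1 2 3 (7, 7, 2) (.leaf 50 342) (.leaf 56 348))
    ((5, 5, 2), (4, 3, 1), (11, 11, 2))
    ((33, 33, 23), (1, 1, 1), (64, 63, 55)) 40 48 = true := by decide +kernel

def partP12_103 : chkT datP12 [] (.leaf 53 344)
    ((1, 1, 0), (11, 11, 2), (7, 4, 1))
    ((33, 33, 23), (1, 1, 1), (64, 63, 55)) 40 48 = true := by decide +kernel

def partP12_118 : chkT datP12 [] (.spS 8 (.leaf 41 334) (.leaf 41 333))
    ((3, 2, 2), (2, 1, 1), (5, 5, 2))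
    ((64, 63, 55), (1, 1, 1), (33, 32, 30)) 0 16 = true := by decide +kernel

def partP12_119 : chkT datP12 [] (.leaf 43 337)
    ((5, 4, 4), (3, 2, 2), (3, 3, 2))
    ((64, 63, 55), (1, 1, 1), (33, 32, 30)) 0 8 = true := by decide +kernel

def partP12_133 : chkT datP12 [] (.leaf 41 332)
    ((1, 1, 0), (5, 5, 2), (4, 1, 1))
    ((64, 63, 55), (1, 1, 1), (33, 32, 30)) 16 32 = true := by decide +kernel

def partP12_135 : chkT datP12 [] (.spU 1 3 1 1 (7, 4, 1) (.leaf 47 313) (.leaf 43 310))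
    ((3, 1, 0), (1, 1, 0), (4, 1, 1))
    ((33, 32, 30), (1, 1, 1), (18, 17, 17)) 0 32 = true := by decide +kernel

def partP12_149 : chkT datP12 [] (.spS 40 (.leaf 41 311) (.leaf 41 311))
    ((1, 1, 0), (5, 5, 2), (4, 1, 1))
    ((33, 32, 30), (1, 1, 1), (18, 17, 17)) 32 48 = true := by decide +kernel

end Vale.Agent.P154.Sep2
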