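import Mathlib
import Vale.Agent.P154.PMR
import Vale.Agent.P154.P12Data

namespace Vale.Agent.P154.Sep2

def partP12_0 : chkT datP12 [] (.leaf 59 345)
    ((17, 5, 2), (3, 1, 0), (7, 4, 1))
    ((33, 33, 23), (1, 1, 1), (64, 63, 55)) 0 32 = true := by decide +kernel

def partP12_2 : chkT datP12 [] (.spS 8 (.leaf 60 347) (.leaf 60 346))
    ((7, 4, 1), (5, 2, 1), (17, 5, 2))
    ((33, 33, 23), (1, 1, 1), (64, 63, 55)) 0 16 = true := by decide +kernel

def partP12_11 : chkT datP12 [] (.leaf 70 398)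
    ((32, 8, 5), (17, 5, 2), (4, 1, 1))
    ((262, 261, 193), (33, 33, 23), (39, 39, 29)) 6 8 = true := by decide +kernel

def partP12_24 : chkT datP12 [] (.spU 2 1 2 1 (5, 3, 0) (.leaf 46 335) (.leaf 48 337))
    ((1, 1, 0), (7, 4, 1), (3, 1, 0))
    ((33, 33, 23), (1, 1, 1), (64, 63, 55)) 40 48 = true := by decide +kernel

def partP12_26 : chkT datP12 [] (.leaf 45 328)
    ((1, 0, 0), (7, 1, 0), (4, 1, 1))
    ((33, 33, 23), (1, 1, 1), (64, 63, 55)) 32 36 = true := by decide +kernel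

def partP12_39 : chkT datP12 [] (.spU 2 2 1 1 (11, 10, 8) (.leaf 53 346) (.leaf 51 345))
    ((5, 4, 4), (3, 2, 2), (3, 3, 2))
    ((33, 33, 23), (1, 1, 1), (64, 63, 55)) 0 8 = true := by decide +kernel

def partP12_42 : chkT datP12 [] (.leaf 45 351)
    ((6, 6, 5), (1, 1, 1), (5, 4, 4))
    ((33, 33, 23), (39, 39, 29), (64, 63, 55)) 0 4 = true := by decide +kernel

def partP12_53 : chkT datP12 [] (.spU 0 3 2 1 (77, 77, 38) (.leaf 85 378) (.leaf 84 377))
    ((13, 13, 6), (19, 19, 10), (21, 19, 10))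
    ((33, 33, 23), (1, 1, 1), (64, 63, 55)) 4 8 = true := by decide +kernel

def partP12_58 : chkT datP12 [] (.leaf 51 342)
    ((3, 2, 2), (11, 9, 6), (3, 3, 2))
    ((33, 33, 23), (1, 1, 1), (64, 63, 55)) 8 16 = true := by decide +kernel

def partP12_72 : chkT datP12 [] (.leaf 50 342)
    ((2, 1, 1), (11, 8, 5), (3, 3, 2))
    ((33, 33, 23), (1, 1, 1), (64, 63, 55)) 32 64 = true := by decide +kernel

def partP12_73 : chkT datP12 [] (.spU 1 6 1 1 (49, 37, 10) (.leaf 81 373) (.leaf 77 369))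
    ((23, 20, 5), (4, 3, 1), (25, 19, 4))
    ((33, 33, 23), (1, 1, 1), (64, 63, 55)) 0 4 = true := by decide +kernel

def partP12_82 : chkT datP12 [] (.leaf 76 368)
    ((43, 43, 10), (7, 7, 2), (23, 20, 5))
    ((33, 33, 23), (1, 1, 1), (64, 63, 55)) 8 16 = true := by decide +kernel

def partP12_92 : chkT datP12 [] (.leaf 55 345)
    ((4, 3, 1), (5, 5, 2), (13, 7, 4))
    ((33, 33, 23), (1, 1, 1), (64, 63, 55)) 0 32 = true := by decide +kernel

def partP12_104 : chkT datP12 [] (.spU 1 2 1 3 (5, 2, 1) (.leaf 57 346) (.leaf 55 343))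
    ((13, 7, 4), (4, 1, 1), (7, 4, 1))
    ((33, 33, 23), (1, 1, 1), (64, 63, 55)) 40 48 = true := by decide +kernel

def partP12_105 : chkT datP12 [] (.leaf 57 347)
    ((5, 5, 2), (13, 7, 4), (7, 4, 1))
    ((33, 33, 23), (1, 1, 1), (64, 63, 55)) 40 48 = true := by decide +kernel

def partP12_120 : chkT datP12 [] (.spS 4 (.leaf 45 340) (.leaf 45 339))
    ((6, 6, 5), (1, 1, 1), (5, 4, 4))
    ((64, 63, 55), (1, 1, 1), (33, 32, 30)) 0 8 = true := by decide +kernel

def partP12_121 : chkT datP12 [] (.leaf 48 342)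
    ((3, 3, 2), (6, 6, 5), (5, 4, 4))
    ((64, 63, 55), (1, 1, 1), (33, 32, 30)) 0 8 = true := by decide +kernel

def partP12_136 : chkT datP12 [] (.leaf 38 301)
    ((1, 0, 0), (3, 1, 0), (4, 1, 1))
    ((33, 32, 30), (1, 1, 1), (18, 17, 17)) 0 32 = true := by decide +kernel

def partP12_137 : chkT datP12 [] (.spS 36 (.leaf 33 298) (.leaf 33 298))
    ((4, 1, 1), (1, 0, 0), (1, 1, 0))
    ((33, 32, 30), (1, 1, 1), (18, 17, 17)) 32 40 = true := by decide +kernel

end Vale.Agent.P154.Sep2
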