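import Mathlib
import Vale.Agent.P154.PMR
import Vale.Agent.P154.P12Data
import Vale.Agent.P154.P12M0

namespace Vale.Agent.P154.Sep2

def partP12_3 : chkT datP12 [] (.spU 2 1 2 3 (5, 2, 1) (.leaf 58 344) (.leaf 60 347))
    ((4, 1, 1), (17, 5, 2), (7, 4, 1))
    ((33, 33, 23), (1, 1, 1), (64, 63, 55)) 16 32 = true := by decide +kernel

def partP12_4 : chkT datP12 [] (.leaf 43 331)
    ((1, 1, 0), (7, 4, 1), (3, 1, 0))
    ((33, 33, 23), (1, 1, 1), (64, 63, 55)) 0 32 = true := by decide +kernel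

def partP12_14 : chkT datP12 [] (.leaf 59 395)
    ((17, 5, 2), (4, 1, 1), (6, 1, 1))
    ((130, 129, 101), (262, 261, 193), (39, 39, 29)) 0 16 = true := by decide +kernel

def partP12_25 : chkT datP12 [] (.spU 0 1 2 1 (13, 3, 0) (.leaf 53 338) (.leaf 57 341))
    ((7, 1, 0), (3, 1, 0), (4, 1, 1))
    ((33, 33, 23), (1, 1, 1), (64, 63, 55)) 32 36 = true := by decide +kernel

def partP12_28 : chkT datP12 [] (.leaf 38 323)
    ((1, 0, 0), (3, 1, 0), (4, 1, 1))
    ((33, 33, 23), (1, 1, 1), (64, 63, 55)) 40 48 = true := by decide +kernel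

def partP12_40 : chkT datP12 [] (.spV 0 1 6 1 (15, 15, 13) (.leaf 45 333) (.leaf 45 336))
    ((6, 6, 5), (1, 1, 1), (5, 4, 4))
    ((9, 9, 7), (1, 1, 1), (64, 63, 55)) 0 4 = true := by decide +kernel

def partP12_44 : chkT datP12 [] (.leaf 45 350)
    ((6, 6, 5), (1, 1, 1), (5, 4, 4))
    ((33, 33, 23), (39, 39, 29), (64, 63, 55)) 4 8 = true := by decide +kernel

def partP12_57 : chkT datP12 [] (.spU 1 2 3 1 (19, 19, 10) (.leaf 63 355) (.leaf 64 356))
    ((11, 9, 6), (5, 5, 2), (3, 3, 2))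
    ((33, 33, 23), (1, 1, 1), (64, 63, 55)) 8 16 = true := by decide +kernel

def partP12_59 : chkT datP12 [] (.leaf 46 338)
    ((7, 5, 4), (3, 3, 2), (3, 2, 2))
    ((33, 33, 23), (1, 1, 1), (64, 63, 55)) 16 32 = true := by decide +kernel

def partP12_74 : chkT datP12 [] (.leaf 72 365)
    ((11, 11, 2), (23, 20, 5), (25, 19, 4))
    ((33, 33, 23), (1, 1, 1), (64, 63, 55)) 0 4 = true := by decide +kernel

def partP12_81 : chkT datP12 [] (.spS 6 (.leaf 76 369) (.leaf 76 369))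
    ((43, 43, 10), (7, 7, 2), (23, 20, 5))
    ((33, 33, 23), (1, 1, 1), (64, 63, 55)) 4 8 = true := by decide +kernel

def partP12_84 : chkT datP12 [] (.leaf 66 358)
    ((23, 20, 5), (11, 11, 2), (7, 7, 2))
    ((33, 33, 23), (1, 1, 1), (64, 63, 55)) 16 32 = true := by decide +kernel

def partP12_93 : chkT datP12 [] (.leaf 65 355)
    ((26, 17, 5), (4, 3, 1), (9, 5, 2))
    ((33, 33, 23), (1, 1, 1), (64, 63, 55)) 0 16 = true := by decide +kernel

def partP12_106 : chkT datP12 [] (.spU 1 1 1 3 (4, 3, 1) (.leaf 55 345) (.leaf 54 345))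
    ((11, 11, 2), (5, 5, 2), (7, 4, 1))
    ((33, 33, 23), (1, 1, 1), (64, 63, 55)) 48 64 = true := by decide +kernel

def partP12_107 : chkT datP12 [] (.leaf 53 343)
    ((1, 1, 0), (11, 11, 2), (7, 4, 1))
    ((33, 33, 23), (1, 1, 1), (64, 63, 55)) 48 64 = true := by decide +kernel

def partP12_122 : chkT datP12 [] (.leaf 43 337)
    ((5, 5, 2), (3, 3, 2), (3, 2, 2))
    ((64, 63, 55), (1, 1, 1), (33, 32, 30)) 0 8 = true := by decide +kernel

def partP12_123 : chkT datP12 [] (.spS 12 (.leaf 35 328) (.leaf 35 328))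
    ((3, 3, 2), (1, 1, 1), (3, 2, 2))
    ((64, 63, 55), (1, 1, 1), (33, 32, 30)) 8 16 = true := by decide +kernel

def partP12_138 : chkT datP12 [] (.leaf 33 298)
    ((4, 1, 1), (1, 0, 0), (1, 1, 0))
    ((33, 32, 30), (1, 1, 1), (18, 17, 17)) 40 48 = true := by decide +kernel

def partP12_140 : chkT datP12 [] (.spU 1 2 1 1 (13, 7, 4) (.leaf 53 322) (.leaf 52 320))
    ((2, 1, 1), (4, 1, 1), (5, 5, 2))
    ((33, 32, 30), (1, 1, 1), (18, 17, 17)) 0 32 = true := by decide +kernel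

end Vale.Agent.P154.Sep2
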