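import Mathlib
import Vale.Agent.P154.PMR
import Vale.Agent.P154.P12Data
import Vale.Agent.P154.P12M1

namespace Vale.Agent.P154.Sep2

def partP12_5 : chkT datP12 [] (.leaf 47 330)
    ((10, 1, 1), (1, 0, 0), (3, 1, 0))
    ((33, 33, 23), (1, 1, 1), (64, 63, 55)) 0 32 = true := by decide +kernel

def partP12_8 : chkT datP12 [] (.spS 8 (.leaf 59 387) (.leaf 59 386))
    ((5, 1, 1), (6, 1, 1), (17, 5, 2))
    ((262, 261, 193), (33, 33, 23), (39, 39, 29)) 0 16 = true := by decide +kernel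

def partP12_15 : chkT datP12 [] (.leaf 59 374)
    ((17, 5, 2), (4, 1, 1), (6, 1, 1))
    ((64, 63, 55), (130, 129, 101), (39, 39, 29)) 0 16 = true := by decide +kernel

def partP12_27 : chkT datP12 [] (.spU 0 4 1 1 (7, 1, 0) (.leaf 47 332) (.leaf 45 328))
    ((1, 0, 0), (3, 1, 0), (4, 1, 1))
    ((33, 33, 23), (1, 1, 1), (64, 63, 55)) 36 40 = true := by decide +kernel

def partP12_30 : chkT datP12 [] (.leaf 38 322)
    ((1, 0, 0), (3, 1, 0), (4, 1, 1))
    ((33, 33, 23), (1, 1, 1), (64, 63, 55)) 48 64 = true := by decide +kernel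

def partP12_43 : chkT datP12 [] (.spV 0 1 6 5 (9, 9, 7) (.leaf 45 330) (.leaf 45 344))
    ((6, 6, 5), (1, 1, 1), (5, 4, 4))
    ((39, 39, 29), (1, 1, 1), (64, 63, 55)) 4 8 = true := by decide +kernel

def partP12_45 : chkT datP12 [] (.leaf 49 346)
    ((4, 4, 3), (6, 6, 5), (5, 4, 4))
    ((39, 39, 29), (1, 1, 1), (64, 63, 55)) 0 4 = true := by decide +kernel

def partP12_60 : chkT datP12 [] (.spU 2 1 2 1 (7, 4, 4) (.leaf 50 340) (.leaf 51 342))
    ((2, 1, 1), (7, 5, 4), (3, 2, 2))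
    ((33, 33, 23), (1, 1, 1), (64, 63, 55)) 16 24 = true := by decide +kernel

def partP12_61 : chkT datP12 [] (.leaf 45 336)
    ((2, 1, 1), (7, 5, 4), (3, 2, 2))
    ((33, 33, 23), (1, 1, 1), (64, 63, 55)) 24 32 = true := by decide +kernel

def partP12_75 : chkT datP12 [] (.leaf 64 355)
    ((7, 4, 1), (25, 19, 4), (4, 3, 1))
    ((33, 33, 23), (1, 1, 1), (64, 63, 55)) 0 4 = true := by decide +kernel

def partP12_83 : chkT datP12 [] (.spS 8 (.leaf 77 370) (.leaf 77 369))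
    ((11, 11, 2), (43, 43, 10), (23, 20, 5))
    ((33, 33, 23), (1, 1, 1), (64, 63, 55)) 0 16 = true := by decide +kernel

def partP12_85 : chkT datP12 [] (.leaf 63 354)
    ((4, 3, 1), (23, 20, 5), (7, 7, 2))
    ((33, 33, 23), (1, 1, 1), (64, 63, 55)) 0 32 = true := by decide +kernel

def partP12_95 : chkT datP12 [] (.leaf 53 343)
    ((9, 5, 2), (7, 4, 1), (4, 3, 1))
    ((33, 33, 23), (1, 1, 1), (64, 63, 55)) 16 32 = true := by decide +kernel

def partP12_108 : chkT datP12 [] (.spU 1 2 1 3 (5, 2, 1) (.leaf 57 345) (.leaf 55 342))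
    ((13, 7, 4), (4, 1, 1), (7, 4, 1))
    ((33, 33, 23), (1, 1, 1), (64, 63, 55)) 48 64 = true := by decide +kernel

def partP12_110 : chkT datP12 [] (.leaf 57 345)
    ((7, 4, 1), (4, 3, 1), (13, 7, 4))
    ((33, 33, 23), (1, 1, 1), (64, 63, 55)) 48 64 = true := by decide +kernel

def partP12_124 : chkT datP12 [] (.leaf 43 336)
    ((5, 5, 2), (3, 3, 2), (3, 2, 2))
    ((64, 63, 55), (1, 1, 1), (33, 32, 30)) 8 16 = true := by decide +kernel

def partP12_125 : chkT datP12 [] (.spU 2 1 4 3 (3, 3, 2) (.leaf 33 326) (.leaf 42 335))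
    ((1, 1, 1), (2, 1, 1), (5, 5, 2))
    ((64, 63, 55), (1, 1, 1), (33, 32, 30)) 16 32 = true := by decide +kernel

def partP12_139 : chkT datP12 [] (.leaf 33 297)
    ((4, 1, 1), (1, 0, 0), (1, 1, 0))
    ((33, 32, 30), (1, 1, 1), (18, 17, 17)) 48 64 = true := by decide +kernel

def partP12_141 : chkT datP12 [] (.spS 16 (.leaf 41 312) (.leaf 41 312))
    ((3, 2, 2), (2, 1, 1), (5, 5, 2))
    ((33, 32, 30), (1, 1, 1), (18, 17, 17)) 0 32 = true := by decide +kernel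

end Vale.Agent.P154.Sep2
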