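import Mathlib
import Vale.Agent.P154.PMR
import Vale.Agent.P154.P12Data
import Vale.Agent.P154.P12M2

namespace Vale.Agent.P154.Sep2

def partP12_6 : chkT datP12 [] (.leaf 52 337)
    ((6, 1, 1), (10, 1, 1), (3, 1, 0))
    ((33, 33, 23), (1, 1, 1), (64, 63, 55)) 0 16 = true := by decide +kernel

def partP12_12 : chkT datP12 [] (.spU 2 1 1 1 (9, 2, 2) (.leaf 68 395) (.leaf 67 395))
    ((5, 1, 1), (32, 8, 5), (4, 1, 1))
    ((262, 261, 193), (33, 33, 23), (39, 39, 29)) 6 8 = true := by decide +kernel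

def partP12_16 : chkT datP12 [] (.leaf 58 343)
    ((3, 1, 0), (17, 5, 2), (6, 1, 1))
    ((33, 33, 23), (1, 1, 1), (64, 63, 55)) 0 16 = true := by decide +kernel

def partP12_29 : chkT datP12 [] (.spU 1 3 1 1 (7, 4, 1) (.leaf 47 334) (.leaf 43 330))
    ((3, 1, 0), (1, 1, 0), (4, 1, 1))
    ((33, 33, 23), (1, 1, 1), (64, 63, 55)) 48 64 = true := by decide +kernel

def partP12_32 : chkT datP12 [] (.leaf 53 343)
    ((13, 7, 4), (5, 5, 2), (2, 1, 1))
    ((33, 33, 23), (1, 1, 1), (64, 63, 55)) 8 16 = true := by decide +kernel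

def partP12_46 : chkT datP12 [] (.spU 2 1 1 1 (9, 8, 7) (.leaf 53 359) (.leaf 54 360))
    ((4, 4, 3), (6, 6, 5), (5, 4, 4))
    ((33, 33, 23), (39, 39, 29), (64, 63, 55)) 0 4 = true := by decide +kernel

def partP12_50 : chkT datP12 [] (.leaf 45 338)
    ((3, 3, 2), (6, 6, 5), (3, 2, 2))
    ((33, 33, 23), (1, 1, 1), (64, 63, 55)) 8 16 = true := by decide +kernel

def partP12_62 : chkT datP12 [] (.spS 20 (.leaf 35 328) (.leaf 35 328))
    ((1, 1, 1), (3, 2, 2), (3, 3, 2))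
    ((33, 33, 23), (1, 1, 1), (64, 63, 55)) 16 24 = true := by decide +kernel

def partP12_63 : chkT datP12 [] (.leaf 35 329)
    ((1, 1, 1), (3, 2, 2), (3, 3, 2))
    ((33, 33, 23), (1, 1, 1), (64, 63, 55)) 24 32 = true := by decide +kernel

def partP12_76 : chkT datP12 [] (.leaf 55 347)
    ((4, 3, 1), (7, 4, 1), (11, 11, 2))
    ((33, 33, 23), (1, 1, 1), (64, 63, 55)) 4 8 = true := by decide +kernel

def partP12_86 : chkT datP12 [] (.leaf 53 344)
    ((1, 1, 0), (11, 11, 2), (7, 4, 1))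
    ((33, 33, 23), (1, 1, 1), (64, 63, 55)) 0 32 = true := by decide +kernel

def partP12_88 : chkT datP12 [] (.spU 1 1 1 1 (16, 9, 3) (.leaf 71 359) (.leaf 70 359))
    ((29, 14, 5), (7, 4, 1), (9, 5, 2))
    ((33, 33, 23), (1, 1, 1), (64, 63, 55)) 0 16 = true := by decide +kernel

def partP12_96 : chkT datP12 [] (.leaf 58 347)
    ((13, 7, 4), (9, 5, 2), (4, 3, 1))
    ((33, 33, 23), (1, 1, 1), (64, 63, 55)) 0 32 = true := by decide +kernel

def partP12_109 : chkT datP12 [] (.spU 1 2 1 1 (23, 17, 8) (.leaf 65 355) (.leaf 62 352))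
    ((4, 3, 1), (5, 5, 2), (13, 7, 4))
    ((33, 33, 23), (1, 1, 1), (64, 63, 55)) 48 64 = true := by decide +kernel

def partP12_112 : chkT datP12 [] (.leaf 38 323)
    ((1, 0, 0), (3, 1, 0), (4, 1, 1))
    ((64, 63, 55), (1, 1, 1), (33, 32, 30)) 0 32 = true := by decide +kernel

def partP12_126 : chkT datP12 [] (.leaf 43 334)
    ((2, 1, 1), (4, 1, 1), (5, 5, 2))
    ((64, 63, 55), (1, 1, 1), (33, 32, 30)) 32 64 = true := by decide +kernel

def partP12_127 : chkT datP12 [] (.spU 2 1 4 3 (3, 3, 2) (.leaf 33 326) (.leaf 42 335))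
    ((1, 1, 1), (2, 1, 1), (5, 5, 2))
    ((64, 63, 55), (1, 1, 1), (33, 32, 30)) 32 64 = true := by decide +kernel

def partP12_142 : chkT datP12 [] (.spS 16 (.leaf 40 311) (.leaf 40 311))
    ((1, 1, 1), (3, 2, 2), (5, 5, 2))
    ((33, 32, 30), (1, 1, 1), (18, 17, 17)) 0 32 = true := by decide +kernel

def partP12_145 : chkT datP12 [] (.leaf 53 323)
    ((1, 1, 0), (11, 11, 2), (7, 4, 1))
    ((33, 32, 30), (1, 1, 1), (18, 17, 17)) 0 16 = true := by decide +kernel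

end Vale.Agent.P154.Sep2
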