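import Mathlib
import Vale.Agent.P154.PMR
import Vale.Agent.P154.P12Data
import Vale.Agent.P154.P12M3

namespace Vale.Agent.P154.Sep2

def partP12_7 : chkT datP12 [] (.leaf 59 346)
    ((17, 5, 2), (4, 1, 1), (6, 1, 1))
    ((39, 39, 29), (1, 1, 1), (64, 63, 55)) 0 16 = true := by decide +kernel

def partP12_13 : chkT datP12 [] (.spU 2 1 4 3 (11, 3, 2) (.leaf 53 380) (.leaf 62 389))
    ((4, 1, 1), (5, 1, 1), (17, 5, 2))
    ((262, 261, 193), (33, 33, 23), (39, 39, 29)) 8 16 = true := by decide +kernel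

def partP12_18 : chkT datP12 [] (.leaf 60 345)
    ((3, 1, 0), (17, 5, 2), (10, 1, 1))
    ((33, 33, 23), (1, 1, 1), (64, 63, 55)) 16 32 = true := by decide +kernel

def partP12_31 : chkT datP12 [] (.spU 1 1 3 1 (11, 8, 5) (.leaf 58 349) (.leaf 60 351))
    ((13, 7, 4), (5, 5, 2), (2, 1, 1))
    ((33, 33, 23), (1, 1, 1), (64, 63, 55)) 0 8 = true := by decide +kernel

def partP12_33 : chkT datP12 [] (.leaf 53 344)
    ((13, 7, 4), (5, 5, 2), (2, 1, 1))
    ((33, 33, 23), (1, 1, 1), (64, 63, 55)) 16 32 = true := by decide +kernel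

def partP12_47 : chkT datP12 [] (.spU 2 1 1 1 (9, 8, 7) (.leaf 53 347) (.leaf 54 348))
    ((4, 4, 3), (6, 6, 5), (5, 4, 4))
    ((33, 33, 23), (1, 1, 1), (64, 63, 55)) 4 8 = true := by decide +kernel

def partP12_51 : chkT datP12 [] (.leaf 63 356)
    ((19, 19, 10), (3, 3, 2), (11, 9, 6))
    ((33, 33, 23), (1, 1, 1), (64, 63, 55)) 0 8 = true := by decide +kernel

def partP12_64 : chkT datP12 [] (.leaf 47 339)
    ((7, 5, 4), (2, 1, 1), (5, 5, 2))
    ((33, 33, 23), (1, 1, 1), (64, 63, 55)) 16 32 = true := by decide +kernel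

def partP12_65 : chkT datP12 [] (.spU 2 2 3 1 (19, 19, 10) (.leaf 60 353) (.leaf 61 354))
    ((3, 3, 2), (7, 5, 4), (5, 5, 2))
    ((33, 33, 23), (1, 1, 1), (64, 63, 55)) 16 32 = true := by decide +kernel

def partP12_77 : chkT datP12 [] (.leaf 55 346)
    ((4, 3, 1), (7, 4, 1), (11, 11, 2))
    ((33, 33, 23), (1, 1, 1), (64, 63, 55)) 8 16 = true := by decide +kernel

def partP12_87 : chkT datP12 [] (.leaf 59 347)
    ((9, 5, 2), (13, 7, 4), (5, 2, 1))
    ((33, 33, 23), (1, 1, 1), (64, 63, 55)) 0 32 = true := by decide +kernel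

def partP12_94 : chkT datP12 [] (.spU 2 1 1 1 (16, 9, 3) (.leaf 69 359) (.leaf 70 359))
    ((7, 4, 1), (26, 17, 5), (9, 5, 2))
    ((33, 33, 23), (1, 1, 1), (64, 63, 55)) 0 16 = true := by decide +kernel

def partP12_97 : chkT datP12 [] (.leaf 55 347)
    ((4, 3, 1), (7, 4, 1), (11, 11, 2))
    ((33, 33, 23), (1, 1, 1), (64, 63, 55)) 32 40 = true := by decide +kernel

def partP12_111 : chkT datP12 [] (.spU 1 3 1 1 (7, 4, 1) (.leaf 47 335) (.leaf 43 332))
    ((3, 1, 0), (1, 1, 0), (4, 1, 1))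
    ((64, 63, 55), (1, 1, 1), (33, 32, 30)) 0 32 = true := by decide +kernel

def partP12_114 : chkT datP12 [] (.leaf 33 319)
    ((4, 1, 1), (1, 0, 0), (1, 1, 0))
    ((64, 63, 55), (1, 1, 1), (33, 32, 30)) 40 48 = true := by decide +kernel

def partP12_128 : chkT datP12 [] (.leaf 55 347)
    ((4, 3, 1), (7, 4, 1), (11, 11, 2))
    ((64, 63, 55), (1, 1, 1), (33, 32, 30)) 0 16 = true := by decide +kernel

def partP12_129 : chkT datP12 [] (.spU 2 1 2 3 (7, 7, 2) (.leaf 50 343) (.leaf 56 348))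
    ((5, 5, 2), (4, 3, 1), (11, 11, 2))
    ((64, 63, 55), (1, 1, 1), (33, 32, 30)) 0 16 = true := by decide +kernel

def partP12_143 : chkT datP12 [] (.spU 1 2 1 3 (2, 1, 1) (.leaf 43 312) (.leaf 38 309))
    ((5, 5, 2), (1, 1, 1), (4, 1, 1))
    ((33, 32, 30), (1, 1, 1), (18, 17, 17)) 32 64 = true := by decide +kernel

def partP12_146 : chkT datP12 [] (.leaf 57 324)
    ((13, 7, 4), (4, 1, 1), (7, 4, 1))
    ((33, 32, 30), (1, 1, 1), (18, 17, 17)) 0 16 = true := by decide +kernel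

end Vale.Agent.P154.Sep2
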