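import Mathlib
import Vale.Agent.P154.PMR
import Vale.Agent.P154.P12Data
import Vale.Agent.P154.P12M4

namespace Vale.Agent.P154.Sep2

def partP12_9 : chkT datP12 [] (.leaf 58 387)
    ((4, 1, 1), (5, 1, 1), (17, 5, 2))
    ((262, 261, 193), (33, 33, 23), (39, 39, 29)) 0 4 = true := by decide +kernel

def partP12_17 : chkT datP12 [] (.spU 1 2 1 3 (6, 1, 1) (.leaf 62 347) (.leaf 59 344))
    ((17, 5, 2), (4, 1, 1), (10, 1, 1))
    ((33, 33, 23), (1, 1, 1), (64, 63, 55)) 16 32 = true := by decide +kernel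

def partP12_19 : chkT datP12 [] (.leaf 50 338)
    ((7, 4, 1), (4, 1, 1), (5, 3, 0))
    ((33, 33, 23), (1, 1, 1), (64, 63, 55)) 32 40 = true := by decide +kernel

def partP12_34 : chkT datP12 [] (.leaf 52 341)
    ((4, 1, 1), (13, 7, 4), (2, 1, 1))
    ((33, 33, 23), (1, 1, 1), (64, 63, 55)) 0 32 = true := by decide +kernel

def partP12_35 : chkT datP12 [] (.spU 1 3 1 1 (20, 14, 11) (.leaf 66 358) (.leaf 63 355))
    ((11, 9, 6), (3, 2, 2), (11, 8, 5))
    ((33, 33, 23), (1, 1, 1), (64, 63, 55)) 0 8 = true := by decide +kernel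

def partP12_48 : chkT datP12 [] (.spS 4 (.leaf 45 339) (.leaf 45 339))
    ((3, 3, 2), (4, 4, 3), (5, 4, 4))
    ((33, 33, 23), (1, 1, 1), (64, 63, 55)) 0 8 = true := by decide +kernel

def partP12_54 : chkT datP12 [] (.leaf 66 358)
    ((5, 5, 2), (13, 13, 6), (21, 19, 10))
    ((33, 33, 23), (1, 1, 1), (64, 63, 55)) 4 8 = true := by decide +kernel

def partP12_66 : chkT datP12 [] (.leaf 53 344)
    ((13, 7, 4), (5, 5, 2), (2, 1, 1))
    ((33, 33, 23), (1, 1, 1), (64, 63, 55)) 32 64 = true := by decide +kernel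

def partP12_67 : chkT datP12 [] (.spU 2 3 2 1 (14, 5, 5) (.leaf 61 349) (.leaf 60 349))
    ((4, 1, 1), (13, 7, 4), (2, 1, 1))
    ((33, 33, 23), (1, 1, 1), (64, 63, 55)) 32 40 = true := by decide +kernel

def partP12_78 : chkT datP12 [] (.leaf 55 346)
    ((4, 3, 1), (7, 4, 1), (11, 11, 2))
    ((33, 33, 23), (1, 1, 1), (64, 63, 55)) 16 32 = true := by decide +kernel

def partP12_89 : chkT datP12 [] (.leaf 67 355)
    ((5, 2, 1), (29, 14, 5), (9, 5, 2))
    ((33, 33, 23), (1, 1, 1), (64, 63, 55)) 0 16 = true := by decide +kernel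

def partP12_98 : chkT datP12 [] (.spU 2 1 2 3 (7, 7, 2) (.leaf 50 342) (.leaf 56 348))
    ((5, 5, 2), (4, 3, 1), (11, 11, 2))
    ((33, 33, 23), (1, 1, 1), (64, 63, 55)) 32 40 = true := by decide +kernel

def partP12_99 : chkT datP12 [] (.leaf 53 344)
    ((1, 1, 0), (11, 11, 2), (7, 4, 1))
    ((33, 33, 23), (1, 1, 1), (64, 63, 55)) 32 40 = true := by decide +kernel

def partP12_113 : chkT datP12 [] (.spS 36 (.leaf 33 319) (.leaf 33 319))
    ((4, 1, 1), (1, 0, 0), (1, 1, 0))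
    ((64, 63, 55), (1, 1, 1), (33, 32, 30)) 32 40 = true := by decide +kernel

def partP12_115 : chkT datP12 [] (.leaf 33 318)
    ((4, 1, 1), (1, 0, 0), (1, 1, 0))
    ((64, 63, 55), (1, 1, 1), (33, 32, 30)) 48 64 = true := by decide +kernel

def partP12_130 : chkT datP12 [] (.leaf 53 345)
    ((1, 1, 0), (11, 11, 2), (7, 4, 1))
    ((64, 63, 55), (1, 1, 1), (33, 32, 30)) 0 16 = true := by decide +kernel

def partP12_132 : chkT datP12 [] (.spU 2 1 1 3 (4, 3, 1) (.leaf 55 346) (.leaf 57 346))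
    ((5, 5, 2), (13, 7, 4), (7, 4, 1))
    ((64, 63, 55), (1, 1, 1), (33, 32, 30)) 0 16 = true := by decide +kernel

def partP12_144 : chkT datP12 [] (.spU 1 1 1 3 (4, 3, 1) (.leaf 55 325) (.leaf 54 325))
    ((11, 11, 2), (5, 5, 2), (7, 4, 1))
    ((33, 32, 30), (1, 1, 1), (18, 17, 17)) 0 16 = true := by decide +kernel

def partP12_148 : chkT datP12 [] (.leaf 41 311)
    ((1, 1, 0), (5, 5, 2), (4, 1, 1))
    ((33, 32, 30), (1, 1, 1), (18, 17, 17)) 16 32 = true := by decide +kernel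

end Vale.Agent.P154.Sep2
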