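import Mathlib
import Vale.Agent.P154.PMR
import Vale.Agent.P154.P12Data
import Vale.Agent.P154.P12M5

namespace Vale.Agent.P154.Sep2

def partP12_10 : chkT datP12 [] (.leaf 58 386)
    ((4, 1, 1), (5, 1, 1), (17, 5, 2))
    ((262, 261, 193), (33, 33, 23), (39, 39, 29)) 4 6 = true := by decide +kernel

def partP12_20 : chkT datP12 [] (.spU 2 1 4 1 (9, 7, 0) (.leaf 51 341) (.leaf 54 344))
    ((1, 1, 0), (7, 4, 1), (5, 3, 0))
    ((33, 33, 23), (1, 1, 1), (64, 63, 55)) 32 36 = true := by decide +kernel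

def partP12_22 : chkT datP12 [] (.leaf 45 332)
    ((3, 1, 0), (5, 3, 0), (4, 1, 1))
    ((33, 33, 23), (1, 1, 1), (64, 63, 55)) 32 40 = true := by decide +kernel

def partP12_36 : chkT datP12 [] (.spS 4 (.leaf 59 352) (.leaf 59 351))
    ((5, 5, 2), (11, 9, 6), (11, 8, 5))
    ((33, 33, 23), (1, 1, 1), (64, 63, 55)) 0 8 = true := by decide +kernel

def partP12_38 : chkT datP12 [] (.leaf 41 333)
    ((3, 2, 2), (2, 1, 1), (5, 5, 2))
    ((33, 33, 23), (1, 1, 1), (64, 63, 55)) 8 16 = true := by decide +kernel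

def partP12_49 : chkT datP12 [] (.spU 1 2 1 1 (5, 4, 4) (.leaf 47 340) (.leaf 45 338))
    ((6, 6, 5), (1, 1, 1), (3, 2, 2))
    ((33, 33, 23), (1, 1, 1), (64, 63, 55)) 8 16 = true := by decide +kernel

def partP12_55 : chkT datP12 [] (.leaf 70 363)
    ((11, 9, 6), (21, 19, 10), (19, 19, 10))
    ((33, 33, 23), (1, 1, 1), (64, 63, 55)) 4 8 = true := by decide +kernel

def partP12_68 : chkT datP12 [] (.leaf 52 341)
    ((4, 1, 1), (13, 7, 4), (2, 1, 1))
    ((33, 33, 23), (1, 1, 1), (64, 63, 55)) 40 48 = true := by decide +kernel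

def partP12_70 : chkT datP12 [] (.spU 1 1 1 1 (3, 2, 2) (.leaf 38 330) (.leaf 35 329))
    ((3, 3, 2), (1, 1, 1), (2, 1, 1))
    ((33, 33, 23), (1, 1, 1), (64, 63, 55)) 32 64 = true := by decide +kernel

def partP12_79 : chkT datP12 [] (.leaf 50 342)
    ((7, 7, 2), (5, 5, 2), (4, 3, 1))
    ((33, 33, 23), (1, 1, 1), (64, 63, 55)) 0 32 = true := by decide +kernel

def partP12_90 : chkT datP12 [] (.leaf 54 343)
    ((7, 4, 1), (9, 5, 2), (5, 2, 1))
    ((33, 33, 23), (1, 1, 1), (64, 63, 55)) 16 32 = true := by decide +kernel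

def partP12_100 : chkT datP12 [] (.spU 2 1 2 1 (13, 7, 4) (.leaf 57 345) (.leaf 57 347))
    ((4, 1, 1), (7, 4, 1), (5, 5, 2))
    ((33, 33, 23), (1, 1, 1), (64, 63, 55)) 32 40 = true := by decide +kernel

def partP12_101 : chkT datP12 [] (.leaf 55 347)
    ((4, 3, 1), (7, 4, 1), (11, 11, 2))
    ((33, 33, 23), (1, 1, 1), (64, 63, 55)) 40 48 = true := by decide +kernel

def partP12_116 : chkT datP12 [] (.spU 1 1 3 1 (11, 8, 5) (.leaf 58 348) (.leaf 60 351))
    ((13, 7, 4), (5, 5, 2), (2, 1, 1))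
    ((64, 63, 55), (1, 1, 1), (33, 32, 30)) 0 32 = true := by decide +kernel

def partP12_117 : chkT datP12 [] (.leaf 52 341)
    ((4, 1, 1), (13, 7, 4), (2, 1, 1))
    ((64, 63, 55), (1, 1, 1), (33, 32, 30)) 0 32 = true := by decide +kernel

def partP12_131 : chkT datP12 [] (.leaf 57 345)
    ((13, 7, 4), (4, 1, 1), (7, 4, 1))
    ((64, 63, 55), (1, 1, 1), (33, 32, 30)) 0 16 = true := by decide +kernel

def partP12_134 : chkT datP12 [] (.spS 48 (.leaf 41 333) (.leaf 41 332))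
    ((1, 1, 0), (5, 5, 2), (4, 1, 1))
    ((64, 63, 55), (1, 1, 1), (33, 32, 30)) 32 64 = true := by decide +kernel

def partP12_147 : chkT datP12 [] (.spU 2 1 1 3 (4, 3, 1) (.leaf 55 324) (.leaf 57 325))
    ((5, 5, 2), (13, 7, 4), (7, 4, 1))
    ((33, 32, 30), (1, 1, 1), (18, 17, 17)) 0 16 = true := by decide +kernel

def partP12_150 : chkT datP12 [] (.leaf 41 310)
    ((1, 1, 0), (5, 5, 2), (4, 1, 1))
    ((33, 32, 30), (1, 1, 1), (18, 17, 17)) 48 64 = true := by decide +kernel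

end Vale.Agent.P154.Sep2
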