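import Mathlib
import Vale.Agent.P154.PMR
import Vale.Agent.P154.P12Data

namespace Vale.Agent.P154.Sep2

def homP12_m : hom 24 (eM fullP12) = true := by decide +kernel

def oneP12_m_0 : chk1K []
    (eM fullP12) 24 (.leaf 0 243)
    ((33, 33, 23), (1, 1, 1), (64, 63, 55)) = true := by decide +kernel

theorem posP12_m_0 : ∀ a b c : ℝ, InC ((33, 33, 23), (1, 1, 1), (64, 63, 55)) a b c → 0 ≤ PExp.ev (vec a b c) (eM fullP12) :=
  chk1K_sound homP12_m (by simp)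
    _ _ oneP12_m_0

def oneP12_m_1 : chk1K []
    (eM fullP12) 24 (.leaf 0 243)
    ((64, 63, 55), (1, 1, 1), (33, 32, 30)) = true := by decide +kernel

theorem posP12_m_1 : ∀ a b c : ℝ, InC ((64, 63, 55), (1, 1, 1), (33, 32, 30)) a b c → 0 ≤ PExp.ev (vec a b c) (eM fullP12) :=
  chk1K_sound homP12_m (by simp)
    _ _ oneP12_m_1

def oneP12_m_2 : chk1K []
    (eM fullP12) 24 (.leaf 0 221)
    ((33, 32, 30), (1, 1, 1), (18, 17, 17)) = true := by decide +kernel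

theorem posP12_m_2 : ∀ a b c : ℝ, InC ((33, 32, 30), (1, 1, 1), (18, 17, 17)) a b c → 0 ≤ PExp.ev (vec a b c) (eM fullP12) :=
  chk1K_sound homP12_m (by simp)
    _ _ oneP12_m_2

theorem allP12_m : ∀ Q ∈ fanCells fullP12.fan, ∀ a b c : ℝ, InC Q a b c →
    0 ≤ PExp.ev (vec a b c) (eM fullP12) := by
  have e : fanCells fullP12.fan = [((33, 33, 23), (1, 1, 1), (64, 63, 55)), ((64, 63, 55), (1, 1, 1), (33, 32, 30)), ((33, 32, 30), (1, 1, 1), (18, 17, 17))] := rfl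
  rw [e]
  simp only [List.forall_mem_cons, List.not_mem_nil, false_imp_iff, implies_true, and_true]
  exact ⟨posP12_m_0, posP12_m_1, posP12_m_2⟩

def homP12_ml : hom 96 (eMLR fullP12 rpP12) = true := by decide +kernel

def oneP12_ml_0 : chk1K []
    (eMLR fullP12 rpP12) 96 (.leaf 0 783)
    ((33, 33, 23), (1, 1, 1), (64, 63, 55)) = true := by decide +kernel

theorem posP12_ml_0 : ∀ a b c : ℝ, InC ((33, 33, 23), (1, 1, 1), (64, 63, 55)) a b c → 0 ≤ PExp.ev (vec a b c) (eMLR fullP12 rpP12) :=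
  chk1K_sound homP12_ml (by simp)
    _ _ oneP12_ml_0

def oneP12_ml_1 : chk1K []
    (eMLR fullP12 rpP12) 96 (.leaf 0 783)
    ((64, 63, 55), (1, 1, 1), (33, 32, 30)) = true := by decide +kernel

theorem posP12_ml_1 : ∀ a b c : ℝ, InC ((64, 63, 55), (1, 1, 1), (33, 32, 30)) a b c → 0 ≤ PExp.ev (vec a b c) (eMLR fullP12 rpP12) :=
  chk1K_sound homP12_ml (by simp)
    _ _ oneP12_ml_1

def oneP12_ml_2 : chk1K []
    (eMLR fullP12 rpP12) 96 (.leaf 0 696)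
    ((33, 32, 30), (1, 1, 1), (18, 17, 17)) = true := by decide +kernel

theorem posP12_ml_2 : ∀ a b c : ℝ, InC ((33, 32, 30), (1, 1, 1), (18, 17, 17)) a b c → 0 ≤ PExp.ev (vec a b c) (eMLR fullP12 rpP12) :=
  chk1K_sound homP12_ml (by simp)
    _ _ oneP12_ml_2

theorem allP12_ml : ∀ Q ∈ fanCells fullP12.fan, ∀ a b c : ℝ, InC Q a b c →
    0 ≤ PExp.ev (vec a b c) (eMLR fullP12 rpP12) := by
  have e : fanCells fullP12.fan = [((33, 33, 23), (1, 1, 1), (64, 63, 55)), ((64, 63, 55), (1, 1, 1), (33, 32, 30)), ((33, 32, 30), (1, 1, 1), (18, 17, 17))] := rfl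
  rw [e]
  simp only [List.forall_mem_cons, List.not_mem_nil, false_imp_iff, implies_true, and_true]
  exact ⟨posP12_ml_0, posP12_ml_1, posP12_ml_2⟩

def homP12_r : hom 96 (eRR fullP12 rpP12) = true := by decide +kernel

def oP12_r_0_0 : chk1K [] (eRR fullP12 rpP12) 96 (.leaf 0 439)
    ((7, 4, 1), (4, 1, 1), (3, 1, 0)) = true := by decide +kernel

def oP12_r_0_1 : chk1K [] (eRR fullP12 rpP12) 96 (.spU 1 6 1 1 (13, 10, 1) (.leaf 0 521) (.spU 2 1 4 1 (9, 7, 0) (.leaf 0 510) (.leaf 0 532)))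
    ((5, 3, 0), (1, 1, 0), (7, 4, 1)) = true := by decide +kernel

def oP12_r_0_2 : chk1K [] (eRR fullP12 rpP12) 96 (.leaf 0 449)
    ((3, 1, 0), (5, 3, 0), (7, 4, 1)) = true := by decide +kernel

def oP12_r_0_3 : chk1K [] (eRR fullP12 rpP12) 96 (.leaf 0 360)
    ((1, 0, 0), (3, 1, 0), (4, 1, 1)) = true := by decide +kernel

def oP12_r_0_4 : chk1K [] (eRR fullP12 rpP12) 96 (.leaf 0 430)
    ((4, 3, 1), (2, 1, 1), (7, 4, 1)) = true := by decide +kernel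

def oP12_r_0_5 : chk1K [] (eRR fullP12 rpP12) 96 (.spU 2 1 6 1 (13, 10, 1) (.spU 1 4 1 1 (8, 7, 1) (.leaf 0 522) (.leaf 0 505)) (.leaf 0 515))
    ((1, 1, 0), (4, 3, 1), (7, 4, 1)) = true := by decide +kernel

def oP12_r_0_6 : chk1K [] (eRR fullP12 rpP12) 96 (.spU 0 2 1 3 (5, 2, 1) (.leaf 0 440) (.spU 2 3 2 1 (14, 5, 5) (.leaf 0 508) (.leaf 0 496)))
    ((4, 1, 1), (7, 4, 1), (2, 1, 1)) = true := by decide +kernel

def oP12_r_0_7 : chk1K [] (eRR fullP12 rpP12) 96 (.spU 2 3 1 1 (11, 8, 5) (.spU 1 1 4 3 (3, 3, 2) (.leaf 0 454) (.leaf 0 487)) (.leaf 0 443))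
    ((5, 5, 2), (1, 1, 1), (2, 1, 1)) = true := by decide +kernel

def oP12_r_0_8 : chk1K [] (eRR fullP12 rpP12) 96 (.leaf 0 497)
    ((11, 11, 2), (5, 5, 2), (4, 3, 1)) = true := by decide +kernel

def oP12_r_0_9 : chk1K [] (eRR fullP12 rpP12) 96 (.leaf 0 579)
    ((17, 17, 2), (11, 11, 2), (8, 7, 1)) = true := by decide +kernel

def oP12_r_0_10 : chk1K [] (eRR fullP12 rpP12) 96 (.leaf 0 636)
    ((23, 23, 2), (17, 17, 2), (14, 13, 1)) = true := by decide +kernel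

def oP12_r_0_11 : chk1K [] (eRR fullP12 rpP12) 96 (.leaf 0 664)
    ((29, 29, 2), (23, 23, 2), (14, 13, 1)) = true := by decide +kernel

def oP12_r_0_12 : chk1K [] (eRR fullP12 rpP12) 96 (.spU 2 1 6 1 (20, 19, 1) (.spU 1 6 1 1 (35, 35, 2) (.leaf 0 697) (.leaf 0 640)) (.leaf 0 656))
    ((1, 1, 0), (29, 29, 2), (14, 13, 1)) = true := by decide +kernel

def oP12_r_0_13 : chk1K [] (eRR fullP12 rpP12) 96 (.leaf 0 589)
    ((8, 7, 1), (14, 13, 1), (17, 17, 2)) = true := by decide +kernel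

def oP12_r_0_14 : chk1K [] (eRR fullP12 rpP12) 96 (.leaf 0 514)
    ((4, 3, 1), (8, 7, 1), (11, 11, 2)) = true := by decide +kernel

def oP12_r_0_15 : chk1K [] (eRR fullP12 rpP12) 96 (.leaf 0 410)
    ((2, 1, 1), (4, 3, 1), (5, 5, 2)) = true := by decide +kernel

def oneP12_r_0 : chk1K [((7, 4, 1), (4, 1, 1), (3, 1, 0)), ((5, 3, 0), (1, 1, 0), (7, 4, 1)), ((3, 1, 0), (5, 3, 0), (7, 4, 1)), ((1, 0, 0), (3, 1, 0), (4, 1, 1)), ((4, 3, 1), (2, 1, 1), (7, 4, 1)), ((1, 1, 0), (4, 3, 1), (7, 4, 1)), ((4, 1, 1), (7, 4, 1), (2, 1, 1)), ((5, 5, 2), (1, 1, 1), (2, 1, 1)), ((11, 11, 2), (5, 5, 2), (4, 3, 1)), ((17, 17, 2), (11, 11, 2), (8, 7, 1)), ((23, 23, 2), (17, 17, 2), (14, 13, 1)), ((29, 29, 2), (23, 23, 2), (14, 13, 1)), ((1, 1, 0), (29, 29, 2), (14, 13, 1)), ((8, 7, 1), (14, 13, 1), (17, 17, 2)), ((4, 3, 1), (8, 7, 1), (11, 11, 2)), ((2, 1, 1), (4, 3, 1), (5, 5, 2))]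
    (eRR fullP12 rpP12) 96 (.spU 2 1 3 1 (4, 1, 1) (.spU 1 2 1 1 (3, 1, 0) (.spU 1 3 1 1 (7, 4, 1) .ext (.spU 2 1 2 1 (5, 3, 0) .ext .ext)) .ext) (.spU 0 2 1 3 (2, 1, 1) (.spU 1 1 3 1 (7, 4, 1) (.spU 1 2 1 1 (4, 3, 1) .ext .ext) .ext) (.spU 2 3 2 1 (5, 5, 2) .ext (.spU 2 1 2 1 (4, 3, 1) (.spU 1 6 1 1 (11, 11, 2) .ext (.spU 2 1 4 1 (8, 7, 1) (.spU 1 6 1 1 (17, 17, 2) .ext (.spU 2 1 6 1 (14, 13, 1) (.spU 1 6 1 1 (23, 23, 2) .ext (.spU 0 6 1 1 (29, 29, 2) .ext .ext)) .ext)) .ext)) .ext))))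
    U0 = true := by decide +kernel

theorem posP12_r_0 : ∀ a b c : ℝ, InC U0 a b c → 0 ≤ PExp.ev (vec a b c) (eRR fullP12 rpP12) :=
  chk1K_sound homP12_r (by
    simp only [List.forall_mem_cons, List.not_mem_nil, false_imp_iff, implies_true, and_true]
    exact ⟨chk1K_sound homP12_r (by simp) _ _ oP12_r_0_0,
      chk1K_sound homP12_r (by simp) _ _ oP12_r_0_1,
      chk1K_sound homP12_r (by simp) _ _ oP12_r_0_2,
      chk1K_sound homP12_r (by simp) _ _ oP12_r_0_3,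
      chk1K_sound homP12_r (by simp) _ _ oP12_r_0_4,
      chk1K_sound homP12_r (by simp) _ _ oP12_r_0_5,
      chk1K_sound homP12_r (by simp) _ _ oP12_r_0_6,
      chk1K_sound homP12_r (by simp) _ _ oP12_r_0_7,
      chk1K_sound homP12_r (by simp) _ _ oP12_r_0_8,
      chk1K_sound homP12_r (by simp) _ _ oP12_r_0_9,
      chk1K_sound homP12_r (by simp) _ _ oP12_r_0_10,
      chk1K_sound homP12_r (by simp) _ _ oP12_r_0_11,
      chk1K_sound homP12_r (by simp) _ _ oP12_r_0_12,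
      chk1K_sound homP12_r (by simp) _ _ oP12_r_0_13,
      chk1K_sound homP12_r (by simp) _ _ oP12_r_0_14,
      chk1K_sound homP12_r (by simp) _ _ oP12_r_0_15⟩)
    _ _ oneP12_r_0

def homP12_w : hom 24 (eW fullP12) = true := by decide +kernel

def oP12_w_0_0 : chk1K [] (eW fullP12) 24 (.leaf 0 115)
    ((4, 1, 1), (1, 0, 0), (1, 1, 0)) = true := by decide +kernel

def oP12_w_0_1 : chk1K [] (eW fullP12) 24 (.spU 0 2 1 3 (2, 1, 1) (.leaf 0 122) (.spU 2 3 2 1 (5, 5, 2) (.leaf 0 131) (.leaf 0 131)))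
    ((1, 1, 1), (4, 1, 1), (1, 1, 0)) = true := by decide +kernel

def oneP12_w_0 : chk1K [((4, 1, 1), (1, 0, 0), (1, 1, 0)), ((1, 1, 1), (4, 1, 1), (1, 1, 0))]
    (eW fullP12) 24 (.spU 2 1 3 1 (4, 1, 1) .ext .ext)
    U0 = true := by decide +kernel

theorem posP12_w_0 : ∀ a b c : ℝ, InC U0 a b c → 0 ≤ PExp.ev (vec a b c) (eW fullP12) :=
  chk1K_sound homP12_w (by
    simp only [List.forall_mem_cons, List.not_mem_nil, false_imp_iff, implies_true, and_true]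
    exact ⟨chk1K_sound homP12_w (by simp) _ _ oP12_w_0_0,
      chk1K_sound homP12_w (by simp) _ _ oP12_w_0_1⟩)
    _ _ oneP12_w_0

def homP12_s : hom 8 (eSR rpP12) = true := by decide +kernel

def oP12_s_0_0 : chk1K [] (eSR rpP12) 8 (.spU 1 3 1 1 (7, 4, 1) (.leaf 0 66) (.spU 2 1 2 1 (5, 3, 0) (.leaf 0 66) (.leaf 0 67)))
    ((3, 1, 0), (1, 1, 0), (4, 1, 1)) = true := by decide +kernel

def oP12_s_0_1 : chk1K [] (eSR rpP12) 8 (.leaf 0 58)
    ((1, 0, 0), (3, 1, 0), (4, 1, 1)) = true := by decide +kernel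

def oP12_s_0_2 : chk1K [] (eSR rpP12) 8 (.leaf 0 58)
    ((1, 1, 1), (4, 1, 1), (1, 1, 0)) = true := by decide +kernel

def oneP12_s_0 : chk1K [((3, 1, 0), (1, 1, 0), (4, 1, 1)), ((1, 0, 0), (3, 1, 0), (4, 1, 1)), ((1, 1, 1), (4, 1, 1), (1, 1, 0))]
    (eSR rpP12) 8 (.spU 2 1 3 1 (4, 1, 1) (.spU 1 2 1 1 (3, 1, 0) .ext .ext) .ext)
    U0 = true := by decide +kernel

theorem posP12_s_0 : ∀ a b c : ℝ, InC U0 a b c → 0 ≤ PExp.ev (vec a b c) (eSR rpP12) :=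
  chk1K_sound homP12_s (by
    simp only [List.forall_mem_cons, List.not_mem_nil, false_imp_iff, implies_true, and_true]
    exact ⟨chk1K_sound homP12_s (by simp) _ _ oP12_s_0_0,
      chk1K_sound homP12_s (by simp) _ _ oP12_s_0_1,
      chk1K_sound homP12_s (by simp) _ _ oP12_s_0_2⟩)
    _ _ oneP12_s_0

end Vale.Agent.P154.Sep2
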