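import Mathlib
import Vale.Agent.P154.PMR
import Vale.Agent.P154.P12M0
import Vale.Agent.P154.P12M1
import Vale.Agent.P154.P12M2
import Vale.Agent.P154.P12M3
import Vale.Agent.P154.P12M4
import Vale.Agent.P154.P12M5
import Vale.Agent.P154.P12M6
import Vale.Agent.P154.P12M7
import Vale.Agent.P154.P12One

namespace Vale.Agent.P154.Sep2

theorem okP12 : datP12.ok = true := by decide +kernel

noncomputable def knownP12 : List (Cell × Cell × ℕ × ℕ) := [(((17, 5, 2), (3, 1, 0), (7, 4, 1)), ((33, 33, 23), (1, 1, 1), (64, 63, 55)), 0, 32),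
  (((5, 2, 1), (4, 1, 1), (17, 5, 2)), ((33, 33, 23), (1, 1, 1), (64, 63, 55)), 0, 16),
  (((7, 4, 1), (5, 2, 1), (17, 5, 2)), ((33, 33, 23), (1, 1, 1), (64, 63, 55)), 0, 16),
  (((4, 1, 1), (17, 5, 2), (7, 4, 1)), ((33, 33, 23), (1, 1, 1), (64, 63, 55)), 16, 32),
  (((1, 1, 0), (7, 4, 1), (3, 1, 0)), ((33, 33, 23), (1, 1, 1), (64, 63, 55)), 0, 32),
  (((10, 1, 1), (1, 0, 0), (3, 1, 0)), ((33, 33, 23), (1, 1, 1), (64, 63, 55)), 0, 32),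
  (((6, 1, 1), (10, 1, 1), (3, 1, 0)), ((33, 33, 23), (1, 1, 1), (64, 63, 55)), 0, 16),
  (((17, 5, 2), (4, 1, 1), (6, 1, 1)), ((39, 39, 29), (1, 1, 1), (64, 63, 55)), 0, 16),
  (((5, 1, 1), (6, 1, 1), (17, 5, 2)), ((262, 261, 193), (33, 33, 23), (39, 39, 29)), 0, 16),
  (((4, 1, 1), (5, 1, 1), (17, 5, 2)), ((262, 261, 193), (33, 33, 23), (39, 39, 29)), 0, 4),
  (((4, 1, 1), (5, 1, 1), (17, 5, 2)), ((262, 261, 193), (33, 33, 23), (39, 39, 29)), 4, 6),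
  (((32, 8, 5), (17, 5, 2), (4, 1, 1)), ((262, 261, 193), (33, 33, 23), (39, 39, 29)), 6, 8),
  (((5, 1, 1), (32, 8, 5), (4, 1, 1)), ((262, 261, 193), (33, 33, 23), (39, 39, 29)), 6, 8),
  (((4, 1, 1), (5, 1, 1), (17, 5, 2)), ((262, 261, 193), (33, 33, 23), (39, 39, 29)), 8, 16),
  (((17, 5, 2), (4, 1, 1), (6, 1, 1)), ((130, 129, 101), (262, 261, 193), (39, 39, 29)), 0, 16),
  (((17, 5, 2), (4, 1, 1), (6, 1, 1)), ((64, 63, 55), (130, 129, 101), (39, 39, 29)), 0, 16),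
  (((3, 1, 0), (17, 5, 2), (6, 1, 1)), ((33, 33, 23), (1, 1, 1), (64, 63, 55)), 0, 16),
  (((17, 5, 2), (4, 1, 1), (10, 1, 1)), ((33, 33, 23), (1, 1, 1), (64, 63, 55)), 16, 32),
  (((3, 1, 0), (17, 5, 2), (10, 1, 1)), ((33, 33, 23), (1, 1, 1), (64, 63, 55)), 16, 32),
  (((7, 4, 1), (4, 1, 1), (5, 3, 0)), ((33, 33, 23), (1, 1, 1), (64, 63, 55)), 32, 40),
  (((1, 1, 0), (7, 4, 1), (5, 3, 0)), ((33, 33, 23), (1, 1, 1), (64, 63, 55)), 32, 36),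
  (((1, 1, 0), (7, 4, 1), (5, 3, 0)), ((33, 33, 23), (1, 1, 1), (64, 63, 55)), 36, 40),
  (((3, 1, 0), (5, 3, 0), (4, 1, 1)), ((33, 33, 23), (1, 1, 1), (64, 63, 55)), 32, 40),
  (((7, 4, 1), (4, 1, 1), (3, 1, 0)), ((33, 33, 23), (1, 1, 1), (64, 63, 55)), 40, 48),
  (((1, 1, 0), (7, 4, 1), (3, 1, 0)), ((33, 33, 23), (1, 1, 1), (64, 63, 55)), 40, 48),
  (((7, 1, 0), (3, 1, 0), (4, 1, 1)), ((33, 33, 23), (1, 1, 1), (64, 63, 55)), 32, 36),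
  (((1, 0, 0), (7, 1, 0), (4, 1, 1)), ((33, 33, 23), (1, 1, 1), (64, 63, 55)), 32, 36),
  (((1, 0, 0), (3, 1, 0), (4, 1, 1)), ((33, 33, 23), (1, 1, 1), (64, 63, 55)), 36, 40),
  (((1, 0, 0), (3, 1, 0), (4, 1, 1)), ((33, 33, 23), (1, 1, 1), (64, 63, 55)), 40, 48),
  (((3, 1, 0), (1, 1, 0), (4, 1, 1)), ((33, 33, 23), (1, 1, 1), (64, 63, 55)), 48, 64),
  (((1, 0, 0), (3, 1, 0), (4, 1, 1)), ((33, 33, 23), (1, 1, 1), (64, 63, 55)), 48, 64),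
  (((13, 7, 4), (5, 5, 2), (2, 1, 1)), ((33, 33, 23), (1, 1, 1), (64, 63, 55)), 0, 8),
  (((13, 7, 4), (5, 5, 2), (2, 1, 1)), ((33, 33, 23), (1, 1, 1), (64, 63, 55)), 8, 16),
  (((13, 7, 4), (5, 5, 2), (2, 1, 1)), ((33, 33, 23), (1, 1, 1), (64, 63, 55)), 16, 32),
  (((4, 1, 1), (13, 7, 4), (2, 1, 1)), ((33, 33, 23), (1, 1, 1), (64, 63, 55)), 0, 32),
  (((11, 9, 6), (3, 2, 2), (11, 8, 5)), ((33, 33, 23), (1, 1, 1), (64, 63, 55)), 0, 8),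
  (((5, 5, 2), (11, 9, 6), (11, 8, 5)), ((33, 33, 23), (1, 1, 1), (64, 63, 55)), 0, 8),
  (((2, 1, 1), (11, 8, 5), (3, 2, 2)), ((33, 33, 23), (1, 1, 1), (64, 63, 55)), 0, 8),
  (((3, 2, 2), (2, 1, 1), (5, 5, 2)), ((33, 33, 23), (1, 1, 1), (64, 63, 55)), 8, 16),
  (((5, 4, 4), (3, 2, 2), (3, 3, 2)), ((33, 33, 23), (1, 1, 1), (64, 63, 55)), 0, 8),
  (((6, 6, 5), (1, 1, 1), (5, 4, 4)), ((9, 9, 7), (1, 1, 1), (64, 63, 55)), 0, 4),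
  (((6, 6, 5), (1, 1, 1), (5, 4, 4)), ((39, 39, 29), (9, 9, 7), (64, 63, 55)), 0, 4),
  (((6, 6, 5), (1, 1, 1), (5, 4, 4)), ((33, 33, 23), (39, 39, 29), (64, 63, 55)), 0, 4),
  (((6, 6, 5), (1, 1, 1), (5, 4, 4)), ((39, 39, 29), (1, 1, 1), (64, 63, 55)), 4, 8),
  (((6, 6, 5), (1, 1, 1), (5, 4, 4)), ((33, 33, 23), (39, 39, 29), (64, 63, 55)), 4, 8),
  (((4, 4, 3), (6, 6, 5), (5, 4, 4)), ((39, 39, 29), (1, 1, 1), (64, 63, 55)), 0, 4),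
  (((4, 4, 3), (6, 6, 5), (5, 4, 4)), ((33, 33, 23), (39, 39, 29), (64, 63, 55)), 0, 4),
  (((4, 4, 3), (6, 6, 5), (5, 4, 4)), ((33, 33, 23), (1, 1, 1), (64, 63, 55)), 4, 8),
  (((3, 3, 2), (4, 4, 3), (5, 4, 4)), ((33, 33, 23), (1, 1, 1), (64, 63, 55)), 0, 8),
  (((6, 6, 5), (1, 1, 1), (3, 2, 2)), ((33, 33, 23), (1, 1, 1), (64, 63, 55)), 8, 16),
  (((3, 3, 2), (6, 6, 5), (3, 2, 2)), ((33, 33, 23), (1, 1, 1), (64, 63, 55)), 8, 16),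
  (((19, 19, 10), (3, 3, 2), (11, 9, 6)), ((33, 33, 23), (1, 1, 1), (64, 63, 55)), 0, 8),
  (((5, 5, 2), (19, 19, 10), (11, 9, 6)), ((33, 33, 23), (1, 1, 1), (64, 63, 55)), 0, 4),
  (((13, 13, 6), (19, 19, 10), (21, 19, 10)), ((33, 33, 23), (1, 1, 1), (64, 63, 55)), 4, 8),
  (((5, 5, 2), (13, 13, 6), (21, 19, 10)), ((33, 33, 23), (1, 1, 1), (64, 63, 55)), 4, 8),
  (((11, 9, 6), (21, 19, 10), (19, 19, 10)), ((33, 33, 23), (1, 1, 1), (64, 63, 55)), 4, 8),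
  (((3, 2, 2), (11, 9, 6), (3, 3, 2)), ((33, 33, 23), (1, 1, 1), (64, 63, 55)), 0, 8),
  (((11, 9, 6), (5, 5, 2), (3, 3, 2)), ((33, 33, 23), (1, 1, 1), (64, 63, 55)), 8, 16),
  (((3, 2, 2), (11, 9, 6), (3, 3, 2)), ((33, 33, 23), (1, 1, 1), (64, 63, 55)), 8, 16),
  (((7, 5, 4), (3, 3, 2), (3, 2, 2)), ((33, 33, 23), (1, 1, 1), (64, 63, 55)), 16, 32),
  (((2, 1, 1), (7, 5, 4), (3, 2, 2)), ((33, 33, 23), (1, 1, 1), (64, 63, 55)), 16, 24),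
  (((2, 1, 1), (7, 5, 4), (3, 2, 2)), ((33, 33, 23), (1, 1, 1), (64, 63, 55)), 24, 32),
  (((1, 1, 1), (3, 2, 2), (3, 3, 2)), ((33, 33, 23), (1, 1, 1), (64, 63, 55)), 16, 24),
  (((1, 1, 1), (3, 2, 2), (3, 3, 2)), ((33, 33, 23), (1, 1, 1), (64, 63, 55)), 24, 32),
  (((7, 5, 4), (2, 1, 1), (5, 5, 2)), ((33, 33, 23), (1, 1, 1), (64, 63, 55)), 16, 32),
  (((3, 3, 2), (7, 5, 4), (5, 5, 2)), ((33, 33, 23), (1, 1, 1), (64, 63, 55)), 16, 32),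
  (((13, 7, 4), (5, 5, 2), (2, 1, 1)), ((33, 33, 23), (1, 1, 1), (64, 63, 55)), 32, 64),
  (((4, 1, 1), (13, 7, 4), (2, 1, 1)), ((33, 33, 23), (1, 1, 1), (64, 63, 55)), 32, 40),
  (((4, 1, 1), (13, 7, 4), (2, 1, 1)), ((33, 33, 23), (1, 1, 1), (64, 63, 55)), 40, 48),
  (((4, 1, 1), (13, 7, 4), (2, 1, 1)), ((33, 33, 23), (1, 1, 1), (64, 63, 55)), 48, 64),
  (((3, 3, 2), (1, 1, 1), (2, 1, 1)), ((33, 33, 23), (1, 1, 1), (64, 63, 55)), 32, 64),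
  (((11, 8, 5), (5, 5, 2), (3, 3, 2)), ((33, 33, 23), (1, 1, 1), (64, 63, 55)), 32, 64),
  (((2, 1, 1), (11, 8, 5), (3, 3, 2)), ((33, 33, 23), (1, 1, 1), (64, 63, 55)), 32, 64),
  (((23, 20, 5), (4, 3, 1), (25, 19, 4)), ((33, 33, 23), (1, 1, 1), (64, 63, 55)), 0, 4),
  (((11, 11, 2), (23, 20, 5), (25, 19, 4)), ((33, 33, 23), (1, 1, 1), (64, 63, 55)), 0, 4),
  (((7, 4, 1), (25, 19, 4), (4, 3, 1)), ((33, 33, 23), (1, 1, 1), (64, 63, 55)), 0, 4),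
  (((4, 3, 1), (7, 4, 1), (11, 11, 2)), ((33, 33, 23), (1, 1, 1), (64, 63, 55)), 4, 8),
  (((4, 3, 1), (7, 4, 1), (11, 11, 2)), ((33, 33, 23), (1, 1, 1), (64, 63, 55)), 8, 16),
  (((4, 3, 1), (7, 4, 1), (11, 11, 2)), ((33, 33, 23), (1, 1, 1), (64, 63, 55)), 16, 32),
  (((7, 7, 2), (5, 5, 2), (4, 3, 1)), ((33, 33, 23), (1, 1, 1), (64, 63, 55)), 0, 32),
  (((43, 43, 10), (7, 7, 2), (23, 20, 5)), ((33, 33, 23), (1, 1, 1), (64, 63, 55)), 0, 4),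
  (((43, 43, 10), (7, 7, 2), (23, 20, 5)), ((33, 33, 23), (1, 1, 1), (64, 63, 55)), 4, 8),
  (((43, 43, 10), (7, 7, 2), (23, 20, 5)), ((33, 33, 23), (1, 1, 1), (64, 63, 55)), 8, 16),
  (((11, 11, 2), (43, 43, 10), (23, 20, 5)), ((33, 33, 23), (1, 1, 1), (64, 63, 55)), 0, 16),
  (((23, 20, 5), (11, 11, 2), (7, 7, 2)), ((33, 33, 23), (1, 1, 1), (64, 63, 55)), 16, 32),
  (((4, 3, 1), (23, 20, 5), (7, 7, 2)), ((33, 33, 23), (1, 1, 1), (64, 63, 55)), 0, 32),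
  (((1, 1, 0), (11, 11, 2), (7, 4, 1)), ((33, 33, 23), (1, 1, 1), (64, 63, 55)), 0, 32),
  (((9, 5, 2), (13, 7, 4), (5, 2, 1)), ((33, 33, 23), (1, 1, 1), (64, 63, 55)), 0, 32),
  (((29, 14, 5), (7, 4, 1), (9, 5, 2)), ((33, 33, 23), (1, 1, 1), (64, 63, 55)), 0, 16),
  (((5, 2, 1), (29, 14, 5), (9, 5, 2)), ((33, 33, 23), (1, 1, 1), (64, 63, 55)), 0, 16),
  (((7, 4, 1), (9, 5, 2), (5, 2, 1)), ((33, 33, 23), (1, 1, 1), (64, 63, 55)), 16, 32),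
  (((4, 1, 1), (5, 2, 1), (13, 7, 4)), ((33, 33, 23), (1, 1, 1), (64, 63, 55)), 0, 32),
  (((4, 3, 1), (5, 5, 2), (13, 7, 4)), ((33, 33, 23), (1, 1, 1), (64, 63, 55)), 0, 32),
  (((26, 17, 5), (4, 3, 1), (9, 5, 2)), ((33, 33, 23), (1, 1, 1), (64, 63, 55)), 0, 16),
  (((7, 4, 1), (26, 17, 5), (9, 5, 2)), ((33, 33, 23), (1, 1, 1), (64, 63, 55)), 0, 16),
  (((9, 5, 2), (7, 4, 1), (4, 3, 1)), ((33, 33, 23), (1, 1, 1), (64, 63, 55)), 16, 32),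
  (((13, 7, 4), (9, 5, 2), (4, 3, 1)), ((33, 33, 23), (1, 1, 1), (64, 63, 55)), 0, 32),
  (((4, 3, 1), (7, 4, 1), (11, 11, 2)), ((33, 33, 23), (1, 1, 1), (64, 63, 55)), 32, 40),
  (((5, 5, 2), (4, 3, 1), (11, 11, 2)), ((33, 33, 23), (1, 1, 1), (64, 63, 55)), 32, 40),
  (((1, 1, 0), (11, 11, 2), (7, 4, 1)), ((33, 33, 23), (1, 1, 1), (64, 63, 55)), 32, 40),
  (((4, 1, 1), (7, 4, 1), (5, 5, 2)), ((33, 33, 23), (1, 1, 1), (64, 63, 55)), 32, 40),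
  (((4, 3, 1), (7, 4, 1), (11, 11, 2)), ((33, 33, 23), (1, 1, 1), (64, 63, 55)), 40, 48),
  (((5, 5, 2), (4, 3, 1), (11, 11, 2)), ((33, 33, 23), (1, 1, 1), (64, 63, 55)), 40, 48),
  (((1, 1, 0), (11, 11, 2), (7, 4, 1)), ((33, 33, 23), (1, 1, 1), (64, 63, 55)), 40, 48),
  (((13, 7, 4), (4, 1, 1), (7, 4, 1)), ((33, 33, 23), (1, 1, 1), (64, 63, 55)), 40, 48),
  (((5, 5, 2), (13, 7, 4), (7, 4, 1)), ((33, 33, 23), (1, 1, 1), (64, 63, 55)), 40, 48),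
  (((11, 11, 2), (5, 5, 2), (7, 4, 1)), ((33, 33, 23), (1, 1, 1), (64, 63, 55)), 48, 64),
  (((1, 1, 0), (11, 11, 2), (7, 4, 1)), ((33, 33, 23), (1, 1, 1), (64, 63, 55)), 48, 64),
  (((13, 7, 4), (4, 1, 1), (7, 4, 1)), ((33, 33, 23), (1, 1, 1), (64, 63, 55)), 48, 64),
  (((4, 3, 1), (5, 5, 2), (13, 7, 4)), ((33, 33, 23), (1, 1, 1), (64, 63, 55)), 48, 64),
  (((7, 4, 1), (4, 3, 1), (13, 7, 4)), ((33, 33, 23), (1, 1, 1), (64, 63, 55)), 48, 64),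
  (((3, 1, 0), (1, 1, 0), (4, 1, 1)), ((64, 63, 55), (1, 1, 1), (33, 32, 30)), 0, 32),
  (((1, 0, 0), (3, 1, 0), (4, 1, 1)), ((64, 63, 55), (1, 1, 1), (33, 32, 30)), 0, 32),
  (((4, 1, 1), (1, 0, 0), (1, 1, 0)), ((64, 63, 55), (1, 1, 1), (33, 32, 30)), 32, 40),
  (((4, 1, 1), (1, 0, 0), (1, 1, 0)), ((64, 63, 55), (1, 1, 1), (33, 32, 30)), 40, 48),
  (((4, 1, 1), (1, 0, 0), (1, 1, 0)), ((64, 63, 55), (1, 1, 1), (33, 32, 30)), 48, 64),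
  (((13, 7, 4), (5, 5, 2), (2, 1, 1)), ((64, 63, 55), (1, 1, 1), (33, 32, 30)), 0, 32),
  (((4, 1, 1), (13, 7, 4), (2, 1, 1)), ((64, 63, 55), (1, 1, 1), (33, 32, 30)), 0, 32),
  (((3, 2, 2), (2, 1, 1), (5, 5, 2)), ((64, 63, 55), (1, 1, 1), (33, 32, 30)), 0, 16),
  (((5, 4, 4), (3, 2, 2), (3, 3, 2)), ((64, 63, 55), (1, 1, 1), (33, 32, 30)), 0, 8),
  (((6, 6, 5), (1, 1, 1), (5, 4, 4)), ((64, 63, 55), (1, 1, 1), (33, 32, 30)), 0, 8),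
  (((3, 3, 2), (6, 6, 5), (5, 4, 4)), ((64, 63, 55), (1, 1, 1), (33, 32, 30)), 0, 8),
  (((5, 5, 2), (3, 3, 2), (3, 2, 2)), ((64, 63, 55), (1, 1, 1), (33, 32, 30)), 0, 8),
  (((3, 3, 2), (1, 1, 1), (3, 2, 2)), ((64, 63, 55), (1, 1, 1), (33, 32, 30)), 8, 16),
  (((5, 5, 2), (3, 3, 2), (3, 2, 2)), ((64, 63, 55), (1, 1, 1), (33, 32, 30)), 8, 16),
  (((1, 1, 1), (2, 1, 1), (5, 5, 2)), ((64, 63, 55), (1, 1, 1), (33, 32, 30)), 16, 32),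
  (((2, 1, 1), (4, 1, 1), (5, 5, 2)), ((64, 63, 55), (1, 1, 1), (33, 32, 30)), 32, 64),
  (((1, 1, 1), (2, 1, 1), (5, 5, 2)), ((64, 63, 55), (1, 1, 1), (33, 32, 30)), 32, 64),
  (((4, 3, 1), (7, 4, 1), (11, 11, 2)), ((64, 63, 55), (1, 1, 1), (33, 32, 30)), 0, 16),
  (((5, 5, 2), (4, 3, 1), (11, 11, 2)), ((64, 63, 55), (1, 1, 1), (33, 32, 30)), 0, 16),
  (((1, 1, 0), (11, 11, 2), (7, 4, 1)), ((64, 63, 55), (1, 1, 1), (33, 32, 30)), 0, 16),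
  (((13, 7, 4), (4, 1, 1), (7, 4, 1)), ((64, 63, 55), (1, 1, 1), (33, 32, 30)), 0, 16),
  (((5, 5, 2), (13, 7, 4), (7, 4, 1)), ((64, 63, 55), (1, 1, 1), (33, 32, 30)), 0, 16),
  (((1, 1, 0), (5, 5, 2), (4, 1, 1)), ((64, 63, 55), (1, 1, 1), (33, 32, 30)), 16, 32),
  (((1, 1, 0), (5, 5, 2), (4, 1, 1)), ((64, 63, 55), (1, 1, 1), (33, 32, 30)), 32, 64),
  (((3, 1, 0), (1, 1, 0), (4, 1, 1)), ((33, 32, 30), (1, 1, 1), (18, 17, 17)), 0, 32),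
  (((1, 0, 0), (3, 1, 0), (4, 1, 1)), ((33, 32, 30), (1, 1, 1), (18, 17, 17)), 0, 32),
  (((4, 1, 1), (1, 0, 0), (1, 1, 0)), ((33, 32, 30), (1, 1, 1), (18, 17, 17)), 32, 40),
  (((4, 1, 1), (1, 0, 0), (1, 1, 0)), ((33, 32, 30), (1, 1, 1), (18, 17, 17)), 40, 48),
  (((4, 1, 1), (1, 0, 0), (1, 1, 0)), ((33, 32, 30), (1, 1, 1), (18, 17, 17)), 48, 64),
  (((2, 1, 1), (4, 1, 1), (5, 5, 2)), ((33, 32, 30), (1, 1, 1), (18, 17, 17)), 0, 32),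
  (((3, 2, 2), (2, 1, 1), (5, 5, 2)), ((33, 32, 30), (1, 1, 1), (18, 17, 17)), 0, 32),
  (((1, 1, 1), (3, 2, 2), (5, 5, 2)), ((33, 32, 30), (1, 1, 1), (18, 17, 17)), 0, 32),
  (((5, 5, 2), (1, 1, 1), (4, 1, 1)), ((33, 32, 30), (1, 1, 1), (18, 17, 17)), 32, 64),
  (((11, 11, 2), (5, 5, 2), (7, 4, 1)), ((33, 32, 30), (1, 1, 1), (18, 17, 17)), 0, 16),
  (((1, 1, 0), (11, 11, 2), (7, 4, 1)), ((33, 32, 30), (1, 1, 1), (18, 17, 17)), 0, 16),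
  (((13, 7, 4), (4, 1, 1), (7, 4, 1)), ((33, 32, 30), (1, 1, 1), (18, 17, 17)), 0, 16),
  (((5, 5, 2), (13, 7, 4), (7, 4, 1)), ((33, 32, 30), (1, 1, 1), (18, 17, 17)), 0, 16),
  (((1, 1, 0), (5, 5, 2), (4, 1, 1)), ((33, 32, 30), (1, 1, 1), (18, 17, 17)), 16, 32),
  (((1, 1, 0), (5, 5, 2), (4, 1, 1)), ((33, 32, 30), (1, 1, 1), (18, 17, 17)), 32, 48),
  (((1, 1, 0), (5, 5, 2), (4, 1, 1)), ((33, 32, 30), (1, 1, 1), (18, 17, 17)), 48, 64)]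

theorem known_posP12 : ∀ c ∈ knownP12, Pos datP12 c.1 c.2.1 c.2.2.1 c.2.2.2 := by
  unfold knownP12
  simp only [List.forall_mem_cons, List.not_mem_nil, false_imp_iff, implies_true, and_true]
  exact ⟨chkT_sound okP12 (by simp) _ _ _ _ _ partP12_0,
    chkT_sound okP12 (by simp) _ _ _ _ _ partP12_1,
    chkT_sound okP12 (by simp) _ _ _ _ _ partP12_2,
    chkT_sound okP12 (by simp) _ _ _ _ _ partP12_3,
    chkT_sound okP12 (by simp) _ _ _ _ _ partP12_4,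
    chkT_sound okP12 (by simp) _ _ _ _ _ partP12_5,
    chkT_sound okP12 (by simp) _ _ _ _ _ partP12_6,
    chkT_sound okP12 (by simp) _ _ _ _ _ partP12_7,
    chkT_sound okP12 (by simp) _ _ _ _ _ partP12_8,
    chkT_sound okP12 (by simp) _ _ _ _ _ partP12_9,
    chkT_sound okP12 (by simp) _ _ _ _ _ partP12_10,
    chkT_sound okP12 (by simp) _ _ _ _ _ partP12_11,
    chkT_sound okP12 (by simp) _ _ _ _ _ partP12_12,
    chkT_sound okP12 (by simp) _ _ _ _ _ partP12_13,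
    chkT_sound okP12 (by simp) _ _ _ _ _ partP12_14,
    chkT_sound okP12 (by simp) _ _ _ _ _ partP12_15,
    chkT_sound okP12 (by simp) _ _ _ _ _ partP12_16,
    chkT_sound okP12 (by simp) _ _ _ _ _ partP12_17,
    chkT_sound okP12 (by simp) _ _ _ _ _ partP12_18,
    chkT_sound okP12 (by simp) _ _ _ _ _ partP12_19,
    chkT_sound okP12 (by simp) _ _ _ _ _ partP12_20,
    chkT_sound okP12 (by simp) _ _ _ _ _ partP12_21,
    chkT_sound okP12 (by simp) _ _ _ _ _ partP12_22,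
    chkT_sound okP12 (by simp) _ _ _ _ _ partP12_23,
    chkT_sound okP12 (by simp) _ _ _ _ _ partP12_24,
    chkT_sound okP12 (by simp) _ _ _ _ _ partP12_25,
    chkT_sound okP12 (by simp) _ _ _ _ _ partP12_26,
    chkT_sound okP12 (by simp) _ _ _ _ _ partP12_27,
    chkT_sound okP12 (by simp) _ _ _ _ _ partP12_28,
    chkT_sound okP12 (by simp) _ _ _ _ _ partP12_29,
    chkT_sound okP12 (by simp) _ _ _ _ _ partP12_30,
    chkT_sound okP12 (by simp) _ _ _ _ _ partP12_31,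
    chkT_sound okP12 (by simp) _ _ _ _ _ partP12_32,
    chkT_sound okP12 (by simp) _ _ _ _ _ partP12_33,
    chkT_sound okP12 (by simp) _ _ _ _ _ partP12_34,
    chkT_sound okP12 (by simp) _ _ _ _ _ partP12_35,
    chkT_sound okP12 (by simp) _ _ _ _ _ partP12_36,
    chkT_sound okP12 (by simp) _ _ _ _ _ partP12_37,
    chkT_sound okP12 (by simp) _ _ _ _ _ partP12_38,
    chkT_sound okP12 (by simp) _ _ _ _ _ partP12_39,
    chkT_sound okP12 (by simp) _ _ _ _ _ partP12_40,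
    chkT_sound okP12 (by simp) _ _ _ _ _ partP12_41,
    chkT_sound okP12 (by simp) _ _ _ _ _ partP12_42,
    chkT_sound okP12 (by simp) _ _ _ _ _ partP12_43,
    chkT_sound okP12 (by simp) _ _ _ _ _ partP12_44,
    chkT_sound okP12 (by simp) _ _ _ _ _ partP12_45,
    chkT_sound okP12 (by simp) _ _ _ _ _ partP12_46,
    chkT_sound okP12 (by simp) _ _ _ _ _ partP12_47,
    chkT_sound okP12 (by simp) _ _ _ _ _ partP12_48,
    chkT_sound okP12 (by simp) _ _ _ _ _ partP12_49,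
    chkT_sound okP12 (by simp) _ _ _ _ _ partP12_50,
    chkT_sound okP12 (by simp) _ _ _ _ _ partP12_51,
    chkT_sound okP12 (by simp) _ _ _ _ _ partP12_52,
    chkT_sound okP12 (by simp) _ _ _ _ _ partP12_53,
    chkT_sound okP12 (by simp) _ _ _ _ _ partP12_54,
    chkT_sound okP12 (by simp) _ _ _ _ _ partP12_55,
    chkT_sound okP12 (by simp) _ _ _ _ _ partP12_56,
    chkT_sound okP12 (by simp) _ _ _ _ _ partP12_57,
    chkT_sound okP12 (by simp) _ _ _ _ _ partP12_58,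
    chkT_sound okP12 (by simp) _ _ _ _ _ partP12_59,
    chkT_sound okP12 (by simp) _ _ _ _ _ partP12_60,
    chkT_sound okP12 (by simp) _ _ _ _ _ partP12_61,
    chkT_sound okP12 (by simp) _ _ _ _ _ partP12_62,
    chkT_sound okP12 (by simp) _ _ _ _ _ partP12_63,
    chkT_sound okP12 (by simp) _ _ _ _ _ partP12_64,
    chkT_sound okP12 (by simp) _ _ _ _ _ partP12_65,
    chkT_sound okP12 (by simp) _ _ _ _ _ partP12_66,
    chkT_sound okP12 (by simp) _ _ _ _ _ partP12_67,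
    chkT_sound okP12 (by simp) _ _ _ _ _ partP12_68,
    chkT_sound okP12 (by simp) _ _ _ _ _ partP12_69,
    chkT_sound okP12 (by simp) _ _ _ _ _ partP12_70,
    chkT_sound okP12 (by simp) _ _ _ _ _ partP12_71,
    chkT_sound okP12 (by simp) _ _ _ _ _ partP12_72,
    chkT_sound okP12 (by simp) _ _ _ _ _ partP12_73,
    chkT_sound okP12 (by simp) _ _ _ _ _ partP12_74,
    chkT_sound okP12 (by simp) _ _ _ _ _ partP12_75,
    chkT_sound okP12 (by simp) _ _ _ _ _ partP12_76,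
    chkT_sound okP12 (by simp) _ _ _ _ _ partP12_77,
    chkT_sound okP12 (by simp) _ _ _ _ _ partP12_78,
    chkT_sound okP12 (by simp) _ _ _ _ _ partP12_79,
    chkT_sound okP12 (by simp) _ _ _ _ _ partP12_80,
    chkT_sound okP12 (by simp) _ _ _ _ _ partP12_81,
    chkT_sound okP12 (by simp) _ _ _ _ _ partP12_82,
    chkT_sound okP12 (by simp) _ _ _ _ _ partP12_83,
    chkT_sound okP12 (by simp) _ _ _ _ _ partP12_84,
    chkT_sound okP12 (by simp) _ _ _ _ _ partP12_85,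
    chkT_sound okP12 (by simp) _ _ _ _ _ partP12_86,
    chkT_sound okP12 (by simp) _ _ _ _ _ partP12_87,
    chkT_sound okP12 (by simp) _ _ _ _ _ partP12_88,
    chkT_sound okP12 (by simp) _ _ _ _ _ partP12_89,
    chkT_sound okP12 (by simp) _ _ _ _ _ partP12_90,
    chkT_sound okP12 (by simp) _ _ _ _ _ partP12_91,
    chkT_sound okP12 (by simp) _ _ _ _ _ partP12_92,
    chkT_sound okP12 (by simp) _ _ _ _ _ partP12_93,
    chkT_sound okP12 (by simp) _ _ _ _ _ partP12_94,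
    chkT_sound okP12 (by simp) _ _ _ _ _ partP12_95,
    chkT_sound okP12 (by simp) _ _ _ _ _ partP12_96,
    chkT_sound okP12 (by simp) _ _ _ _ _ partP12_97,
    chkT_sound okP12 (by simp) _ _ _ _ _ partP12_98,
    chkT_sound okP12 (by simp) _ _ _ _ _ partP12_99,
    chkT_sound okP12 (by simp) _ _ _ _ _ partP12_100,
    chkT_sound okP12 (by simp) _ _ _ _ _ partP12_101,
    chkT_sound okP12 (by simp) _ _ _ _ _ partP12_102,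
    chkT_sound okP12 (by simp) _ _ _ _ _ partP12_103,
    chkT_sound okP12 (by simp) _ _ _ _ _ partP12_104,
    chkT_sound okP12 (by simp) _ _ _ _ _ partP12_105,
    chkT_sound okP12 (by simp) _ _ _ _ _ partP12_106,
    chkT_sound okP12 (by simp) _ _ _ _ _ partP12_107,
    chkT_sound okP12 (by simp) _ _ _ _ _ partP12_108,
    chkT_sound okP12 (by simp) _ _ _ _ _ partP12_109,
    chkT_sound okP12 (by simp) _ _ _ _ _ partP12_110,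
    chkT_sound okP12 (by simp) _ _ _ _ _ partP12_111,
    chkT_sound okP12 (by simp) _ _ _ _ _ partP12_112,
    chkT_sound okP12 (by simp) _ _ _ _ _ partP12_113,
    chkT_sound okP12 (by simp) _ _ _ _ _ partP12_114,
    chkT_sound okP12 (by simp) _ _ _ _ _ partP12_115,
    chkT_sound okP12 (by simp) _ _ _ _ _ partP12_116,
    chkT_sound okP12 (by simp) _ _ _ _ _ partP12_117,
    chkT_sound okP12 (by simp) _ _ _ _ _ partP12_118,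
    chkT_sound okP12 (by simp) _ _ _ _ _ partP12_119,
    chkT_sound okP12 (by simp) _ _ _ _ _ partP12_120,
    chkT_sound okP12 (by simp) _ _ _ _ _ partP12_121,
    chkT_sound okP12 (by simp) _ _ _ _ _ partP12_122,
    chkT_sound okP12 (by simp) _ _ _ _ _ partP12_123,
    chkT_sound okP12 (by simp) _ _ _ _ _ partP12_124,
    chkT_sound okP12 (by simp) _ _ _ _ _ partP12_125,
    chkT_sound okP12 (by simp) _ _ _ _ _ partP12_126,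
    chkT_sound okP12 (by simp) _ _ _ _ _ partP12_127,
    chkT_sound okP12 (by simp) _ _ _ _ _ partP12_128,
    chkT_sound okP12 (by simp) _ _ _ _ _ partP12_129,
    chkT_sound okP12 (by simp) _ _ _ _ _ partP12_130,
    chkT_sound okP12 (by simp) _ _ _ _ _ partP12_131,
    chkT_sound okP12 (by simp) _ _ _ _ _ partP12_132,
    chkT_sound okP12 (by simp) _ _ _ _ _ partP12_133,
    chkT_sound okP12 (by simp) _ _ _ _ _ partP12_134,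
    chkT_sound okP12 (by simp) _ _ _ _ _ partP12_135,
    chkT_sound okP12 (by simp) _ _ _ _ _ partP12_136,
    chkT_sound okP12 (by simp) _ _ _ _ _ partP12_137,
    chkT_sound okP12 (by simp) _ _ _ _ _ partP12_138,
    chkT_sound okP12 (by simp) _ _ _ _ _ partP12_139,
    chkT_sound okP12 (by simp) _ _ _ _ _ partP12_140,
    chkT_sound okP12 (by simp) _ _ _ _ _ partP12_141,
    chkT_sound okP12 (by simp) _ _ _ _ _ partP12_142,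
    chkT_sound okP12 (by simp) _ _ _ _ _ partP12_143,
    chkT_sound okP12 (by simp) _ _ _ _ _ partP12_144,
    chkT_sound okP12 (by simp) _ _ _ _ _ partP12_145,
    chkT_sound okP12 (by simp) _ _ _ _ _ partP12_146,
    chkT_sound okP12 (by simp) _ _ _ _ _ partP12_147,
    chkT_sound okP12 (by simp) _ _ _ _ _ partP12_148,
    chkT_sound okP12 (by simp) _ _ _ _ _ partP12_149,
    chkT_sound okP12 (by simp) _ _ _ _ _ partP12_150⟩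

theorem topP12_0 : chkT datP12 knownP12 (.spU 2 1 3 1 (4, 1, 1) (.spS 32 (.spU 1 2 1 1 (3, 1, 0) (.spU 1 3 1 1 (7, 4, 1) (.spU 1 2 3 1 (17, 5, 2) .ext (.spS 16 (.spU 2 1 2 3 (5, 2, 1) .ext .ext) .ext)) .ext) (.spU 2 1 6 1 (10, 1, 1) .ext (.spS 16 (.spU 0 2 1 3 (6, 1, 1) .ext (.spU 2 3 2 1 (17, 5, 2) (.spV 0 1 6 1 (39, 39, 29) .ext (.spV 2 1 2 1 (130, 129, 101) (.spV 0 1 4 1 (262, 261, 193) (.spU 1 1 1 2 (5, 1, 1) .ext (.spS 8 (.spS 4 .ext (.spS 6 .ext (.spU 1 3 1 1 (32, 8, 5) .ext .ext))) .ext)) .ext) .ext)) .ext)) (.spU 2 3 2 1 (17, 5, 2) .ext .ext)))) (.spS 48 (.spU 1 2 1 1 (3, 1, 0) (.spS 40 (.spU 0 1 2 1 (5, 3, 0) (.spU 1 3 1 1 (7, 4, 1) .ext (.spS 36 .ext .ext)) .ext) (.spU 1 3 1 1 (7, 4, 1) .ext .ext)) (.spS 40 (.spS 36 (.spU 0 4 1 1 (7, 1, 0) .ext .ext) .ext) .ext)) (.spU 1 2 1 1 (3, 1, 0) .ext .ext))) (.spU 2 3 2 1 (5, 5, 2) (.spS 32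 (.spU 1 2 1 3 (2, 1, 1) (.spU 1 2 1 1 (13, 7, 4) (.spS 16 (.spS 8 .ext .ext) .ext) .ext) (.spS 16 (.spU 0 1 1 1 (3, 2, 2) (.spS 8 (.spU 1 3 1 1 (11, 8, 5) (.spU 1 1 2 1 (11, 9, 6) .ext .ext) .ext) .ext) (.spU 2 1 4 3 (3, 3, 2) (.spS 8 (.spU 1 2 1 1 (5, 4, 4) .ext (.spU 2 1 3 1 (6, 6, 5) (.spS 4 (.spV 0 1 6 1 (39, 39, 29) (.spV 0 1 6 5 (9, 9, 7) .ext .ext) .ext) (.spV 0 1 6 1 (39, 39, 29) .ext .ext)) (.spU 0 2 1 3 (4, 4, 3) (.spS 4 (.spV 0 1 6 1 (39, 39, 29) .ext .ext) .ext) .ext))) (.spU 0 1 3 1 (6, 6, 5) .ext .ext)) (.spS 8 (.spU 2 2 1 1 (11, 9, 6) (.spU 1 2 3 1 (19, 19, 10) .ext (.spS 4 .ext (.spU 2 1 2 1 (21, 19, 10) (.spU 1 4 1 3 (13, 13, 6) .ext .ext) .ext))) .ext) (.spU 2 2 1 1 (11, 9, 6) .ext .ext)))) (.spU 2 1 4 3 (3, 3, 2) (.spU 1 1 1 1 (3, 2, 2) (.spU 1 2 1 1 (7, 5, 4) .ext (.spS 24 .ext .ext)) (.spS 24 .ext .ext)) (.spU 1 1 2 1 (7,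 5, 4) .ext .ext)))) (.spU 1 2 1 3 (2, 1, 1) (.spU 1 2 1 1 (13, 7, 4) .ext (.spS 48 (.spS 40 .ext .ext) .ext)) (.spU 2 1 4 3 (3, 3, 2) .ext (.spU 2 3 1 1 (11, 8, 5) .ext .ext)))) (.spS 32 (.spU 2 1 3 1 (7, 4, 1) (.spU 1 6 1 1 (11, 11, 2) (.spU 1 1 1 3 (4, 3, 1) (.spS 16 (.spS 8 (.spS 4 (.spU 1 2 1 1 (25, 19, 4) (.spU 1 1 3 1 (23, 20, 5) .ext .ext) .ext) .ext) .ext) .ext) (.spU 2 1 2 3 (7, 7, 2) .ext (.spU 2 3 1 1 (23, 20, 5) (.spS 16 (.spU 1 2 3 1 (43, 43, 10) (.spS 8 (.spS 4 .ext .ext) .ext) .ext) .ext) .ext))) .ext) (.spU 2 1 2 1 (13, 7, 4) (.spU 1 2 1 3 (5, 2, 1) (.spU 1 2 1 3 (9, 5, 2) .ext (.spS 16 (.spU 2 3 2 1 (29, 14, 5) .ext .ext) .ext)) .ext) (.spU 2 1 1 3 (4, 3, 1) .ext (.spU 2 1 2 3 (9, 5, 2) (.spS 16 (.spU 1 2 3 1 (26, 17, 5) .ext .ext) .ext) .ext)))) (.spS 48 (.spS 40 (.spU 2 1 3 1 (7, 4, 1) (.spU 1 6 1 1 (11, 11, 2) (.spU 1 1 1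 3 (4, 3, 1) .ext .ext) .ext) .ext) (.spU 2 1 3 1 (7, 4, 1) (.spU 1 6 1 1 (11, 11, 2) (.spU 1 1 1 3 (4, 3, 1) .ext .ext) .ext) (.spU 2 1 2 1 (13, 7, 4) .ext .ext))) (.spU 2 1 3 1 (7, 4, 1) (.spU 1 6 1 1 (11, 11, 2) .ext .ext) (.spU 2 1 2 1 (13, 7, 4) .ext (.spU 2 1 1 3 (4, 3, 1) .ext .ext)))))))
    U0 ((33, 33, 23), (1, 1, 1), (64, 63, 55)) 0 64 = true := by decide +kernel

theorem topP12_1 : chkT datP12 knownP12 (.spU 2 1 3 1 (4, 1, 1) (.spS 32 (.spU 1 2 1 1 (3, 1, 0) .ext .ext) (.spS 48 (.spS 40 .ext .ext) .ext)) (.spU 2 3 2 1 (5, 5, 2) (.spS 32 (.spU 1 2 1 3 (2, 1, 1) (.spU 1 2 1 1 (13, 7, 4) .ext .ext) (.spS 16 (.spU 0 1 1 1 (3, 2, 2) .ext (.spS 8 (.spU 2 1 4 3 (3, 3, 2) (.spU 1 2 1 1 (5, 4, 4) .ext (.spU 2 1 3 1 (6, 6, 5) .ext .ext)) .ext) (.spU 2 1 4 3 (3, 3, 2) .ext .ext))) .ext)) (.spU 1 2 1 3 (2, 1, 1) .ext .ext)) (.spS 32 (.spS 16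 (.spU 2 1 3 1 (7, 4, 1) (.spU 1 6 1 1 (11, 11, 2) (.spU 1 1 1 3 (4, 3, 1) .ext .ext) .ext) (.spU 2 1 2 1 (13, 7, 4) .ext .ext)) .ext) .ext)))
    U0 ((64, 63, 55), (1, 1, 1), (33, 32, 30)) 0 64 = true := by decide +kernel

theorem topP12_2 : chkT datP12 knownP12 (.spU 2 1 3 1 (4, 1, 1) (.spS 32 (.spU 1 2 1 1 (3, 1, 0) .ext .ext) (.spS 48 (.spS 40 .ext .ext) .ext)) (.spU 2 3 2 1 (5, 5, 2) (.spS 32 (.spU 1 2 1 3 (2, 1, 1) .ext (.spU 0 1 1 1 (3, 2, 2) .ext .ext)) .ext) (.spS 32 (.spS 16 (.spU 2 1 3 1 (7, 4, 1) (.spU 1 6 1 1 (11, 11, 2) .ext .ext) (.spU 2 1 2 1 (13, 7, 4) .ext .ext)) .ext) (.spS 48 .ext .ext))))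
    U0 ((33, 32, 30), (1, 1, 1), (18, 17, 17)) 0 64 = true := by decide +kernel

theorem mainP12 : ∀ Q ∈ fanCells fullP12.fan, Pos fullP12.D U0 Q 0 fullP12.N := by
  have e : fanCells fullP12.fan = [((33, 33, 23), (1, 1, 1), (64, 63, 55)), ((64, 63, 55), (1, 1, 1), (33, 32, 30)), ((33, 32, 30), (1, 1, 1), (18, 17, 17))] := rfl
  rw [e]
  simp only [List.forall_mem_cons, List.not_mem_nil, false_imp_iff, implies_true, and_true]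
  exact ⟨chkT_sound okP12 known_posP12 _ _ _ _ _ topP12_0, chkT_sound okP12 known_posP12 _ _ _ _ _ topP12_1, chkT_sound okP12 known_posP12 _ _ _ _ _ topP12_2⟩

theorem validP12 : ValidR fullP12 rpP12 where
  pok := by decide +kernel
  ok := okP12
  r0 := by decide +kernel
  c0 := by decide +kernel
  ln0 := by decide +kernel
  ld0 := by decide +kernel
  dn0 := by decide +kernel
  dd0 := by decide +kernel
  Da0 := by decide +kernel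
  cn0 := by decide +kernel
  cd0 := by decide +kernel
  gn0 := by decide +kernel
  gd0 := by decide +kernel
  fan := by decide +kernel
  fan1 := by decide +kernel
  fan2 := by decide +kernel
  main := mainP12
  hm := allP12_m
  hml := allP12_ml
  hr := posP12_r_0
  hw := posP12_w_0
  hs := posP12_s_0
  s0 := by decide +kernel
  s1 := by decide +kernel
  v2 := by decide +kernel
  v3 := by decide +kernel

theorem cornerP12 : (2 * (rpP12.den : ℤ) + (rpP12.L.map fun m => m.2.2 * 2 ^ (m.1 + m.2.1)).sum) *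
    fullP12.dd ≤ fullP12.N * fullP12.dn * rpP12.den := by decide +kernel

end Vale.Agent.P154.Sep2
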