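import Vale.Agent.P154.Abs

/-!
# P154: polynomials of the four-colour certificate (definitions)

`t i = √(u i)`; all polynomials below are homogeneous.  The functionals are
`H u = HN t / (6000 S0 t)`, `A u = AN t / (60000 (S0 t)^2)`,
`r u = RN u / (120000 (c0 u)^5)`, `Ht u = TN u / (40000 (c0 u)^5)`.
-/

namespace Vale.Agent.P154.Q4

/-! ### polynomials in `t = √u` -/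

def S0 (t : Fin 4 → ℝ) : ℝ := t 0 ^ 2 + t 1 ^ 2 + t 2 ^ 2 + t 3 ^ 2
def s4 (t : Fin 4 → ℝ) : ℝ := t 0 ^ 4 + t 1 ^ 4 + t 2 ^ 4 + t 3 ^ 4
def s11 (t : Fin 4 → ℝ) : ℝ :=
  t 0 * t 1 + t 0 * t 2 + t 0 * t 3 + t 1 * t 2 + t 1 * t 3 + t 2 * t 3
def s211 (t : Fin 4 → ℝ) : ℝ :=
  t 0 ^ 2 * (t 1 * t 2 + t 1 * t 3 + t 2 * t 3) + t 1 ^ 2 * (t 0 * t 2 + t 0 * t 3 + t 2 * t 3) +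
  t 2 ^ 2 * (t 0 * t 1 + t 0 * t 3 + t 1 * t 3) + t 3 ^ 2 * (t 0 * t 1 + t 0 * t 2 + t 1 * t 2)
def E4 (t : Fin 4 → ℝ) : ℝ := t 0 * t 1 * t 2 * t 3

/-- `6000 S0 * H` -/
def HN (t : Fin 4 → ℝ) : ℝ :=
  12972 * s4 t + 4204 * (S0 t * s11 t) + 3740 * s211 t - 11664 * E4 t - 11625 * S0 t ^ 2

/-- numerator of the product term of `H` -/
def TT (x : Fin 4 → ℝ) : ℝ := 3243 * s4 x + 935 * s211 x - 2916 * E4 x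

def m5100 (t : Fin 4 → ℝ) : ℝ :=
  t 0 ^ 5 * t 1 + t 0 ^ 5 * t 2 + t 0 ^ 5 * t 3 +
  t 0 * t 1 ^ 5 + t 0 * t 2 ^ 5 + t 0 * t 3 ^ 5 +
  t 1 ^ 5 * t 2 + t 1 ^ 5 * t 3 + t 1 * t 2 ^ 5 +
  t 1 * t 3 ^ 5 + t 2 ^ 5 * t 3 + t 2 * t 3 ^ 5
def m4200 (t : Fin 4 → ℝ) : ℝ :=
  t 0 ^ 4 * t 1 ^ 2 + t 0 ^ 4 * t 2 ^ 2 + t 0 ^ 4 * t 3 ^ 2 +
  t 0 ^ 2 * t 1 ^ 4 + t 0 ^ 2 * t 2 ^ 4 + t 0 ^ 2 * t 3 ^ 4 +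
  t 1 ^ 4 * t 2 ^ 2 + t 1 ^ 4 * t 3 ^ 2 + t 1 ^ 2 * t 2 ^ 4 +
  t 1 ^ 2 * t 3 ^ 4 + t 2 ^ 4 * t 3 ^ 2 + t 2 ^ 2 * t 3 ^ 4
def m4110 (t : Fin 4 → ℝ) : ℝ :=
  t 0 ^ 4 * t 1 * t 2 + t 0 ^ 4 * t 1 * t 3 + t 0 ^ 4 * t 2 * t 3 +
  t 0 * t 1 ^ 4 * t 2 + t 0 * t 1 ^ 4 * t 3 + t 0 * t 1 * t 2 ^ 4 +
  t 0 * t 1 * t 3 ^ 4 + t 0 * t 2 ^ 4 * t 3 + t 0 * t 2 * t 3 ^ 4 +
  t 1 ^ 4 * t 2 * t 3 + t 1 * t 2 ^ 4 * t 3 + t 1 * t 2 * t 3 ^ 4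
def m3300 (t : Fin 4 → ℝ) : ℝ :=
  t 0 ^ 3 * t 1 ^ 3 + t 0 ^ 3 * t 2 ^ 3 + t 0 ^ 3 * t 3 ^ 3 +
  t 1 ^ 3 * t 2 ^ 3 + t 1 ^ 3 * t 3 ^ 3 + t 2 ^ 3 * t 3 ^ 3
def m3210 (t : Fin 4 → ℝ) : ℝ :=
  t 0 ^ 3 * t 1 ^ 2 * t 2 + t 0 ^ 3 * t 1 ^ 2 * t 3 + t 0 ^ 3 * t 1 * t 2 ^ 2 +
  t 0 ^ 3 * t 1 * t 3 ^ 2 + t 0 ^ 3 * t 2 ^ 2 * t 3 + t 0 ^ 3 * t 2 * t 3 ^ 2 +
  t 0 ^ 2 * t 1 ^ 3 * t 2 + t 0 ^ 2 * t 1 ^ 3 * t 3 + t 0 ^ 2 * t 1 * t 2 ^ 3 +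
  t 0 ^ 2 * t 1 * t 3 ^ 3 + t 0 ^ 2 * t 2 ^ 3 * t 3 + t 0 ^ 2 * t 2 * t 3 ^ 3 +
  t 0 * t 1 ^ 3 * t 2 ^ 2 + t 0 * t 1 ^ 3 * t 3 ^ 2 + t 0 * t 1 ^ 2 * t 2 ^ 3 +
  t 0 * t 1 ^ 2 * t 3 ^ 3 + t 0 * t 2 ^ 3 * t 3 ^ 2 + t 0 * t 2 ^ 2 * t 3 ^ 3 +
  t 1 ^ 3 * t 2 ^ 2 * t 3 + t 1 ^ 3 * t 2 * t 3 ^ 2 + t 1 ^ 2 * t 2 ^ 3 * t 3 +
  t 1 ^ 2 * t 2 * t 3 ^ 3 + t 1 * t 2 ^ 3 * t 3 ^ 2 + t 1 * t 2 ^ 2 * t 3 ^ 3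
def m3111 (t : Fin 4 → ℝ) : ℝ :=
  t 0 ^ 3 * t 1 * t 2 * t 3 + t 0 * t 1 ^ 3 * t 2 * t 3 + t 0 * t 1 * t 2 ^ 3 * t 3 +
  t 0 * t 1 * t 2 * t 3 ^ 3
def m2220 (t : Fin 4 → ℝ) : ℝ :=
  t 0 ^ 2 * t 1 ^ 2 * t 2 ^ 2 + t 0 ^ 2 * t 1 ^ 2 * t 3 ^ 2 + t 0 ^ 2 * t 2 ^ 2 * t 3 ^ 2 +
  t 1 ^ 2 * t 2 ^ 2 * t 3 ^ 2
def m2211 (t : Fin 4 → ℝ) : ℝ :=
  t 0 ^ 2 * t 1 ^ 2 * t 2 * t 3 + t 0 ^ 2 * t 1 * t 2 ^ 2 * t 3 + t 0 ^ 2 * t 1 * t 2 * t 3 ^ 2 +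
  t 0 * t 1 ^ 2 * t 2 ^ 2 * t 3 + t 0 * t 1 ^ 2 * t 2 * t 3 ^ 2 + t 0 * t 1 * t 2 ^ 2 * t 3 ^ 2

/-- `60000 S0 ^ 2 * A` -/
def AN (t : Fin 4 → ℝ) : ℝ :=
  3231 * S0 t ^ 3 - 12808 * m5100 t - 6584 * m4200 t + 47040 * m4110 t + 32400 * m3300 t - 34680 * m3210 t + 54072 * m3111 t + 293448 * m2220 t - 55120 * m2211 t

/-- the scaling polynomial: `8 E4 (3 HN - D HN)`, `D` the derivative in the direction `u - Z` -/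
def SP (t : Fin 4 → ℝ) : ℝ :=
  24 * (E4 t * HN t)
  - t 1 * t 2 * t 3 * (4 * t 0 ^ 2 - S0 t) *
    (51888 * t 0 ^ 3 + 4204 * (S0 t * (t 1 + t 2 + t 3)) +
      3740 * (2 * t 0 * (t 1 * t 2 + t 1 * t 3 + t 2 * t 3) + t 1 ^ 2 * (t 2 + t 3) +
        t 2 ^ 2 * (t 1 + t 3) + t 3 ^ 2 * (t 1 + t 2)) - 11664 * (t 1 * t 2 * t 3))
  - t 0 * t 2 * t 3 * (4 * t 1 ^ 2 - S0 t) *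
    (51888 * t 1 ^ 3 + 4204 * (S0 t * (t 0 + t 2 + t 3)) +
      3740 * (2 * t 1 * (t 0 * t 2 + t 0 * t 3 + t 2 * t 3) + t 0 ^ 2 * (t 2 + t 3) +
        t 2 ^ 2 * (t 0 + t 3) + t 3 ^ 2 * (t 0 + t 2)) - 11664 * (t 0 * t 2 * t 3))
  - t 0 * t 1 * t 3 * (4 * t 2 ^ 2 - S0 t) *
    (51888 * t 2 ^ 3 + 4204 * (S0 t * (t 0 + t 1 + t 3)) +
      3740 * (2 * t 2 * (t 0 * t 1 + t 0 * t 3 + t 1 * t 3) + t 0 ^ 2 * (t 1 + t 3) +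
        t 1 ^ 2 * (t 0 + t 3) + t 3 ^ 2 * (t 0 + t 1)) - 11664 * (t 0 * t 1 * t 3))
  - t 0 * t 1 * t 2 * (4 * t 3 ^ 2 - S0 t) *
    (51888 * t 3 ^ 3 + 4204 * (S0 t * (t 0 + t 1 + t 2)) +
      3740 * (2 * t 3 * (t 0 * t 1 + t 0 * t 2 + t 1 * t 2) + t 0 ^ 2 * (t 1 + t 2) +
        t 1 ^ 2 * (t 0 + t 2) + t 2 ^ 2 * (t 0 + t 1)) - 11664 * (t 0 * t 1 * t 2))

/-! ### polynomials in `u` -/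

def c0 (u : Fin 4 → ℝ) : ℝ := u 0 + u 1 + u 2 + u 3
def c1 (u : Fin 4 → ℝ) : ℝ := u 0 + u 1 - u 2 - u 3
def c2 (u : Fin 4 → ℝ) : ℝ := u 0 - u 1 + u 2 - u 3
def c3 (u : Fin 4 → ℝ) : ℝ := u 0 - u 1 - u 2 + u 3
def e2 (u : Fin 4 → ℝ) : ℝ := c1 u ^ 2 + c2 u ^ 2 + c3 u ^ 2
def e3 (u : Fin 4 → ℝ) : ℝ := 6 * (c1 u * c2 u * c3 u)
def p4 (u : Fin 4 → ℝ) : ℝ := c1 u ^ 4 + c2 u ^ 4 + c3 u ^ 4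
def e4 (u : Fin 4 → ℝ) : ℝ := 3 * e2 u ^ 2 - 2 * p4 u

/-- `120000 c0 ^ 5 * r` -/
def RN (u : Fin 4 → ℝ) : ℝ :=
  20000 * (e2 u * c0 u ^ 4)
    - 2500 * (e3 u * c0 u ^ 3)
    + 7284 * (e2 u ^ 2 * c0 u ^ 2)
    - 8541 * (e4 u * c0 u ^ 2)
    + 5652 * (e2 u * e3 u * c0 u)
    - 3459 * (e2 u ^ 3)
    - 660 * (e3 u ^ 2)
    + 1395 * (e2 u * e4 u)
/-- `40000 c0 ^ 5 * Ht` -/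
def TN (u : Fin 4 → ℝ) : ℝ :=
  10000 * (e3 u * c0 u ^ 3)
    - 2613 * (e2 u ^ 2 * c0 u ^ 2)
    - 2390 * (e4 u * c0 u ^ 2)
    + 2853 * (e2 u * e3 u * c0 u)
    - 3117 * (e2 u ^ 3)
    + 1781 * (e3 u ^ 2)
    - 42 * (e2 u * e4 u)

def D1 (x e : ℝ) : ℝ := 3 * x ^ 2 - e
def D2 (x p : ℝ) : ℝ := 3 * x ^ 4 - p
def D11 (u v : Fin 4 → ℝ) : ℝ := D1 (c1 u) (e2 u) * D1 (c1 v) (e2 v) +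
  D1 (c2 u) (e2 u) * D1 (c2 v) (e2 v) + D1 (c3 u) (e2 u) * D1 (c3 v) (e2 v)
def D12 (u v : Fin 4 → ℝ) : ℝ := D1 (c1 u) (e2 u) * D2 (c1 v) (p4 v) +
  D1 (c2 u) (e2 u) * D2 (c2 v) (p4 v) + D1 (c3 u) (e2 u) * D2 (c3 v) (p4 v)
def D22 (u v : Fin 4 → ℝ) : ℝ := D2 (c1 u) (p4 u) * D2 (c1 v) (p4 v) +
  D2 (c2 u) (p4 u) * D2 (c2 v) (p4 v) + D2 (c3 u) (p4 u) * D2 (c3 v) (p4 v)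

/-- invariant coefficients of the correctors -/
def al (u v : Fin 4 → ℝ) : ℝ :=
    c0 u ^ 4 *
      (-300000000 * (c0 v ^ 4) + 100000000 * (e2 v * c0 v ^ 2) + 7110000 * (e3 v * c0 v) - 32910000 * (e2 v ^ 2) + 2775000 * (e4 v)) +
    e2 u * c0 u ^ 2 *
      (100000000 * (c0 v ^ 4) - 84060000 * (e2 v * c0 v ^ 2) - 424740000 * (e3 v * c0 v) + 428325000 * (e2 v ^ 2) + 8490000 * (e4 v)) +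
    e3 u * c0 u *
      (7110000 * (c0 v ^ 4) - 424740000 * (e2 v * c0 v ^ 2) + 83310000 * (e3 v * c0 v) + 436845000 * (e2 v ^ 2) - 72360000 * (e4 v)) +
    e2 u ^ 2 *
      (-32910000 * (c0 v ^ 4) + 428325000 * (e2 v * c0 v ^ 2) + 436845000 * (e3 v * c0 v) - 684090000 * (e2 v ^ 2) + 6750000 * (e4 v)) +
    e4 u *
      (2775000 * (c0 v ^ 4) + 8490000 * (e2 v * c0 v ^ 2) - 72360000 * (e3 v * c0 v) + 6750000 * (e2 v ^ 2) + 5880000 * (e4 v))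
def be (u v : Fin 4 → ℝ) : ℝ :=
    c0 u ^ 4 *
      (32880000 * (e2 v)) +
    e2 u * c0 u ^ 2 *
      (203685000 * (c0 v ^ 2) - 341670000 * (e2 v)) +
    e3 u * c0 u *
      (371130000 * (c0 v ^ 2) - 354645000 * (e2 v)) +
    e2 u ^ 2 *
      (86985000 * (c0 v ^ 2) + 242910000 * (e2 v)) +
    e4 u *
      (-137130000 * (c0 v ^ 2) + 73995000 * (e2 v))
def ga (u v : Fin 4 → ℝ) : ℝ :=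
    c0 u ^ 2 *
      (-525180000 * (c0 v ^ 2) + 81405000 * (e2 v)) +
    e2 u *
      (81405000 * (c0 v ^ 2) - 41970000 * (e2 v))

/-- the correctors; they sum to zero over all permutations of `v` -/
def corr (u v : Fin 4 → ℝ) : ℝ :=
  al u v * D11 u v + be u v * D12 u v + be v u * D12 v u + ga u v * D22 u v

/-- the permutation-invariant part -/
def GS (u v : Fin 4 → ℝ) : ℝ :=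
  900000000 * (c0 u ^ 6 * c0 v ^ 6 + e2 u * c0 u ^ 4 * c0 v ^ 6 + c0 u ^ 6 * (e2 v * c0 v ^ 4))
  - 3 * (RN v * TN u + RN u * TN v)
  - 90000 * (e2 u ^ 2 * c0 u ^ 2 * (e2 v * c0 v ^ 4) + e2 u * c0 u ^ 4 * (e2 v ^ 2 * c0 v ^ 2))

def z0 (u v : Fin 4 → ℝ) : ℝ := u 0 * v 0 + u 1 * v 1 + u 2 * v 2 + u 3 * v 3
def z1 (u v : Fin 4 → ℝ) : ℝ := u 0 * v 1 + u 1 * v 0 + u 2 * v 3 + u 3 * v 2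
def z2 (u v : Fin 4 → ℝ) : ℝ := u 0 * v 2 + u 1 * v 3 + u 2 * v 0 + u 3 * v 1
def z3 (u v : Fin 4 → ℝ) : ℝ := u 0 * v 3 + u 1 * v 2 + u 2 * v 1 + u 3 * v 0
def q0 (u v : Fin 4 → ℝ) : ℝ :=
  u 0 ^ 2 * v 0 ^ 2 + u 1 ^ 2 * v 1 ^ 2 + u 2 ^ 2 * v 2 ^ 2 + u 3 ^ 2 * v 3 ^ 2
def q1 (u v : Fin 4 → ℝ) : ℝ :=
  u 0 ^ 2 * v 1 ^ 2 + u 1 ^ 2 * v 0 ^ 2 + u 2 ^ 2 * v 3 ^ 2 + u 3 ^ 2 * v 2 ^ 2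
def q2 (u v : Fin 4 → ℝ) : ℝ :=
  u 0 ^ 2 * v 2 ^ 2 + u 1 ^ 2 * v 3 ^ 2 + u 2 ^ 2 * v 0 ^ 2 + u 3 ^ 2 * v 1 ^ 2
def q3 (u v : Fin 4 → ℝ) : ℝ :=
  u 0 ^ 2 * v 3 ^ 2 + u 1 ^ 2 * v 2 ^ 2 + u 2 ^ 2 * v 1 ^ 2 + u 3 ^ 2 * v 0 ^ 2
def NN (u v : Fin 4 → ℝ) : ℝ :=
  q0 u v * (z1 u v * z2 u v * z3 u v) + q1 u v * (z0 u v * z2 u v * z3 u v) +
  q2 u v * (z0 u v * z1 u v * z3 u v) + q3 u v * (z0 u v * z1 u v * z2 u v)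

/-- sorted, strictly positive -/
def Srt (t : Fin 4 → ℝ) : Prop := 0 < t 0 ∧ t 0 ≤ t 1 ∧ t 1 ≤ t 2 ∧ t 2 ≤ t 3
/-- sorted, nonnegative -/
def Srt0 (t : Fin 4 → ℝ) : Prop := 0 ≤ t 0 ∧ t 0 ≤ t 1 ∧ t 1 ≤ t 2 ∧ t 2 ≤ t 3

/-- The polynomial facts behind the certificate. -/
structure Facts where
  KK : (Fin 4 → ℝ) → (Fin 4 → ℝ) → ℝ
  polyI : ∀ t s : Fin 4 → ℝ, Srt t → Srt s → ∀ π : Equiv.Perm (Fin 4),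
    (t 0 ^ 2 * s (π 0) ^ 2 + t 1 ^ 2 * s (π 1) ^ 2 + t 2 ^ 2 * s (π 2) ^ 2 + t 3 ^ 2 * s (π 3) ^ 2) *
      KK t (fun i => s (π i)) ≤ 5 * (S0 t * S0 s) ^ 2 * TT (fun i => t i * s (π i))
  polyII : ∀ t s : Fin 4 → ℝ, Srt t → Srt s →
    HN t * S0 t * AN s + HN s * S0 s * AN t ≤
      2000 * ∑ π : Equiv.Perm (Fin 4), KK t (fun i => s (π i)) +
      2500 * (16816 * (s11 t * s11 s) - 69750 * (S0 t * S0 s)) * (S0 t * S0 s) ^ 2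
  polyP : ∀ u v : Fin 4 → ℝ, Srt u → Srt v → ∀ π : Equiv.Perm (Fin 4), π 0 = 0 →
    3600000000 * (c0 u * c0 v) ^ 5 * NN u (fun i => v (π i)) ≤
      z0 u (fun i => v (π i)) * z1 u (fun i => v (π i)) * z2 u (fun i => v (π i)) *
        z3 u (fun i => v (π i)) * (GS u v + corr u (fun i => v (π i)))
  polyT : ∀ t : Fin 4 → ℝ, Srt0 t → 20 * HN t * S0 t ^ 4 ≤ 3 * TN (fun i => t i ^ 2)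
  polyR : ∀ u : Fin 4 → ℝ, Srt0 u → 0 ≤ RN u
  polyB : ∀ t : Fin 4 → ℝ, Srt0 t → 0 ≤ AN t
  polyS : ∀ t : Fin 4 → ℝ, Srt0 t → 0 ≤ SP t

end Vale.Agent.P154.Q4
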