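import Vale.Agent.P154.Q4FI

/-!
# P154: blocks of `polyI`, relative order 1320
-/

namespace Vale.Agent.P154.Q4

set_option maxRecDepth 100000

private def tr : Tr2 := (.node true 1 3 1 2 1 (.node false 1 3 1 2 1 (.node false 1 3 2 1 1 .leaf (.node false 2 3 1 1 1 .leaf (.node true 1 3 2 1 1 .leaf .leaf))) (.node false 0 3 2 1 1 .leaf (.node false 2 3 1 2 1 .leaf (.node false 0 3 1 2 1 .leaf .leaf)))) (.node false 0 3 1 2 1 (.node true 0 3 1 1 1 .leaf (.node true 2 3 1 2 1 .leaf .leaf)) (.node false 2 3 1 1 1 (.node true 2 3 2 1 1 .leaf (.node true 0 3 1 1 1 .leaf .leaf)) (.node false 1 3 1 2 1 (.node true 0 3 1 1 1 .leaf .leaf) (.node true 0 3 1 2 1 .leaf .leaf)))))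

private def lv : List (Cell × Cell) := [
  (![![1, 1, 1, 1], ![0, 1, 1, 1], ![0, 0, 1, 1], ![0, 3, 3, 5]], ![![1, 1, 1, 1], ![0, 1, 1, 1], ![0, 0, 1, 1], ![0, 1, 1, 3]]),
  (![![1, 1, 1, 1], ![0, 3, 3, 5], ![0, 0, 1, 1], ![0, 1, 2, 4]], ![![1, 1, 1, 1], ![0, 1, 1, 1], ![0, 0, 1, 1], ![0, 1, 1, 3]]),
  (![![1, 1, 1, 1], ![0, 3, 3, 5], ![0, 1, 2, 4], ![0, 1, 1, 3]], ![![1, 1, 1, 1], ![0, 1, 1, 1], ![0, 0, 1, 1], ![0, 3, 3, 5]]),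
  (![![1, 1, 1, 1], ![0, 3, 3, 5], ![0, 1, 2, 4], ![0, 1, 1, 3]], ![![1, 1, 1, 1], ![0, 3, 3, 5], ![0, 0, 1, 1], ![0, 1, 1, 3]]),
  (![![1, 1, 1, 1], ![0, 1, 1, 3], ![0, 0, 1, 1], ![2, 2, 2, 3]], ![![1, 1, 1, 1], ![0, 1, 1, 1], ![0, 0, 1, 1], ![0, 1, 1, 3]]),
  (![![2, 2, 2, 3], ![0, 1, 1, 3], ![0, 0, 1, 1], ![0, 0, 1, 3]], ![![1, 1, 1, 1], ![0, 1, 1, 1], ![0, 0, 1, 1], ![0, 1, 1, 3]]),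
  (![![2, 2, 2, 3], ![0, 1, 1, 3], ![0, 0, 1, 3], ![2, 2, 2, 5]], ![![1, 1, 1, 1], ![0, 1, 1, 1], ![0, 0, 1, 1], ![0, 1, 1, 3]]),
  (![![2, 2, 2, 5], ![0, 1, 1, 3], ![0, 0, 1, 3], ![0, 0, 0, 1]], ![![1, 1, 1, 1], ![0, 1, 1, 1], ![0, 0, 1, 1], ![0, 1, 1, 3]]),
  (![![1, 1, 1, 1], ![0, 1, 1, 1], ![0, 0, 1, 1], ![1, 1, 1, 3]], ![![1, 1, 1, 1], ![0, 1, 1, 3], ![0, 0, 1, 1], ![1, 1, 1, 2]]),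
  (![![1, 1, 1, 1], ![0, 1, 1, 1], ![0, 0, 1, 1], ![1, 1, 1, 3]], ![![1, 1, 1, 2], ![0, 1, 1, 3], ![0, 0, 1, 1], ![0, 0, 1, 3]]),
  (![![1, 1, 1, 1], ![0, 1, 1, 1], ![0, 0, 1, 1], ![1, 1, 1, 3]], ![![1, 1, 1, 2], ![0, 1, 1, 3], ![0, 0, 1, 3], ![0, 0, 0, 1]]),
  (![![1, 1, 1, 3], ![0, 1, 1, 1], ![0, 0, 1, 1], ![0, 0, 1, 2]], ![![1, 1, 1, 1], ![0, 1, 1, 3], ![0, 0, 1, 1], ![0, 0, 2, 3]]),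
  (![![1, 1, 1, 3], ![0, 1, 1, 1], ![0, 0, 1, 1], ![0, 0, 1, 2]], ![![1, 1, 1, 1], ![0, 1, 1, 3], ![0, 0, 2, 3], ![1, 1, 1, 2]]),
  (![![1, 1, 1, 3], ![0, 1, 1, 1], ![0, 0, 1, 1], ![0, 0, 1, 2]], ![![1, 1, 1, 2], ![0, 1, 1, 3], ![0, 0, 2, 3], ![0, 0, 0, 1]]),
  (![![1, 1, 1, 3], ![0, 1, 1, 1], ![0, 0, 1, 2], ![0, 1, 1, 3]], ![![1, 1, 1, 1], ![0, 1, 1, 3], ![0, 0, 1, 1], ![1, 1, 1, 2]]),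
  (![![1, 1, 1, 3], ![0, 1, 1, 1], ![0, 0, 1, 2], ![0, 1, 1, 3]], ![![1, 1, 1, 2], ![0, 1, 1, 3], ![0, 0, 1, 1], ![0, 0, 0, 1]]),
  (![![1, 1, 1, 3], ![0, 1, 1, 3], ![0, 0, 1, 2], ![0, 0, 0, 1]], ![![1, 1, 1, 1], ![0, 1, 1, 3], ![0, 0, 1, 1], ![1, 1, 1, 3]]),
  (![![1, 1, 1, 3], ![0, 1, 1, 3], ![0, 0, 1, 2], ![0, 0, 0, 1]], ![![1, 1, 1, 3], ![0, 1, 1, 3], ![0, 0, 1, 1], ![0, 0, 0, 1]])]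

theorem I1320 (y z : Fin 4 → ℝ) (hy : ∀ i, 0 ≤ y i) (hz : ∀ i, 0 ≤ z i) :
    0 ≤ PExp.ev (env8 (lin c00 y) (fun i => lin c00 z (![1, 3, 2, 0] i))) FI.px := by
  have b0 : chkB 80 361 8 w8 FI
    ![![1, 1, 1, 1], ![0, 1, 1, 1], ![0, 0, 1, 1], ![0, 3, 3, 5]]
    ![![1, 1, 1, 1], ![0, 1, 1, 1], ![0, 0, 1, 1], ![0, 1, 1, 3]] ![1, 3, 2, 0] = true := by
    decide +kernel
  have b1 : chkB 80 361 8 w8 FI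
    ![![1, 1, 1, 1], ![0, 3, 3, 5], ![0, 0, 1, 1], ![0, 1, 2, 4]]
    ![![1, 1, 1, 1], ![0, 1, 1, 1], ![0, 0, 1, 1], ![0, 1, 1, 3]] ![1, 3, 2, 0] = true := by
    decide +kernel
  have b2 : chkB 80 361 8 w8 FI
    ![![1, 1, 1, 1], ![0, 3, 3, 5], ![0, 1, 2, 4], ![0, 1, 1, 3]]
    ![![1, 1, 1, 1], ![0, 1, 1, 1], ![0, 0, 1, 1], ![0, 3, 3, 5]] ![1, 3, 2, 0] = true := by
    decide +kernel
  have b3 : chkB 80 361 8 w8 FI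
    ![![1, 1, 1, 1], ![0, 3, 3, 5], ![0, 1, 2, 4], ![0, 1, 1, 3]]
    ![![1, 1, 1, 1], ![0, 3, 3, 5], ![0, 0, 1, 1], ![0, 1, 1, 3]] ![1, 3, 2, 0] = true := by
    decide +kernel
  have b4 : chkB 80 361 8 w8 FI
    ![![1, 1, 1, 1], ![0, 1, 1, 3], ![0, 0, 1, 1], ![2, 2, 2, 3]]
    ![![1, 1, 1, 1], ![0, 1, 1, 1], ![0, 0, 1, 1], ![0, 1, 1, 3]] ![1, 3, 2, 0] = true := by
    decide +kernel
  have b5 : chkB 80 361 8 w8 FI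
    ![![2, 2, 2, 3], ![0, 1, 1, 3], ![0, 0, 1, 1], ![0, 0, 1, 3]]
    ![![1, 1, 1, 1], ![0, 1, 1, 1], ![0, 0, 1, 1], ![0, 1, 1, 3]] ![1, 3, 2, 0] = true := by
    decide +kernel
  have b6 : chkB 80 361 8 w8 FI
    ![![2, 2, 2, 3], ![0, 1, 1, 3], ![0, 0, 1, 3], ![2, 2, 2, 5]]
    ![![1, 1, 1, 1], ![0, 1, 1, 1], ![0, 0, 1, 1], ![0, 1, 1, 3]] ![1, 3, 2, 0] = true := by
    decide +kernel
  have b7 : chkB 80 361 8 w8 FI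
    ![![2, 2, 2, 5], ![0, 1, 1, 3], ![0, 0, 1, 3], ![0, 0, 0, 1]]
    ![![1, 1, 1, 1], ![0, 1, 1, 1], ![0, 0, 1, 1], ![0, 1, 1, 3]] ![1, 3, 2, 0] = true := by
    decide +kernel
  have b8 : chkB 80 361 8 w8 FI
    ![![1, 1, 1, 1], ![0, 1, 1, 1], ![0, 0, 1, 1], ![1, 1, 1, 3]]
    ![![1, 1, 1, 1], ![0, 1, 1, 3], ![0, 0, 1, 1], ![1, 1, 1, 2]] ![1, 3, 2, 0] = true := by
    decide +kernel
  have b9 : chkB 80 361 8 w8 FI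
    ![![1, 1, 1, 1], ![0, 1, 1, 1], ![0, 0, 1, 1], ![1, 1, 1, 3]]
    ![![1, 1, 1, 2], ![0, 1, 1, 3], ![0, 0, 1, 1], ![0, 0, 1, 3]] ![1, 3, 2, 0] = true := by
    decide +kernel
  have b10 : chkB 80 361 8 w8 FI
    ![![1, 1, 1, 1], ![0, 1, 1, 1], ![0, 0, 1, 1], ![1, 1, 1, 3]]
    ![![1, 1, 1, 2], ![0, 1, 1, 3], ![0, 0, 1, 3], ![0, 0, 0, 1]] ![1, 3, 2, 0] = true := by
    decide +kernel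
  have b11 : chkB 80 361 8 w8 FI
    ![![1, 1, 1, 3], ![0, 1, 1, 1], ![0, 0, 1, 1], ![0, 0, 1, 2]]
    ![![1, 1, 1, 1], ![0, 1, 1, 3], ![0, 0, 1, 1], ![0, 0, 2, 3]] ![1, 3, 2, 0] = true := by
    decide +kernel
  have b12 : chkB 80 361 8 w8 FI
    ![![1, 1, 1, 3], ![0, 1, 1, 1], ![0, 0, 1, 1], ![0, 0, 1, 2]]
    ![![1, 1, 1, 1], ![0, 1, 1, 3], ![0, 0, 2, 3], ![1, 1, 1, 2]] ![1, 3, 2, 0] = true := by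
    decide +kernel
  have b13 : chkB 80 361 8 w8 FI
    ![![1, 1, 1, 3], ![0, 1, 1, 1], ![0, 0, 1, 1], ![0, 0, 1, 2]]
    ![![1, 1, 1, 2], ![0, 1, 1, 3], ![0, 0, 2, 3], ![0, 0, 0, 1]] ![1, 3, 2, 0] = true := by
    decide +kernel
  have b14 : chkB 80 361 8 w8 FI
    ![![1, 1, 1, 3], ![0, 1, 1, 1], ![0, 0, 1, 2], ![0, 1, 1, 3]]
    ![![1, 1, 1, 1], ![0, 1, 1, 3], ![0, 0, 1, 1], ![1, 1, 1, 2]] ![1, 3, 2, 0] = true := by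
    decide +kernel
  have b15 : chkB 80 361 8 w8 FI
    ![![1, 1, 1, 3], ![0, 1, 1, 1], ![0, 0, 1, 2], ![0, 1, 1, 3]]
    ![![1, 1, 1, 2], ![0, 1, 1, 3], ![0, 0, 1, 1], ![0, 0, 0, 1]] ![1, 3, 2, 0] = true := by
    decide +kernel
  have b16 : chkB 80 361 8 w8 FI
    ![![1, 1, 1, 3], ![0, 1, 1, 3], ![0, 0, 1, 2], ![0, 0, 0, 1]]
    ![![1, 1, 1, 1], ![0, 1, 1, 3], ![0, 0, 1, 1], ![1, 1, 1, 3]] ![1, 3, 2, 0] = true := by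
    decide +kernel
  have b17 : chkB 80 361 8 w8 FI
    ![![1, 1, 1, 3], ![0, 1, 1, 3], ![0, 0, 1, 2], ![0, 0, 0, 1]]
    ![![1, 1, 1, 3], ![0, 1, 1, 3], ![0, 0, 1, 1], ![0, 0, 0, 1]] ![1, 3, 2, 0] = true := by
    decide +kernel
  exact coverI _ tr lv (by decide +kernel) (by decide +kernel)
    (aiC b0 <| aiC b1 <| aiC b2 <| aiC b3 <| aiC b4 <| aiC b5 <| aiC b6 <| aiC b7 <| aiC b8 <| aiC b9 <| aiC b10 <| aiC b11 <| aiC b12 <| aiC b13 <| aiC b14 <| aiC b15 <| aiC b16 <| aiC b17 <| aiN _) y z hy hz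

end Vale.Agent.P154.Q4
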