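import Vale.Agent.P154.Q4Out

/-!
# P154: the kernel polynomial `KK`, bihomogeneous of bidegree (6, 6)
-/

namespace Vale.Agent.P154.Q4

open PExp

set_option maxRecDepth 100000

abbrev s0 : PExp := v (nat_lit 0)
abbrev s1 : PExp := v (nat_lit 1)
abbrev s2 : PExp := v (nat_lit 2)
abbrev s3 : PExp := v (nat_lit 3)
def kr0006 : PExp := add (mul s0 (add (mul s0 (add (mul s0 (add (mul s0 (add (mul s0 (add (mul s0 (k (.negSucc (nat_lit 295)))) (add (mul s1 (k (.negSucc (nat_lit 517)))) (add (mul s2 (k (.negSucc (nat_lit 517)))) (mul s3 (k (.ofNat (nat_lit 676)))))))) (add (mul s1 (add (mul s1 (k (.negSucc (nat_lit 287)))) (add (mul s2 (k (.ofNat (nat_lit 6840)))) (mul s3 (k (.ofNat (nat_lit 924))))))) (add (mul s2 (add (mul s2 (k (.negSucc (nat_lit 287)))) (mul s3 (k (.ofNat (nat_lit 924)))))) (mul (pow s3 2) (k (.ofNat (nat_lit 14156)))))))) (add (mul s1 (add (mul s1 (add (mul s1 (k (.ofNat (nat_lit 2168)))) (add (mul s2 (k (.negSucc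 (nat_lit 6683)))) (mul s3 (k (.negSucc (nat_lit 7007))))))) (add (mul s2 (add (mul s2 (k (.negSucc (nat_lit 6683)))) (mul s3 (k (.negSucc (nat_lit 595)))))) (mul (pow s3 2) (k (.ofNat (nat_lit 2232))))))) (add (mul s2 (add (mul s2 (add (mul s2 (k (.ofNat (nat_lit 2168)))) (mul s3 (k (.negSucc (nat_lit 7007)))))) (mul (pow s3 2) (k (.ofNat (nat_lit 2232)))))) (mul (pow s3 3) (k (.ofNat (nat_lit 780)))))))) (add (mul s1 (add (mul s1 (add (mul s1 (add (mul s1 (k (.negSucc (nat_lit 287)))) (add (mul s2 (k (.negSucc (nat_lit 6683)))) (mul s3 (k (.negSucc (nat_lit 7007))))))) (add (mul s2 (add (mul s2 (k (.ofNat (nat_lit 3456)))) (mul s3 (k (.ofNat (nat_lit 27980)))))) (mul (pow s3 2) (k (.ofNat (nat_lit 33412))))))) (add (mul s2 (add (mul s2 (add (mul s2 (k (.negSucc (nat_lit 6683)))) (mul s3 (k (.ofNat (nat_lit 27980)))))) (mul (pow s3 2) (k (.negSucc (nat_lit 28991)))))) (mul (pow s3 3) (k (.ofNat (nat_lit 10836))))))) (add (mul s2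 (add (mul s2 (add (mul s2 (add (mul s2 (k (.negSucc (nat_lit 287)))) (mul s3 (k (.negSucc (nat_lit 7007)))))) (mul (pow s3 2) (k (.ofNat (nat_lit 33412)))))) (mul (pow s3 3) (k (.ofNat (nat_lit 10836)))))) (mul (pow s3 4) (k (.ofNat (nat_lit 24464)))))))) (add (mul s1 (add (mul s1 (add (mul s1 (add (mul s1 (add (mul s1 (k (.negSucc (nat_lit 517)))) (add (mul s2 (k (.ofNat (nat_lit 6840)))) (mul s3 (k (.ofNat (nat_lit 924))))))) (add (mul s2 (add (mul s2 (k (.negSucc (nat_lit 6683)))) (mul s3 (k (.negSucc (nat_lit 595)))))) (mul (pow s3 2) (k (.ofNat (nat_lit 2232))))))) (add (mul s2 (add (mul s2 (add (mul s2 (k (.negSucc (nat_lit 6683)))) (mul s3 (k (.ofNat (nat_lit 27980)))))) (mul (pow s3 2) (k (.negSucc (nat_lit 28991)))))) (mul (pow s3 3) (k (.ofNat (nat_lit 10836))))))) (add (mul s2 (add (mul s2 (add (mul s2 (add (mul s2 (k (.ofNat (nat_lit 6840)))) (mul s3 (k (.negSucc (nat_lit 595)))))) (mul (pow s3 2) (k (.negSucc (nat_lit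 28991)))))) (mul (pow s3 3) (k (.ofNat (nat_lit 4716)))))) (mul (pow s3 4) (k (.negSucc (nat_lit 1267))))))) (add (mul s2 (add (mul s2 (add (mul s2 (add (mul s2 (add (mul s2 (k (.negSucc (nat_lit 517)))) (mul s3 (k (.ofNat (nat_lit 924)))))) (mul (pow s3 2) (k (.ofNat (nat_lit 2232)))))) (mul (pow s3 3) (k (.ofNat (nat_lit 10836)))))) (mul (pow s3 4) (k (.negSucc (nat_lit 1267)))))) (mul (pow s3 5) (k (.ofNat (nat_lit 52)))))))) (add (mul s1 (add (mul s1 (add (mul s1 (add (mul s1 (add (mul s1 (add (mul s1 (k (.negSucc (nat_lit 295)))) (add (mul s2 (k (.negSucc (nat_lit 517)))) (mul s3 (k (.ofNat (nat_lit 676))))))) (add (mul s2 (add (mul s2 (k (.negSucc (nat_lit 287)))) (mul s3 (k (.ofNat (nat_lit 924)))))) (mul (pow s3 2) (k (.ofNat (nat_lit 14156))))))) (add (mul s2 (add (mul s2 (add (mul s2 (k (.ofNat (nat_lit 2168)))) (mul s3 (k (.negSucc (nat_lit 7007)))))) (mul (pow s3 2) (k (.ofNat (nat_lit 2232)))))) (mul (pow s3 3) (k (.ofNat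 (nat_lit 780))))))) (add (mul s2 (add (mul s2 (add (mul s2 (add (mul s2 (k (.negSucc (nat_lit 287)))) (mul s3 (k (.negSucc (nat_lit 7007)))))) (mul (pow s3 2) (k (.ofNat (nat_lit 33412)))))) (mul (pow s3 3) (k (.ofNat (nat_lit 10836)))))) (mul (pow s3 4) (k (.ofNat (nat_lit 24464))))))) (add (mul s2 (add (mul s2 (add (mul s2 (add (mul s2 (add (mul s2 (k (.negSucc (nat_lit 517)))) (mul s3 (k (.ofNat (nat_lit 924)))))) (mul (pow s3 2) (k (.ofNat (nat_lit 2232)))))) (mul (pow s3 3) (k (.ofNat (nat_lit 10836)))))) (mul (pow s3 4) (k (.negSucc (nat_lit 1267)))))) (mul (pow s3 5) (k (.ofNat (nat_lit 52))))))) (add (mul s2 (add (mul s2 (add (mul s2 (add (mul s2 (add (mul s2 (add (mul s2 (k (.negSucc (nat_lit 295)))) (mul s3 (k (.ofNat (nat_lit 676)))))) (mul (pow s3 2) (k (.ofNat (nat_lit 14156)))))) (mul (pow s3 3) (k (.ofNat (nat_lit 780)))))) (mul (pow s3 4) (k (.ofNat (nat_lit 24464)))))) (mul (pow s3 5) (k (.ofNat (nat_lit 52))))))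 (mul (pow s3 6) (k (.ofNat (nat_lit 16176))))))
def kr0015 : PExp := add (mul s0 (add (mul s0 (add (mul s0 (add (mul s0 (add (mul s0 (add (mul s0 (k (.negSucc (nat_lit 517)))) (add (mul s1 (k (.ofNat (nat_lit 18240)))) (add (mul s2 (k (.negSucc (nat_lit 2419)))) (mul s3 (k (.ofNat (nat_lit 7220)))))))) (add (mul s1 (add (mul s1 (k (.negSucc (nat_lit 97829)))) (add (mul s2 (k (.negSucc (nat_lit 11759)))) (mul s3 (k (.ofNat (nat_lit 38288))))))) (add (mul s2 (add (mul s2 (k (.ofNat (nat_lit 1638)))) (mul s3 (k (.negSucc (nat_lit 14673)))))) (mul (pow s3 2) (k (.negSucc (nat_lit 51005)))))))) (add (mul s1 (add (mul s1 (add (mul s1 (k (.ofNat (nat_lit 148540)))) (add (mul s2 (k (.ofNat (nat_lit 12686)))) (mul s3 (k (.ofNat (nat_lit 8716))))))) (add (mul s2 (add (mul s2 (k (.ofNat (nat_lit 13380)))) (mul s3 (k (.ofNat (nat_lit 15314)))))) (mul (pow s3 2) (k (.negSucc (nat_lit 112807))))))) (add (mul s2 (add (mul s2 (add (mul s2 (k (.ofNat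 (nat_lit 18528)))) (mul s3 (k (.negSucc (nat_lit 104501)))))) (mul (pow s3 2) (k (.ofNat (nat_lit 152170)))))) (mul (pow s3 3) (k (.ofNat (nat_lit 74462)))))))) (add (mul s1 (add (mul s1 (add (mul s1 (add (mul s1 (k (.negSucc (nat_lit 97829)))) (add (mul s2 (k (.ofNat (nat_lit 12686)))) (mul s3 (k (.ofNat (nat_lit 8716))))))) (add (mul s2 (add (mul s2 (k (.ofNat (nat_lit 17020)))) (mul s3 (k (.negSucc (nat_lit 101143)))))) (mul (pow s3 2) (k (.ofNat (nat_lit 130604))))))) (add (mul s2 (add (mul s2 (add (mul s2 (k (.ofNat (nat_lit 19402)))) (mul s3 (k (.negSucc (nat_lit 80517)))))) (mul (pow s3 2) (k (.ofNat (nat_lit 40932)))))) (mul (pow s3 3) (k (.negSucc (nat_lit 28009))))))) (add (mul s2 (add (mul s2 (add (mul s2 (add (mul s2 (k (.negSucc (nat_lit 40259)))) (mul s3 (k (.ofNat (nat_lit 143646)))))) (mul (pow s3 2) (k (.ofNat (nat_lit 18210)))))) (mul (pow s3 3) (k (.negSucc (nat_lit 162855)))))) (mul (pow s3 4) (k (.negSucc (nat_lit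 8559)))))))) (add (mul s1 (add (mul s1 (add (mul s1 (add (mul s1 (add (mul s1 (k (.ofNat (nat_lit 18240)))) (add (mul s2 (k (.negSucc (nat_lit 11759)))) (mul s3 (k (.ofNat (nat_lit 38288))))))) (add (mul s2 (add (mul s2 (k (.ofNat (nat_lit 13380)))) (mul s3 (k (.ofNat (nat_lit 15314)))))) (mul (pow s3 2) (k (.negSucc (nat_lit 112807))))))) (add (mul s2 (add (mul s2 (add (mul s2 (k (.ofNat (nat_lit 19402)))) (mul s3 (k (.negSucc (nat_lit 80517)))))) (mul (pow s3 2) (k (.ofNat (nat_lit 40932)))))) (mul (pow s3 3) (k (.negSucc (nat_lit 28009))))))) (add (mul s2 (add (mul s2 (add (mul s2 (add (mul s2 (k (.negSucc (nat_lit 3163)))) (mul s3 (k (.negSucc (nat_lit 24103)))))) (mul (pow s3 2) (k (.ofNat (nat_lit 115408)))))) (mul (pow s3 3) (k (.ofNat (nat_lit 24872)))))) (mul (pow s3 4) (k (.ofNat (nat_lit 37872))))))) (add (mul s2 (add (mul s2 (add (mul s2 (add (mul s2 (add (mul s2 (k (.ofNat (nat_lit 7220)))) (mul s3 (k (.negSucc (nat_lit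 60119)))))) (mul (pow s3 2) (k (.ofNat (nat_lit 37368)))))) (mul (pow s3 3) (k (.negSucc (nat_lit 75581)))))) (mul (pow s3 4) (k (.ofNat (nat_lit 37660)))))) (mul (pow s3 5) (k (.negSucc (nat_lit 4139)))))))) (add (mul s1 (add (mul s1 (add (mul s1 (add (mul s1 (add (mul s1 (add (mul s1 (k (.negSucc (nat_lit 517)))) (add (mul s2 (k (.negSucc (nat_lit 2419)))) (mul s3 (k (.ofNat (nat_lit 7220))))))) (add (mul s2 (add (mul s2 (k (.ofNat (nat_lit 1638)))) (mul s3 (k (.negSucc (nat_lit 14673)))))) (mul (pow s3 2) (k (.negSucc (nat_lit 51005))))))) (add (mul s2 (add (mul s2 (add (mul s2 (k (.ofNat (nat_lit 18528)))) (mul s3 (k (.negSucc (nat_lit 104501)))))) (mul (pow s3 2) (k (.ofNat (nat_lit 152170)))))) (mul (pow s3 3) (k (.ofNat (nat_lit 74462))))))) (add (mul s2 (add (mul s2 (add (mul s2 (add (mul s2 (k (.negSucc (nat_lit 40259)))) (mul s3 (k (.ofNat (nat_lit 143646)))))) (mul (pow s3 2) (k (.ofNat (nat_lit 18210)))))) (mul (pow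 s3 3) (k (.negSucc (nat_lit 162855)))))) (mul (pow s3 4) (k (.negSucc (nat_lit 8559))))))) (add (mul s2 (add (mul s2 (add (mul s2 (add (mul s2 (add (mul s2 (k (.ofNat (nat_lit 7220)))) (mul s3 (k (.negSucc (nat_lit 60119)))))) (mul (pow s3 2) (k (.ofNat (nat_lit 37368)))))) (mul (pow s3 3) (k (.negSucc (nat_lit 75581)))))) (mul (pow s3 4) (k (.ofNat (nat_lit 37660)))))) (mul (pow s3 5) (k (.negSucc (nat_lit 4139))))))) (add (mul s2 (add (mul s2 (add (mul s2 (add (mul s2 (add (mul s2 (add (mul s2 (k (.ofNat (nat_lit 676)))) (mul s3 (k (.negSucc (nat_lit 67135)))))) (mul (pow s3 2) (k (.ofNat (nat_lit 268260)))))) (mul (pow s3 3) (k (.negSucc (nat_lit 341423)))))) (mul (pow s3 4) (k (.ofNat (nat_lit 197172)))))) (mul (pow s3 5) (k (.negSucc (nat_lit 22535)))))) (mul (pow s3 6) (k (.ofNat (nat_lit 52))))))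
def kr0024 : PExp := add (mul s0 (add (mul s0 (add (mul s0 (add (mul s0 (add (mul s0 (add (mul s0 (k (.negSucc (nat_lit 287)))) (add (mul s1 (k (.negSucc (nat_lit 97829)))) (add (mul s2 (k (.ofNat (nat_lit 1638)))) (mul s3 (k (.negSucc (nat_lit 40259)))))))) (add (mul s1 (add (mul s1 (k (.ofNat (nat_lit 597708)))) (add (mul s2 (k (.negSucc (nat_lit 63247)))) (mul s3 (k (.negSucc (nat_lit 235585))))))) (add (mul s2 (add (mul s2 (k (.ofNat (nat_lit 136520)))) (mul s3 (k (.ofNat (nat_lit 38808)))))) (mul (pow s3 2) (k (.ofNat (nat_lit 305860)))))))) (add (mul s1 (add (mul s1 (add (mul s1 (k (.negSucc (nat_lit 1008699)))) (add (mul s2 (k (.ofNat (nat_lit 84180)))) (mul s3 (k (.ofNat (nat_lit 244430))))))) (add (mul s2 (add (mul s2 (k (.ofNat (nat_lit 70040)))) (mul s3 (k (.ofNat (nat_lit 131604)))))) (mul (pow s3 2) (k (.ofNat (nat_lit 345402))))))) (add (mul s2 (add (mul s2 (add (mul s2 (k (.negSucc (nat_lit 304563)))) (mul s3 (k (.ofNat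 (nat_lit 162340)))))) (mul (pow s3 2) (k (.negSucc (nat_lit 436791)))))) (mul (pow s3 3) (k (.negSucc (nat_lit 379129)))))))) (add (mul s1 (add (mul s1 (add (mul s1 (add (mul s1 (k (.ofNat (nat_lit 597708)))) (add (mul s2 (k (.ofNat (nat_lit 84180)))) (mul s3 (k (.ofNat (nat_lit 244430))))))) (add (mul s2 (add (mul s2 (k (.negSucc (nat_lit 343231)))) (mul s3 (k (.negSucc (nat_lit 256599)))))) (mul (pow s3 2) (k (.negSucc (nat_lit 874175))))))) (add (mul s2 (add (mul s2 (add (mul s2 (k (.ofNat (nat_lit 81228)))) (mul s3 (k (.negSucc (nat_lit 37241)))))) (mul (pow s3 2) (k (.ofNat (nat_lit 281134)))))) (mul (pow s3 3) (k (.ofNat (nat_lit 166214))))))) (add (mul s2 (add (mul s2 (add (mul s2 (add (mul s2 (k (.ofNat (nat_lit 305860)))) (mul s3 (k (.negSucc (nat_lit 580169)))))) (mul (pow s3 2) (k (.ofNat (nat_lit 444912)))))) (mul (pow s3 3) (k (.ofNat (nat_lit 179086)))))) (mul (pow s3 4) (k (.ofNat (nat_lit 228140)))))))) (add (mul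 s1 (add (mul s1 (add (mul s1 (add (mul s1 (add (mul s1 (k (.negSucc (nat_lit 97829)))) (add (mul s2 (k (.negSucc (nat_lit 63247)))) (mul s3 (k (.negSucc (nat_lit 235585))))))) (add (mul s2 (add (mul s2 (k (.ofNat (nat_lit 70040)))) (mul s3 (k (.ofNat (nat_lit 131604)))))) (mul (pow s3 2) (k (.ofNat (nat_lit 345402))))))) (add (mul s2 (add (mul s2 (add (mul s2 (k (.ofNat (nat_lit 81228)))) (mul s3 (k (.negSucc (nat_lit 37241)))))) (mul (pow s3 2) (k (.ofNat (nat_lit 281134)))))) (mul (pow s3 3) (k (.ofNat (nat_lit 166214))))))) (add (mul s2 (add (mul s2 (add (mul s2 (add (mul s2 (k (.negSucc (nat_lit 90007)))) (mul s3 (k (.ofNat (nat_lit 40676)))))) (mul (pow s3 2) (k (.negSucc (nat_lit 74083)))))) (mul (pow s3 3) (k (.negSucc (nat_lit 405655)))))) (mul (pow s3 4) (k (.negSucc (nat_lit 124143))))))) (add (mul s2 (add (mul s2 (add (mul s2 (add (mul s2 (add (mul s2 (k (.negSucc (nat_lit 51005)))) (mul s3 (k (.ofNat (nat_lit 236966))))))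 (mul (pow s3 2) (k (.negSucc (nat_lit 218831)))))) (mul (pow s3 3) (k (.ofNat (nat_lit 102302)))))) (mul (pow s3 4) (k (.ofNat (nat_lit 4436)))))) (mul (pow s3 5) (k (.negSucc (nat_lit 8559)))))))) (add (mul s1 (add (mul s1 (add (mul s1 (add (mul s1 (add (mul s1 (add (mul s1 (k (.negSucc (nat_lit 287)))) (add (mul s2 (k (.ofNat (nat_lit 1638)))) (mul s3 (k (.negSucc (nat_lit 40259))))))) (add (mul s2 (add (mul s2 (k (.ofNat (nat_lit 136520)))) (mul s3 (k (.ofNat (nat_lit 38808)))))) (mul (pow s3 2) (k (.ofNat (nat_lit 305860))))))) (add (mul s2 (add (mul s2 (add (mul s2 (k (.negSucc (nat_lit 304563)))) (mul s3 (k (.ofNat (nat_lit 162340)))))) (mul (pow s3 2) (k (.negSucc (nat_lit 436791)))))) (mul (pow s3 3) (k (.negSucc (nat_lit 379129))))))) (add (mul s2 (add (mul s2 (add (mul s2 (add (mul s2 (k (.ofNat (nat_lit 305860)))) (mul s3 (k (.negSucc (nat_lit 580169)))))) (mul (pow s3 2) (k (.ofNat (nat_lit 444912)))))) (mul (pow s3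 3) (k (.ofNat (nat_lit 179086)))))) (mul (pow s3 4) (k (.ofNat (nat_lit 228140))))))) (add (mul s2 (add (mul s2 (add (mul s2 (add (mul s2 (add (mul s2 (k (.negSucc (nat_lit 51005)))) (mul s3 (k (.ofNat (nat_lit 236966)))))) (mul (pow s3 2) (k (.negSucc (nat_lit 218831)))))) (mul (pow s3 3) (k (.ofNat (nat_lit 102302)))))) (mul (pow s3 4) (k (.ofNat (nat_lit 4436)))))) (mul (pow s3 5) (k (.negSucc (nat_lit 8559))))))) (add (mul s2 (add (mul s2 (add (mul s2 (add (mul s2 (add (mul s2 (add (mul s2 (k (.ofNat (nat_lit 14156)))) (mul s3 (k (.ofNat (nat_lit 268260)))))) (mul (pow s3 2) (k (.negSucc (nat_lit 1547831)))))) (mul (pow s3 3) (k (.ofNat (nat_lit 2290584)))))) (mul (pow s3 4) (k (.negSucc (nat_lit 1242039)))))) (mul (pow s3 5) (k (.ofNat (nat_lit 197172)))))) (mul (pow s3 6) (k (.ofNat (nat_lit 24464))))))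
def kr0033 : PExp := add (mul s0 (add (mul s0 (add (mul s0 (add (mul s0 (add (mul s0 (add (mul s0 (k (.ofNat (nat_lit 2168)))) (add (mul s1 (k (.ofNat (nat_lit 148540)))) (add (mul s2 (k (.ofNat (nat_lit 18528)))) (mul s3 (k (.ofNat (nat_lit 18528)))))))) (add (mul s1 (add (mul s1 (k (.negSucc (nat_lit 1008699)))) (add (mul s2 (k (.ofNat (nat_lit 279272)))) (mul s3 (k (.ofNat (nat_lit 279272))))))) (add (mul s2 (add (mul s2 (k (.negSucc (nat_lit 304563)))) (mul s3 (k (.negSucc (nat_lit 72735)))))) (mul (pow s3 2) (k (.negSucc (nat_lit 304563)))))))) (add (mul s1 (add (mul s1 (add (mul s1 (k (.ofNat (nat_lit 1757920)))) (add (mul s2 (k (.negSucc (nat_lit 409991)))) (mul s3 (k (.negSucc (nat_lit 409991))))))) (add (mul s2 (add (mul s2 (k (.negSucc (nat_lit 188215)))) (mul s3 (k (.negSucc (nat_lit 368679)))))) (mul (pow s3 2) (k (.negSucc (nat_lit 188215))))))) (add (mul s2 (add (mul s2 (add (mul s2 (k (.ofNat (nat_lit 531764)))) (mul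 s3 (k (.ofNat (nat_lit 147062)))))) (mul (pow s3 2) (k (.ofNat (nat_lit 147062)))))) (mul (pow s3 3) (k (.ofNat (nat_lit 531764)))))))) (add (mul s1 (add (mul s1 (add (mul s1 (add (mul s1 (k (.negSucc (nat_lit 1008699)))) (add (mul s2 (k (.negSucc (nat_lit 409991)))) (mul s3 (k (.negSucc (nat_lit 409991))))))) (add (mul s2 (add (mul s2 (k (.ofNat (nat_lit 1026424)))) (mul s3 (k (.ofNat (nat_lit 1185888)))))) (mul (pow s3 2) (k (.ofNat (nat_lit 1026424))))))) (add (mul s2 (add (mul s2 (add (mul s2 (k (.negSucc (nat_lit 240581)))) (mul s3 (k (.negSucc (nat_lit 367665)))))) (mul (pow s3 2) (k (.negSucc (nat_lit 367665)))))) (mul (pow s3 3) (k (.negSucc (nat_lit 240581))))))) (add (mul s2 (add (mul s2 (add (mul s2 (add (mul s2 (k (.negSucc (nat_lit 379129)))) (mul s3 (k (.ofNat (nat_lit 538020)))))) (mul (pow s3 2) (k (.negSucc (nat_lit 1010959)))))) (mul (pow s3 3) (k (.ofNat (nat_lit 538020)))))) (mul (pow s3 4) (k (.negSucc (nat_lit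 379129)))))))) (add (mul s1 (add (mul s1 (add (mul s1 (add (mul s1 (add (mul s1 (k (.ofNat (nat_lit 148540)))) (add (mul s2 (k (.ofNat (nat_lit 279272)))) (mul s3 (k (.ofNat (nat_lit 279272))))))) (add (mul s2 (add (mul s2 (k (.negSucc (nat_lit 188215)))) (mul s3 (k (.negSucc (nat_lit 368679)))))) (mul (pow s3 2) (k (.negSucc (nat_lit 188215))))))) (add (mul s2 (add (mul s2 (add (mul s2 (k (.negSucc (nat_lit 240581)))) (mul s3 (k (.negSucc (nat_lit 367665)))))) (mul (pow s3 2) (k (.negSucc (nat_lit 367665)))))) (mul (pow s3 3) (k (.negSucc (nat_lit 240581))))))) (add (mul s2 (add (mul s2 (add (mul s2 (add (mul s2 (k (.ofNat (nat_lit 150436)))) (mul s3 (k (.ofNat (nat_lit 371904)))))) (mul (pow s3 2) (k (.ofNat (nat_lit 270184)))))) (mul (pow s3 3) (k (.ofNat (nat_lit 371904)))))) (mul (pow s3 4) (k (.ofNat (nat_lit 150436))))))) (add (mul s2 (add (mul s2 (add (mul s2 (add (mul s2 (add (mul s2 (k (.ofNat (nat_lit 74462)))) (mul s3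 (k (.negSucc (nat_lit 282561)))))) (mul (pow s3 2) (k (.ofNat (nat_lit 145386)))))) (mul (pow s3 3) (k (.ofNat (nat_lit 145386)))))) (mul (pow s3 4) (k (.negSucc (nat_lit 282561)))))) (mul (pow s3 5) (k (.ofNat (nat_lit 74462)))))))) (add (mul s1 (add (mul s1 (add (mul s1 (add (mul s1 (add (mul s1 (add (mul s1 (k (.ofNat (nat_lit 2168)))) (add (mul s2 (k (.ofNat (nat_lit 18528)))) (mul s3 (k (.ofNat (nat_lit 18528))))))) (add (mul s2 (add (mul s2 (k (.negSucc (nat_lit 304563)))) (mul s3 (k (.negSucc (nat_lit 72735)))))) (mul (pow s3 2) (k (.negSucc (nat_lit 304563))))))) (add (mul s2 (add (mul s2 (add (mul s2 (k (.ofNat (nat_lit 531764)))) (mul s3 (k (.ofNat (nat_lit 147062)))))) (mul (pow s3 2) (k (.ofNat (nat_lit 147062)))))) (mul (pow s3 3) (k (.ofNat (nat_lit 531764))))))) (add (mul s2 (add (mul s2 (add (mul s2 (add (mul s2 (k (.negSucc (nat_lit 379129)))) (mul s3 (k (.ofNat (nat_lit 538020)))))) (mul (pow s3 2) (k (.negSucc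 (nat_lit 1010959)))))) (mul (pow s3 3) (k (.ofNat (nat_lit 538020)))))) (mul (pow s3 4) (k (.negSucc (nat_lit 379129))))))) (add (mul s2 (add (mul s2 (add (mul s2 (add (mul s2 (add (mul s2 (k (.ofNat (nat_lit 74462)))) (mul s3 (k (.negSucc (nat_lit 282561)))))) (mul (pow s3 2) (k (.ofNat (nat_lit 145386)))))) (mul (pow s3 3) (k (.ofNat (nat_lit 145386)))))) (mul (pow s3 4) (k (.negSucc (nat_lit 282561)))))) (mul (pow s3 5) (k (.ofNat (nat_lit 74462))))))) (add (mul s2 (add (mul s2 (add (mul s2 (add (mul s2 (add (mul s2 (add (mul s2 (k (.ofNat (nat_lit 780)))) (mul s3 (k (.negSucc (nat_lit 341423)))))) (mul (pow s3 2) (k (.ofNat (nat_lit 2290584)))))) (mul (pow s3 3) (k (.negSucc (nat_lit 3837791)))))) (mul (pow s3 4) (k (.ofNat (nat_lit 2290584)))))) (mul (pow s3 5) (k (.negSucc (nat_lit 341423)))))) (mul (pow s3 6) (k (.ofNat (nat_lit 780))))))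
def kr0042 : PExp := add (mul s0 (add (mul s0 (add (mul s0 (add (mul s0 (add (mul s0 (add (mul s0 (k (.negSucc (nat_lit 287)))) (add (mul s1 (k (.negSucc (nat_lit 97829)))) (add (mul s2 (k (.negSucc (nat_lit 40259)))) (mul s3 (k (.ofNat (nat_lit 1638)))))))) (add (mul s1 (add (mul s1 (k (.ofNat (nat_lit 597708)))) (add (mul s2 (k (.negSucc (nat_lit 235585)))) (mul s3 (k (.negSucc (nat_lit 63247))))))) (add (mul s2 (add (mul s2 (k (.ofNat (nat_lit 305860)))) (mul s3 (k (.ofNat (nat_lit 38808)))))) (mul (pow s3 2) (k (.ofNat (nat_lit 136520)))))))) (add (mul s1 (add (mul s1 (add (mul s1 (k (.negSucc (nat_lit 1008699)))) (add (mul s2 (k (.ofNat (nat_lit 244430)))) (mul s3 (k (.ofNat (nat_lit 84180))))))) (add (mul s2 (add (mul s2 (k (.ofNat (nat_lit 345402)))) (mul s3 (k (.ofNat (nat_lit 131604)))))) (mul (pow s3 2) (k (.ofNat (nat_lit 70040))))))) (add (mul s2 (add (mul s2 (add (mul s2 (k (.negSucc (nat_lit 379129)))) (mul s3 (k (.negSucc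 (nat_lit 436791)))))) (mul (pow s3 2) (k (.ofNat (nat_lit 162340)))))) (mul (pow s3 3) (k (.negSucc (nat_lit 304563)))))))) (add (mul s1 (add (mul s1 (add (mul s1 (add (mul s1 (k (.ofNat (nat_lit 597708)))) (add (mul s2 (k (.ofNat (nat_lit 244430)))) (mul s3 (k (.ofNat (nat_lit 84180))))))) (add (mul s2 (add (mul s2 (k (.negSucc (nat_lit 874175)))) (mul s3 (k (.negSucc (nat_lit 256599)))))) (mul (pow s3 2) (k (.negSucc (nat_lit 343231))))))) (add (mul s2 (add (mul s2 (add (mul s2 (k (.ofNat (nat_lit 166214)))) (mul s3 (k (.ofNat (nat_lit 281134)))))) (mul (pow s3 2) (k (.negSucc (nat_lit 37241)))))) (mul (pow s3 3) (k (.ofNat (nat_lit 81228))))))) (add (mul s2 (add (mul s2 (add (mul s2 (add (mul s2 (k (.ofNat (nat_lit 228140)))) (mul s3 (k (.ofNat (nat_lit 179086)))))) (mul (pow s3 2) (k (.ofNat (nat_lit 444912)))))) (mul (pow s3 3) (k (.negSucc (nat_lit 580169)))))) (mul (pow s3 4) (k (.ofNat (nat_lit 305860)))))))) (add (mul s1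 (add (mul s1 (add (mul s1 (add (mul s1 (add (mul s1 (k (.negSucc (nat_lit 97829)))) (add (mul s2 (k (.negSucc (nat_lit 235585)))) (mul s3 (k (.negSucc (nat_lit 63247))))))) (add (mul s2 (add (mul s2 (k (.ofNat (nat_lit 345402)))) (mul s3 (k (.ofNat (nat_lit 131604)))))) (mul (pow s3 2) (k (.ofNat (nat_lit 70040))))))) (add (mul s2 (add (mul s2 (add (mul s2 (k (.ofNat (nat_lit 166214)))) (mul s3 (k (.ofNat (nat_lit 281134)))))) (mul (pow s3 2) (k (.negSucc (nat_lit 37241)))))) (mul (pow s3 3) (k (.ofNat (nat_lit 81228))))))) (add (mul s2 (add (mul s2 (add (mul s2 (add (mul s2 (k (.negSucc (nat_lit 124143)))) (mul s3 (k (.negSucc (nat_lit 405655)))))) (mul (pow s3 2) (k (.negSucc (nat_lit 74083)))))) (mul (pow s3 3) (k (.ofNat (nat_lit 40676)))))) (mul (pow s3 4) (k (.negSucc (nat_lit 90007))))))) (add (mul s2 (add (mul s2 (add (mul s2 (add (mul s2 (add (mul s2 (k (.negSucc (nat_lit 8559)))) (mul s3 (k (.ofNat (nat_lit 4436))))))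 (mul (pow s3 2) (k (.ofNat (nat_lit 102302)))))) (mul (pow s3 3) (k (.negSucc (nat_lit 218831)))))) (mul (pow s3 4) (k (.ofNat (nat_lit 236966)))))) (mul (pow s3 5) (k (.negSucc (nat_lit 51005)))))))) (add (mul s1 (add (mul s1 (add (mul s1 (add (mul s1 (add (mul s1 (add (mul s1 (k (.negSucc (nat_lit 287)))) (add (mul s2 (k (.negSucc (nat_lit 40259)))) (mul s3 (k (.ofNat (nat_lit 1638))))))) (add (mul s2 (add (mul s2 (k (.ofNat (nat_lit 305860)))) (mul s3 (k (.ofNat (nat_lit 38808)))))) (mul (pow s3 2) (k (.ofNat (nat_lit 136520))))))) (add (mul s2 (add (mul s2 (add (mul s2 (k (.negSucc (nat_lit 379129)))) (mul s3 (k (.negSucc (nat_lit 436791)))))) (mul (pow s3 2) (k (.ofNat (nat_lit 162340)))))) (mul (pow s3 3) (k (.negSucc (nat_lit 304563))))))) (add (mul s2 (add (mul s2 (add (mul s2 (add (mul s2 (k (.ofNat (nat_lit 228140)))) (mul s3 (k (.ofNat (nat_lit 179086)))))) (mul (pow s3 2) (k (.ofNat (nat_lit 444912)))))) (mul (pow s3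 3) (k (.negSucc (nat_lit 580169)))))) (mul (pow s3 4) (k (.ofNat (nat_lit 305860))))))) (add (mul s2 (add (mul s2 (add (mul s2 (add (mul s2 (add (mul s2 (k (.negSucc (nat_lit 8559)))) (mul s3 (k (.ofNat (nat_lit 4436)))))) (mul (pow s3 2) (k (.ofNat (nat_lit 102302)))))) (mul (pow s3 3) (k (.negSucc (nat_lit 218831)))))) (mul (pow s3 4) (k (.ofNat (nat_lit 236966)))))) (mul (pow s3 5) (k (.negSucc (nat_lit 51005))))))) (add (mul s2 (add (mul s2 (add (mul s2 (add (mul s2 (add (mul s2 (add (mul s2 (k (.ofNat (nat_lit 24464)))) (mul s3 (k (.ofNat (nat_lit 197172)))))) (mul (pow s3 2) (k (.negSucc (nat_lit 1242039)))))) (mul (pow s3 3) (k (.ofNat (nat_lit 2290584)))))) (mul (pow s3 4) (k (.negSucc (nat_lit 1547831)))))) (mul (pow s3 5) (k (.ofNat (nat_lit 268260)))))) (mul (pow s3 6) (k (.ofNat (nat_lit 14156))))))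
def kr0051 : PExp := add (mul s0 (add (mul s0 (add (mul s0 (add (mul s0 (add (mul s0 (add (mul s0 (k (.negSucc (nat_lit 517)))) (add (mul s1 (k (.ofNat (nat_lit 18240)))) (add (mul s2 (k (.ofNat (nat_lit 7220)))) (mul s3 (k (.negSucc (nat_lit 2419)))))))) (add (mul s1 (add (mul s1 (k (.negSucc (nat_lit 97829)))) (add (mul s2 (k (.ofNat (nat_lit 38288)))) (mul s3 (k (.negSucc (nat_lit 11759))))))) (add (mul s2 (add (mul s2 (k (.negSucc (nat_lit 51005)))) (mul s3 (k (.negSucc (nat_lit 14673)))))) (mul (pow s3 2) (k (.ofNat (nat_lit 1638)))))))) (add (mul s1 (add (mul s1 (add (mul s1 (k (.ofNat (nat_lit 148540)))) (add (mul s2 (k (.ofNat (nat_lit 8716)))) (mul s3 (k (.ofNat (nat_lit 12686))))))) (add (mul s2 (add (mul s2 (k (.negSucc (nat_lit 112807)))) (mul s3 (k (.ofNat (nat_lit 15314)))))) (mul (pow s3 2) (k (.ofNat (nat_lit 13380))))))) (add (mul s2 (add (mul s2 (add (mul s2 (k (.ofNat (nat_lit 74462)))) (mul s3 (k (.ofNat (nat_lit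 152170)))))) (mul (pow s3 2) (k (.negSucc (nat_lit 104501)))))) (mul (pow s3 3) (k (.ofNat (nat_lit 18528)))))))) (add (mul s1 (add (mul s1 (add (mul s1 (add (mul s1 (k (.negSucc (nat_lit 97829)))) (add (mul s2 (k (.ofNat (nat_lit 8716)))) (mul s3 (k (.ofNat (nat_lit 12686))))))) (add (mul s2 (add (mul s2 (k (.ofNat (nat_lit 130604)))) (mul s3 (k (.negSucc (nat_lit 101143)))))) (mul (pow s3 2) (k (.ofNat (nat_lit 17020))))))) (add (mul s2 (add (mul s2 (add (mul s2 (k (.negSucc (nat_lit 28009)))) (mul s3 (k (.ofNat (nat_lit 40932)))))) (mul (pow s3 2) (k (.negSucc (nat_lit 80517)))))) (mul (pow s3 3) (k (.ofNat (nat_lit 19402))))))) (add (mul s2 (add (mul s2 (add (mul s2 (add (mul s2 (k (.negSucc (nat_lit 8559)))) (mul s3 (k (.negSucc (nat_lit 162855)))))) (mul (pow s3 2) (k (.ofNat (nat_lit 18210)))))) (mul (pow s3 3) (k (.ofNat (nat_lit 143646)))))) (mul (pow s3 4) (k (.negSucc (nat_lit 40259)))))))) (add (mul s1 (add (mul s1 (add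 (mul s1 (add (mul s1 (add (mul s1 (k (.ofNat (nat_lit 18240)))) (add (mul s2 (k (.ofNat (nat_lit 38288)))) (mul s3 (k (.negSucc (nat_lit 11759))))))) (add (mul s2 (add (mul s2 (k (.negSucc (nat_lit 112807)))) (mul s3 (k (.ofNat (nat_lit 15314)))))) (mul (pow s3 2) (k (.ofNat (nat_lit 13380))))))) (add (mul s2 (add (mul s2 (add (mul s2 (k (.negSucc (nat_lit 28009)))) (mul s3 (k (.ofNat (nat_lit 40932)))))) (mul (pow s3 2) (k (.negSucc (nat_lit 80517)))))) (mul (pow s3 3) (k (.ofNat (nat_lit 19402))))))) (add (mul s2 (add (mul s2 (add (mul s2 (add (mul s2 (k (.ofNat (nat_lit 37872)))) (mul s3 (k (.ofNat (nat_lit 24872)))))) (mul (pow s3 2) (k (.ofNat (nat_lit 115408)))))) (mul (pow s3 3) (k (.negSucc (nat_lit 24103)))))) (mul (pow s3 4) (k (.negSucc (nat_lit 3163))))))) (add (mul s2 (add (mul s2 (add (mul s2 (add (mul s2 (add (mul s2 (k (.negSucc (nat_lit 4139)))) (mul s3 (k (.ofNat (nat_lit 37660)))))) (mul (pow s3 2) (k (.negSucc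 (nat_lit 75581)))))) (mul (pow s3 3) (k (.ofNat (nat_lit 37368)))))) (mul (pow s3 4) (k (.negSucc (nat_lit 60119)))))) (mul (pow s3 5) (k (.ofNat (nat_lit 7220)))))))) (add (mul s1 (add (mul s1 (add (mul s1 (add (mul s1 (add (mul s1 (add (mul s1 (k (.negSucc (nat_lit 517)))) (add (mul s2 (k (.ofNat (nat_lit 7220)))) (mul s3 (k (.negSucc (nat_lit 2419))))))) (add (mul s2 (add (mul s2 (k (.negSucc (nat_lit 51005)))) (mul s3 (k (.negSucc (nat_lit 14673)))))) (mul (pow s3 2) (k (.ofNat (nat_lit 1638))))))) (add (mul s2 (add (mul s2 (add (mul s2 (k (.ofNat (nat_lit 74462)))) (mul s3 (k (.ofNat (nat_lit 152170)))))) (mul (pow s3 2) (k (.negSucc (nat_lit 104501)))))) (mul (pow s3 3) (k (.ofNat (nat_lit 18528))))))) (add (mul s2 (add (mul s2 (add (mul s2 (add (mul s2 (k (.negSucc (nat_lit 8559)))) (mul s3 (k (.negSucc (nat_lit 162855)))))) (mul (pow s3 2) (k (.ofNat (nat_lit 18210)))))) (mul (pow s3 3) (k (.ofNat (nat_lit 143646)))))) (mul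 (pow s3 4) (k (.negSucc (nat_lit 40259))))))) (add (mul s2 (add (mul s2 (add (mul s2 (add (mul s2 (add (mul s2 (k (.negSucc (nat_lit 4139)))) (mul s3 (k (.ofNat (nat_lit 37660)))))) (mul (pow s3 2) (k (.negSucc (nat_lit 75581)))))) (mul (pow s3 3) (k (.ofNat (nat_lit 37368)))))) (mul (pow s3 4) (k (.negSucc (nat_lit 60119)))))) (mul (pow s3 5) (k (.ofNat (nat_lit 7220))))))) (add (mul s2 (add (mul s2 (add (mul s2 (add (mul s2 (add (mul s2 (add (mul s2 (k (.ofNat (nat_lit 52)))) (mul s3 (k (.negSucc (nat_lit 22535)))))) (mul (pow s3 2) (k (.ofNat (nat_lit 197172)))))) (mul (pow s3 3) (k (.negSucc (nat_lit 341423)))))) (mul (pow s3 4) (k (.ofNat (nat_lit 268260)))))) (mul (pow s3 5) (k (.negSucc (nat_lit 67135)))))) (mul (pow s3 6) (k (.ofNat (nat_lit 676))))))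
def kr0060 : PExp := add (mul s0 (add (mul s0 (add (mul s0 (add (mul s0 (add (mul s0 (add (mul s0 (k (.negSucc (nat_lit 295)))) (add (mul s1 (k (.negSucc (nat_lit 517)))) (add (mul s2 (k (.ofNat (nat_lit 676)))) (mul s3 (k (.negSucc (nat_lit 517)))))))) (add (mul s1 (add (mul s1 (k (.negSucc (nat_lit 287)))) (add (mul s2 (k (.ofNat (nat_lit 924)))) (mul s3 (k (.ofNat (nat_lit 6840))))))) (add (mul s2 (add (mul s2 (k (.ofNat (nat_lit 14156)))) (mul s3 (k (.ofNat (nat_lit 924)))))) (mul (pow s3 2) (k (.negSucc (nat_lit 287)))))))) (add (mul s1 (add (mul s1 (add (mul s1 (k (.ofNat (nat_lit 2168)))) (add (mul s2 (k (.negSucc (nat_lit 7007)))) (mul s3 (k (.negSucc (nat_lit 6683))))))) (add (mul s2 (add (mul s2 (k (.ofNat (nat_lit 2232)))) (mul s3 (k (.negSucc (nat_lit 595)))))) (mul (pow s3 2) (k (.negSucc (nat_lit 6683))))))) (add (mul s2 (add (mul s2 (add (mul s2 (k (.ofNat (nat_lit 780)))) (mul s3 (k (.ofNat (nat_lit 2232)))))) (mul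 (pow s3 2) (k (.negSucc (nat_lit 7007)))))) (mul (pow s3 3) (k (.ofNat (nat_lit 2168)))))))) (add (mul s1 (add (mul s1 (add (mul s1 (add (mul s1 (k (.negSucc (nat_lit 287)))) (add (mul s2 (k (.negSucc (nat_lit 7007)))) (mul s3 (k (.negSucc (nat_lit 6683))))))) (add (mul s2 (add (mul s2 (k (.ofNat (nat_lit 33412)))) (mul s3 (k (.ofNat (nat_lit 27980)))))) (mul (pow s3 2) (k (.ofNat (nat_lit 3456))))))) (add (mul s2 (add (mul s2 (add (mul s2 (k (.ofNat (nat_lit 10836)))) (mul s3 (k (.negSucc (nat_lit 28991)))))) (mul (pow s3 2) (k (.ofNat (nat_lit 27980)))))) (mul (pow s3 3) (k (.negSucc (nat_lit 6683))))))) (add (mul s2 (add (mul s2 (add (mul s2 (add (mul s2 (k (.ofNat (nat_lit 24464)))) (mul s3 (k (.ofNat (nat_lit 10836)))))) (mul (pow s3 2) (k (.ofNat (nat_lit 33412)))))) (mul (pow s3 3) (k (.negSucc (nat_lit 7007)))))) (mul (pow s3 4) (k (.negSucc (nat_lit 287)))))))) (add (mul s1 (add (mul s1 (add (mul s1 (add (mul s1 (add (mul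 s1 (k (.negSucc (nat_lit 517)))) (add (mul s2 (k (.ofNat (nat_lit 924)))) (mul s3 (k (.ofNat (nat_lit 6840))))))) (add (mul s2 (add (mul s2 (k (.ofNat (nat_lit 2232)))) (mul s3 (k (.negSucc (nat_lit 595)))))) (mul (pow s3 2) (k (.negSucc (nat_lit 6683))))))) (add (mul s2 (add (mul s2 (add (mul s2 (k (.ofNat (nat_lit 10836)))) (mul s3 (k (.negSucc (nat_lit 28991)))))) (mul (pow s3 2) (k (.ofNat (nat_lit 27980)))))) (mul (pow s3 3) (k (.negSucc (nat_lit 6683))))))) (add (mul s2 (add (mul s2 (add (mul s2 (add (mul s2 (k (.negSucc (nat_lit 1267)))) (mul s3 (k (.ofNat (nat_lit 4716)))))) (mul (pow s3 2) (k (.negSucc (nat_lit 28991)))))) (mul (pow s3 3) (k (.negSucc (nat_lit 595)))))) (mul (pow s3 4) (k (.ofNat (nat_lit 6840))))))) (add (mul s2 (add (mul s2 (add (mul s2 (add (mul s2 (add (mul s2 (k (.ofNat (nat_lit 52)))) (mul s3 (k (.negSucc (nat_lit 1267)))))) (mul (pow s3 2) (k (.ofNat (nat_lit 10836)))))) (mul (pow s3 3) (k (.ofNat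 (nat_lit 2232)))))) (mul (pow s3 4) (k (.ofNat (nat_lit 924)))))) (mul (pow s3 5) (k (.negSucc (nat_lit 517)))))))) (add (mul s1 (add (mul s1 (add (mul s1 (add (mul s1 (add (mul s1 (add (mul s1 (k (.negSucc (nat_lit 295)))) (add (mul s2 (k (.ofNat (nat_lit 676)))) (mul s3 (k (.negSucc (nat_lit 517))))))) (add (mul s2 (add (mul s2 (k (.ofNat (nat_lit 14156)))) (mul s3 (k (.ofNat (nat_lit 924)))))) (mul (pow s3 2) (k (.negSucc (nat_lit 287))))))) (add (mul s2 (add (mul s2 (add (mul s2 (k (.ofNat (nat_lit 780)))) (mul s3 (k (.ofNat (nat_lit 2232)))))) (mul (pow s3 2) (k (.negSucc (nat_lit 7007)))))) (mul (pow s3 3) (k (.ofNat (nat_lit 2168))))))) (add (mul s2 (add (mul s2 (add (mul s2 (add (mul s2 (k (.ofNat (nat_lit 24464)))) (mul s3 (k (.ofNat (nat_lit 10836)))))) (mul (pow s3 2) (k (.ofNat (nat_lit 33412)))))) (mul (pow s3 3) (k (.negSucc (nat_lit 7007)))))) (mul (pow s3 4) (k (.negSucc (nat_lit 287))))))) (add (mul s2 (add (mul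 s2 (add (mul s2 (add (mul s2 (add (mul s2 (k (.ofNat (nat_lit 52)))) (mul s3 (k (.negSucc (nat_lit 1267)))))) (mul (pow s3 2) (k (.ofNat (nat_lit 10836)))))) (mul (pow s3 3) (k (.ofNat (nat_lit 2232)))))) (mul (pow s3 4) (k (.ofNat (nat_lit 924)))))) (mul (pow s3 5) (k (.negSucc (nat_lit 517))))))) (add (mul s2 (add (mul s2 (add (mul s2 (add (mul s2 (add (mul s2 (add (mul s2 (k (.ofNat (nat_lit 16176)))) (mul s3 (k (.ofNat (nat_lit 52)))))) (mul (pow s3 2) (k (.ofNat (nat_lit 24464)))))) (mul (pow s3 3) (k (.ofNat (nat_lit 780)))))) (mul (pow s3 4) (k (.ofNat (nat_lit 14156)))))) (mul (pow s3 5) (k (.ofNat (nat_lit 676)))))) (mul (pow s3 6) (k (.negSucc (nat_lit 295))))))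
def kr0105 : PExp := add (mul s0 (add (mul s0 (add (mul s0 (add (mul s0 (add (mul s0 (add (mul s0 (k (.negSucc (nat_lit 517)))) (add (mul s1 (k (.negSucc (nat_lit 2419)))) (add (mul s2 (k (.ofNat (nat_lit 18240)))) (mul s3 (k (.ofNat (nat_lit 7220)))))))) (add (mul s1 (add (mul s1 (k (.ofNat (nat_lit 1638)))) (add (mul s2 (k (.negSucc (nat_lit 11759)))) (mul s3 (k (.negSucc (nat_lit 14673))))))) (add (mul s2 (add (mul s2 (k (.negSucc (nat_lit 97829)))) (mul s3 (k (.ofNat (nat_lit 38288)))))) (mul (pow s3 2) (k (.negSucc (nat_lit 51005)))))))) (add (mul s1 (add (mul s1 (add (mul s1 (k (.ofNat (nat_lit 18528)))) (add (mul s2 (k (.ofNat (nat_lit 13380)))) (mul s3 (k (.negSucc (nat_lit 104501))))))) (add (mul s2 (add (mul s2 (k (.ofNat (nat_lit 12686)))) (mul s3 (k (.ofNat (nat_lit 15314)))))) (mul (pow s3 2) (k (.ofNat (nat_lit 152170))))))) (add (mul s2 (add (mul s2 (add (mul s2 (k (.ofNat (nat_lit 148540)))) (mul s3 (k (.ofNat (nat_lit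 8716)))))) (mul (pow s3 2) (k (.negSucc (nat_lit 112807)))))) (mul (pow s3 3) (k (.ofNat (nat_lit 74462)))))))) (add (mul s1 (add (mul s1 (add (mul s1 (add (mul s1 (k (.negSucc (nat_lit 40259)))) (add (mul s2 (k (.ofNat (nat_lit 19402)))) (mul s3 (k (.ofNat (nat_lit 143646))))))) (add (mul s2 (add (mul s2 (k (.ofNat (nat_lit 17020)))) (mul s3 (k (.negSucc (nat_lit 80517)))))) (mul (pow s3 2) (k (.ofNat (nat_lit 18210))))))) (add (mul s2 (add (mul s2 (add (mul s2 (k (.ofNat (nat_lit 12686)))) (mul s3 (k (.negSucc (nat_lit 101143)))))) (mul (pow s3 2) (k (.ofNat (nat_lit 40932)))))) (mul (pow s3 3) (k (.negSucc (nat_lit 162855))))))) (add (mul s2 (add (mul s2 (add (mul s2 (add (mul s2 (k (.negSucc (nat_lit 97829)))) (mul s3 (k (.ofNat (nat_lit 8716)))))) (mul (pow s3 2) (k (.ofNat (nat_lit 130604)))))) (mul (pow s3 3) (k (.negSucc (nat_lit 28009)))))) (mul (pow s3 4) (k (.negSucc (nat_lit 8559)))))))) (add (mul s1 (add (mul s1 (add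 (mul s1 (add (mul s1 (add (mul s1 (k (.ofNat (nat_lit 7220)))) (add (mul s2 (k (.negSucc (nat_lit 3163)))) (mul s3 (k (.negSucc (nat_lit 60119))))))) (add (mul s2 (add (mul s2 (k (.ofNat (nat_lit 19402)))) (mul s3 (k (.negSucc (nat_lit 24103)))))) (mul (pow s3 2) (k (.ofNat (nat_lit 37368))))))) (add (mul s2 (add (mul s2 (add (mul s2 (k (.ofNat (nat_lit 13380)))) (mul s3 (k (.negSucc (nat_lit 80517)))))) (mul (pow s3 2) (k (.ofNat (nat_lit 115408)))))) (mul (pow s3 3) (k (.negSucc (nat_lit 75581))))))) (add (mul s2 (add (mul s2 (add (mul s2 (add (mul s2 (k (.negSucc (nat_lit 11759)))) (mul s3 (k (.ofNat (nat_lit 15314)))))) (mul (pow s3 2) (k (.ofNat (nat_lit 40932)))))) (mul (pow s3 3) (k (.ofNat (nat_lit 24872)))))) (mul (pow s3 4) (k (.ofNat (nat_lit 37660))))))) (add (mul s2 (add (mul s2 (add (mul s2 (add (mul s2 (add (mul s2 (k (.ofNat (nat_lit 18240)))) (mul s3 (k (.ofNat (nat_lit 38288)))))) (mul (pow s3 2) (k (.negSucc (nat_lit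 112807)))))) (mul (pow s3 3) (k (.negSucc (nat_lit 28009)))))) (mul (pow s3 4) (k (.ofNat (nat_lit 37872)))))) (mul (pow s3 5) (k (.negSucc (nat_lit 4139)))))))) (add (mul s1 (add (mul s1 (add (mul s1 (add (mul s1 (add (mul s1 (add (mul s1 (k (.ofNat (nat_lit 676)))) (add (mul s2 (k (.ofNat (nat_lit 7220)))) (mul s3 (k (.negSucc (nat_lit 67135))))))) (add (mul s2 (add (mul s2 (k (.negSucc (nat_lit 40259)))) (mul s3 (k (.negSucc (nat_lit 60119)))))) (mul (pow s3 2) (k (.ofNat (nat_lit 268260))))))) (add (mul s2 (add (mul s2 (add (mul s2 (k (.ofNat (nat_lit 18528)))) (mul s3 (k (.ofNat (nat_lit 143646)))))) (mul (pow s3 2) (k (.ofNat (nat_lit 37368)))))) (mul (pow s3 3) (k (.negSucc (nat_lit 341423))))))) (add (mul s2 (add (mul s2 (add (mul s2 (add (mul s2 (k (.ofNat (nat_lit 1638)))) (mul s3 (k (.negSucc (nat_lit 104501)))))) (mul (pow s3 2) (k (.ofNat (nat_lit 18210)))))) (mul (pow s3 3) (k (.negSucc (nat_lit 75581)))))) (mul (pow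 s3 4) (k (.ofNat (nat_lit 197172))))))) (add (mul s2 (add (mul s2 (add (mul s2 (add (mul s2 (add (mul s2 (k (.negSucc (nat_lit 2419)))) (mul s3 (k (.negSucc (nat_lit 14673)))))) (mul (pow s3 2) (k (.ofNat (nat_lit 152170)))))) (mul (pow s3 3) (k (.negSucc (nat_lit 162855)))))) (mul (pow s3 4) (k (.ofNat (nat_lit 37660)))))) (mul (pow s3 5) (k (.negSucc (nat_lit 22535))))))) (add (mul s2 (add (mul s2 (add (mul s2 (add (mul s2 (add (mul s2 (add (mul s2 (k (.negSucc (nat_lit 517)))) (mul s3 (k (.ofNat (nat_lit 7220)))))) (mul (pow s3 2) (k (.negSucc (nat_lit 51005)))))) (mul (pow s3 3) (k (.ofNat (nat_lit 74462)))))) (mul (pow s3 4) (k (.negSucc (nat_lit 8559)))))) (mul (pow s3 5) (k (.negSucc (nat_lit 4139)))))) (mul (pow s3 6) (k (.ofNat (nat_lit 52))))))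
def kr0114 : PExp := add (mul s0 (add (mul s0 (add (mul s0 (add (mul s0 (add (mul s0 (add (mul s0 (k (.ofNat (nat_lit 6840)))) (add (mul s1 (k (.negSucc (nat_lit 11759)))) (add (mul s2 (k (.negSucc (nat_lit 11759)))) (mul s3 (k (.negSucc (nat_lit 3163)))))))) (add (mul s1 (add (mul s1 (k (.negSucc (nat_lit 63247)))) (add (mul s2 (k (.ofNat (nat_lit 229388)))) (mul s3 (k (.ofNat (nat_lit 79606))))))) (add (mul s2 (add (mul s2 (k (.negSucc (nat_lit 63247)))) (mul s3 (k (.ofNat (nat_lit 79606)))))) (mul (pow s3 2) (k (.negSucc (nat_lit 90007)))))))) (add (mul s1 (add (mul s1 (add (mul s1 (k (.ofNat (nat_lit 279272)))) (add (mul s2 (k (.negSucc (nat_lit 515387)))) (mul s3 (k (.ofNat (nat_lit 74158))))))) (add (mul s2 (add (mul s2 (k (.negSucc (nat_lit 515387)))) (mul s3 (k (.ofNat (nat_lit 436)))))) (mul (pow s3 2) (k (.negSucc (nat_lit 171619))))))) (add (mul s2 (add (mul s2 (add (mul s2 (k (.ofNat (nat_lit 279272)))) (mul s3 (k (.ofNat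 (nat_lit 74158)))))) (mul (pow s3 2) (k (.negSucc (nat_lit 171619)))))) (mul (pow s3 3) (k (.ofNat (nat_lit 150436)))))))) (add (mul s1 (add (mul s1 (add (mul s1 (add (mul s1 (k (.negSucc (nat_lit 235585)))) (add (mul s2 (k (.ofNat (nat_lit 377650)))) (mul s3 (k (.negSucc (nat_lit 363083))))))) (add (mul s2 (add (mul s2 (k (.ofNat (nat_lit 308164)))) (mul s3 (k (.ofNat (nat_lit 162200)))))) (mul (pow s3 2) (k (.ofNat (nat_lit 207398))))))) (add (mul s2 (add (mul s2 (add (mul s2 (k (.ofNat (nat_lit 377650)))) (mul s3 (k (.ofNat (nat_lit 162200)))))) (mul (pow s3 2) (k (.negSucc (nat_lit 38315)))))) (mul (pow s3 3) (k (.ofNat (nat_lit 85490))))))) (add (mul s2 (add (mul s2 (add (mul s2 (add (mul s2 (k (.negSucc (nat_lit 235585)))) (mul s3 (k (.negSucc (nat_lit 363083)))))) (mul (pow s3 2) (k (.ofNat (nat_lit 207398)))))) (mul (pow s3 3) (k (.ofNat (nat_lit 85490)))))) (mul (pow s3 4) (k (.negSucc (nat_lit 124143)))))))) (add (mul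 s1 (add (mul s1 (add (mul s1 (add (mul s1 (add (mul s1 (k (.ofNat (nat_lit 38288)))) (add (mul s2 (k (.ofNat (nat_lit 79606)))) (mul s3 (k (.ofNat (nat_lit 41104))))))) (add (mul s2 (add (mul s2 (k (.negSucc (nat_lit 279931)))) (mul s3 (k (.negSucc (nat_lit 180055)))))) (mul (pow s3 2) (k (.ofNat (nat_lit 392832))))))) (add (mul s2 (add (mul s2 (add (mul s2 (k (.negSucc (nat_lit 279931)))) (mul s3 (k (.ofNat (nat_lit 659104)))))) (mul (pow s3 2) (k (.negSucc (nat_lit 458507)))))) (mul (pow s3 3) (k (.negSucc (nat_lit 244513))))))) (add (mul s2 (add (mul s2 (add (mul s2 (add (mul s2 (k (.ofNat (nat_lit 79606)))) (mul s3 (k (.negSucc (nat_lit 180055)))))) (mul (pow s3 2) (k (.negSucc (nat_lit 458507)))))) (mul (pow s3 3) (k (.ofNat (nat_lit 349768)))))) (mul (pow s3 4) (k (.negSucc (nat_lit 12207))))))) (add (mul s2 (add (mul s2 (add (mul s2 (add (mul s2 (add (mul s2 (k (.ofNat (nat_lit 38288)))) (mul s3 (k (.ofNat (nat_lit 41104))))))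 (mul (pow s3 2) (k (.ofNat (nat_lit 392832)))))) (mul (pow s3 3) (k (.negSucc (nat_lit 244513)))))) (mul (pow s3 4) (k (.negSucc (nat_lit 12207)))))) (mul (pow s3 5) (k (.ofNat (nat_lit 37872)))))))) (add (mul s1 (add (mul s1 (add (mul s1 (add (mul s1 (add (mul s1 (add (mul s1 (k (.ofNat (nat_lit 924)))) (add (mul s2 (k (.negSucc (nat_lit 14673)))) (mul s3 (k (.negSucc (nat_lit 60119))))))) (add (mul s2 (add (mul s2 (k (.ofNat (nat_lit 38808)))) (mul s3 (k (.ofNat (nat_lit 101284)))))) (mul (pow s3 2) (k (.ofNat (nat_lit 236966))))))) (add (mul s2 (add (mul s2 (add (mul s2 (k (.negSucc (nat_lit 72735)))) (mul s3 (k (.ofNat (nat_lit 202882)))))) (mul (pow s3 2) (k (.negSucc (nat_lit 509659)))))) (mul (pow s3 3) (k (.negSucc (nat_lit 282561))))))) (add (mul s2 (add (mul s2 (add (mul s2 (add (mul s2 (k (.ofNat (nat_lit 38808)))) (mul s3 (k (.ofNat (nat_lit 202882)))))) (mul (pow s3 2) (k (.negSucc (nat_lit 789247)))))) (mul (pow s3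 3) (k (.ofNat (nat_lit 1004130)))))) (mul (pow s3 4) (k (.ofNat (nat_lit 4436))))))) (add (mul s2 (add (mul s2 (add (mul s2 (add (mul s2 (add (mul s2 (k (.negSucc (nat_lit 14673)))) (mul s3 (k (.ofNat (nat_lit 101284)))))) (mul (pow s3 2) (k (.negSucc (nat_lit 509659)))))) (mul (pow s3 3) (k (.ofNat (nat_lit 1004130)))))) (mul (pow s3 4) (k (.negSucc (nat_lit 631871)))))) (mul (pow s3 5) (k (.ofNat (nat_lit 37660))))))) (add (mul s2 (add (mul s2 (add (mul s2 (add (mul s2 (add (mul s2 (add (mul s2 (k (.ofNat (nat_lit 924)))) (mul s3 (k (.negSucc (nat_lit 60119)))))) (mul (pow s3 2) (k (.ofNat (nat_lit 236966)))))) (mul (pow s3 3) (k (.negSucc (nat_lit 282561)))))) (mul (pow s3 4) (k (.ofNat (nat_lit 4436)))))) (mul (pow s3 5) (k (.ofNat (nat_lit 37660)))))) (mul (pow s3 6) (k (.negSucc (nat_lit 1267))))))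
def kr0123 : PExp := add (mul s0 (add (mul s0 (add (mul s0 (add (mul s0 (add (mul s0 (add (mul s0 (k (.negSucc (nat_lit 6683)))) (add (mul s1 (k (.ofNat (nat_lit 12686)))) (add (mul s2 (k (.ofNat (nat_lit 13380)))) (mul s3 (k (.ofNat (nat_lit 19402)))))))) (add (mul s1 (add (mul s1 (k (.ofNat (nat_lit 84180)))) (add (mul s2 (k (.negSucc (nat_lit 515387)))) (mul s3 (k (.ofNat (nat_lit 377650))))))) (add (mul s2 (add (mul s2 (k (.ofNat (nat_lit 70040)))) (mul s3 (k (.negSucc (nat_lit 279931)))))) (mul (pow s3 2) (k (.ofNat (nat_lit 81228)))))))) (add (mul s1 (add (mul s1 (add (mul s1 (k (.negSucc (nat_lit 409991)))) (add (mul s2 (k (.ofNat (nat_lit 589078)))) (mul s3 (k (.ofNat (nat_lit 239942))))))) (add (mul s2 (add (mul s2 (k (.ofNat (nat_lit 1381968)))) (mul s3 (k (.negSucc (nat_lit 223871)))))) (mul (pow s3 2) (k (.negSucc (nat_lit 1612883))))))) (add (mul s2 (add (mul s2 (add (mul s2 (k (.negSucc (nat_lit 188215)))) (mul s3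 (k (.negSucc (nat_lit 1394593)))))) (mul (pow s3 2) (k (.ofNat (nat_lit 2210688)))))) (mul (pow s3 3) (k (.negSucc (nat_lit 240581)))))))) (add (mul s1 (add (mul s1 (add (mul s1 (add (mul s1 (k (.ofNat (nat_lit 244430)))) (add (mul s2 (k (.ofNat (nat_lit 239942)))) (mul s3 (k (.negSucc (nat_lit 257311))))))) (add (mul s2 (add (mul s2 (k (.negSucc (nat_lit 774799)))) (mul s3 (k (.negSucc (nat_lit 1001959)))))) (mul (pow s3 2) (k (.ofNat (nat_lit 1088034))))))) (add (mul s2 (add (mul s2 (add (mul s2 (k (.negSucc (nat_lit 1612883)))) (mul s3 (k (.ofNat (nat_lit 2200456)))))) (mul (pow s3 2) (k (.negSucc (nat_lit 1196751)))))) (mul (pow s3 3) (k (.ofNat (nat_lit 1172184))))))) (add (mul s2 (add (mul s2 (add (mul s2 (add (mul s2 (k (.ofNat (nat_lit 345402)))) (mul s3 (k (.ofNat (nat_lit 779604)))))) (mul (pow s3 2) (k (.negSucc (nat_lit 89533)))))) (mul (pow s3 3) (k (.negSucc (nat_lit 1476847)))))) (mul (pow s3 4) (k (.ofNat (nat_lit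 166214)))))))) (add (mul s1 (add (mul s1 (add (mul s1 (add (mul s1 (add (mul s1 (k (.ofNat (nat_lit 8716)))) (add (mul s2 (k (.ofNat (nat_lit 74158)))) (mul s3 (k (.negSucc (nat_lit 363083))))))) (add (mul s2 (add (mul s2 (k (.negSucc (nat_lit 1394593)))) (mul s3 (k (.ofNat (nat_lit 708250)))))) (mul (pow s3 2) (k (.ofNat (nat_lit 779604))))))) (add (mul s2 (add (mul s2 (add (mul s2 (k (.ofNat (nat_lit 2210688)))) (mul s3 (k (.negSucc (nat_lit 156185)))))) (mul (pow s3 2) (k (.negSucc (nat_lit 109261)))))) (mul (pow s3 3) (k (.negSucc (nat_lit 1476847))))))) (add (mul s2 (add (mul s2 (add (mul s2 (add (mul s2 (k (.negSucc (nat_lit 171619)))) (mul s3 (k (.negSucc (nat_lit 985891)))))) (mul (pow s3 2) (k (.ofNat (nat_lit 90034)))))) (mul (pow s3 3) (k (.ofNat (nat_lit 590038)))))) (mul (pow s3 4) (k (.ofNat (nat_lit 85490))))))) (add (mul s2 (add (mul s2 (add (mul s2 (add (mul s2 (add (mul s2 (k (.negSucc (nat_lit 112807)))) (mul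 s3 (k (.ofNat (nat_lit 392832)))))) (mul (pow s3 2) (k (.negSucc (nat_lit 1718075)))))) (mul (pow s3 3) (k (.ofNat (nat_lit 1730576)))))) (mul (pow s3 4) (k (.negSucc (nat_lit 244513)))))) (mul (pow s3 5) (k (.negSucc (nat_lit 28009)))))))) (add (mul s1 (add (mul s1 (add (mul s1 (add (mul s1 (add (mul s1 (add (mul s1 (k (.negSucc (nat_lit 7007)))) (add (mul s2 (k (.negSucc (nat_lit 104501)))) (mul s3 (k (.ofNat (nat_lit 143646))))))) (add (mul s2 (add (mul s2 (k (.ofNat (nat_lit 162340)))) (mul s3 (k (.ofNat (nat_lit 202882)))))) (mul (pow s3 2) (k (.negSucc (nat_lit 580169))))))) (add (mul s2 (add (mul s2 (add (mul s2 (k (.ofNat (nat_lit 147062)))) (mul s3 (k (.ofNat (nat_lit 80396)))))) (mul (pow s3 2) (k (.negSucc (nat_lit 20809)))))) (mul (pow s3 3) (k (.ofNat (nat_lit 538020))))))) (add (mul s2 (add (mul s2 (add (mul s2 (add (mul s2 (k (.negSucc (nat_lit 436791)))) (mul s3 (k (.negSucc (nat_lit 20809)))))) (mul (pow s3 2) (k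 (.ofNat (nat_lit 294672)))))) (mul (pow s3 3) (k (.negSucc (nat_lit 800143)))))) (mul (pow s3 4) (k (.ofNat (nat_lit 179086))))))) (add (mul s2 (add (mul s2 (add (mul s2 (add (mul s2 (add (mul s2 (k (.ofNat (nat_lit 152170)))) (mul s3 (k (.negSucc (nat_lit 509659)))))) (mul (pow s3 2) (k (.ofNat (nat_lit 2030976)))))) (mul (pow s3 3) (k (.negSucc (nat_lit 2165303)))))) (mul (pow s3 4) (k (.ofNat (nat_lit 1004130)))))) (mul (pow s3 5) (k (.negSucc (nat_lit 162855))))))) (add (mul s2 (add (mul s2 (add (mul s2 (add (mul s2 (add (mul s2 (add (mul s2 (k (.ofNat (nat_lit 2232)))) (mul s3 (k (.ofNat (nat_lit 37368)))))) (mul (pow s3 2) (k (.negSucc (nat_lit 218831)))))) (mul (pow s3 3) (k (.ofNat (nat_lit 145386)))))) (mul (pow s3 4) (k (.ofNat (nat_lit 102302)))))) (mul (pow s3 5) (k (.negSucc (nat_lit 75581)))))) (mul (pow s3 6) (k (.ofNat (nat_lit 10836))))))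
def kr0132 : PExp := add (mul s0 (add (mul s0 (add (mul s0 (add (mul s0 (add (mul s0 (add (mul s0 (k (.negSucc (nat_lit 6683)))) (add (mul s1 (k (.ofNat (nat_lit 12686)))) (add (mul s2 (k (.ofNat (nat_lit 19402)))) (mul s3 (k (.ofNat (nat_lit 13380)))))))) (add (mul s1 (add (mul s1 (k (.ofNat (nat_lit 84180)))) (add (mul s2 (k (.ofNat (nat_lit 377650)))) (mul s3 (k (.negSucc (nat_lit 515387))))))) (add (mul s2 (add (mul s2 (k (.ofNat (nat_lit 81228)))) (mul s3 (k (.negSucc (nat_lit 279931)))))) (mul (pow s3 2) (k (.ofNat (nat_lit 70040)))))))) (add (mul s1 (add (mul s1 (add (mul s1 (k (.negSucc (nat_lit 409991)))) (add (mul s2 (k (.ofNat (nat_lit 239942)))) (mul s3 (k (.ofNat (nat_lit 589078))))))) (add (mul s2 (add (mul s2 (k (.negSucc (nat_lit 1612883)))) (mul s3 (k (.negSucc (nat_lit 223871)))))) (mul (pow s3 2) (k (.ofNat (nat_lit 1381968))))))) (add (mul s2 (add (mul s2 (add (mul s2 (k (.negSucc (nat_lit 240581)))) (mul s3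 (k (.ofNat (nat_lit 2210688)))))) (mul (pow s3 2) (k (.negSucc (nat_lit 1394593)))))) (mul (pow s3 3) (k (.negSucc (nat_lit 188215)))))))) (add (mul s1 (add (mul s1 (add (mul s1 (add (mul s1 (k (.ofNat (nat_lit 244430)))) (add (mul s2 (k (.negSucc (nat_lit 257311)))) (mul s3 (k (.ofNat (nat_lit 239942))))))) (add (mul s2 (add (mul s2 (k (.ofNat (nat_lit 1088034)))) (mul s3 (k (.negSucc (nat_lit 1001959)))))) (mul (pow s3 2) (k (.negSucc (nat_lit 774799))))))) (add (mul s2 (add (mul s2 (add (mul s2 (k (.ofNat (nat_lit 1172184)))) (mul s3 (k (.negSucc (nat_lit 1196751)))))) (mul (pow s3 2) (k (.ofNat (nat_lit 2200456)))))) (mul (pow s3 3) (k (.negSucc (nat_lit 1612883))))))) (add (mul s2 (add (mul s2 (add (mul s2 (add (mul s2 (k (.ofNat (nat_lit 166214)))) (mul s3 (k (.negSucc (nat_lit 1476847)))))) (mul (pow s3 2) (k (.negSucc (nat_lit 89533)))))) (mul (pow s3 3) (k (.ofNat (nat_lit 779604)))))) (mul (pow s3 4) (k (.ofNat (nat_lit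 345402)))))))) (add (mul s1 (add (mul s1 (add (mul s1 (add (mul s1 (add (mul s1 (k (.ofNat (nat_lit 8716)))) (add (mul s2 (k (.negSucc (nat_lit 363083)))) (mul s3 (k (.ofNat (nat_lit 74158))))))) (add (mul s2 (add (mul s2 (k (.ofNat (nat_lit 779604)))) (mul s3 (k (.ofNat (nat_lit 708250)))))) (mul (pow s3 2) (k (.negSucc (nat_lit 1394593))))))) (add (mul s2 (add (mul s2 (add (mul s2 (k (.negSucc (nat_lit 1476847)))) (mul s3 (k (.negSucc (nat_lit 109261)))))) (mul (pow s3 2) (k (.negSucc (nat_lit 156185)))))) (mul (pow s3 3) (k (.ofNat (nat_lit 2210688))))))) (add (mul s2 (add (mul s2 (add (mul s2 (add (mul s2 (k (.ofNat (nat_lit 85490)))) (mul s3 (k (.ofNat (nat_lit 590038)))))) (mul (pow s3 2) (k (.ofNat (nat_lit 90034)))))) (mul (pow s3 3) (k (.negSucc (nat_lit 985891)))))) (mul (pow s3 4) (k (.negSucc (nat_lit 171619))))))) (add (mul s2 (add (mul s2 (add (mul s2 (add (mul s2 (add (mul s2 (k (.negSucc (nat_lit 28009)))) (mul s3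 (k (.negSucc (nat_lit 244513)))))) (mul (pow s3 2) (k (.ofNat (nat_lit 1730576)))))) (mul (pow s3 3) (k (.negSucc (nat_lit 1718075)))))) (mul (pow s3 4) (k (.ofNat (nat_lit 392832)))))) (mul (pow s3 5) (k (.negSucc (nat_lit 112807)))))))) (add (mul s1 (add (mul s1 (add (mul s1 (add (mul s1 (add (mul s1 (add (mul s1 (k (.negSucc (nat_lit 7007)))) (add (mul s2 (k (.ofNat (nat_lit 143646)))) (mul s3 (k (.negSucc (nat_lit 104501))))))) (add (mul s2 (add (mul s2 (k (.negSucc (nat_lit 580169)))) (mul s3 (k (.ofNat (nat_lit 202882)))))) (mul (pow s3 2) (k (.ofNat (nat_lit 162340))))))) (add (mul s2 (add (mul s2 (add (mul s2 (k (.ofNat (nat_lit 538020)))) (mul s3 (k (.negSucc (nat_lit 20809)))))) (mul (pow s3 2) (k (.ofNat (nat_lit 80396)))))) (mul (pow s3 3) (k (.ofNat (nat_lit 147062))))))) (add (mul s2 (add (mul s2 (add (mul s2 (add (mul s2 (k (.ofNat (nat_lit 179086)))) (mul s3 (k (.negSucc (nat_lit 800143)))))) (mul (pow s3 2) (k (.ofNat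 (nat_lit 294672)))))) (mul (pow s3 3) (k (.negSucc (nat_lit 20809)))))) (mul (pow s3 4) (k (.negSucc (nat_lit 436791))))))) (add (mul s2 (add (mul s2 (add (mul s2 (add (mul s2 (add (mul s2 (k (.negSucc (nat_lit 162855)))) (mul s3 (k (.ofNat (nat_lit 1004130)))))) (mul (pow s3 2) (k (.negSucc (nat_lit 2165303)))))) (mul (pow s3 3) (k (.ofNat (nat_lit 2030976)))))) (mul (pow s3 4) (k (.negSucc (nat_lit 509659)))))) (mul (pow s3 5) (k (.ofNat (nat_lit 152170))))))) (add (mul s2 (add (mul s2 (add (mul s2 (add (mul s2 (add (mul s2 (add (mul s2 (k (.ofNat (nat_lit 10836)))) (mul s3 (k (.negSucc (nat_lit 75581)))))) (mul (pow s3 2) (k (.ofNat (nat_lit 102302)))))) (mul (pow s3 3) (k (.ofNat (nat_lit 145386)))))) (mul (pow s3 4) (k (.negSucc (nat_lit 218831)))))) (mul (pow s3 5) (k (.ofNat (nat_lit 37368)))))) (mul (pow s3 6) (k (.ofNat (nat_lit 2232))))))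
def kr0141 : PExp := add (mul s0 (add (mul s0 (add (mul s0 (add (mul s0 (add (mul s0 (add (mul s0 (k (.ofNat (nat_lit 6840)))) (add (mul s1 (k (.negSucc (nat_lit 11759)))) (add (mul s2 (k (.negSucc (nat_lit 3163)))) (mul s3 (k (.negSucc (nat_lit 11759)))))))) (add (mul s1 (add (mul s1 (k (.negSucc (nat_lit 63247)))) (add (mul s2 (k (.ofNat (nat_lit 79606)))) (mul s3 (k (.ofNat (nat_lit 229388))))))) (add (mul s2 (add (mul s2 (k (.negSucc (nat_lit 90007)))) (mul s3 (k (.ofNat (nat_lit 79606)))))) (mul (pow s3 2) (k (.negSucc (nat_lit 63247)))))))) (add (mul s1 (add (mul s1 (add (mul s1 (k (.ofNat (nat_lit 279272)))) (add (mul s2 (k (.ofNat (nat_lit 74158)))) (mul s3 (k (.negSucc (nat_lit 515387))))))) (add (mul s2 (add (mul s2 (k (.negSucc (nat_lit 171619)))) (mul s3 (k (.ofNat (nat_lit 436)))))) (mul (pow s3 2) (k (.negSucc (nat_lit 515387))))))) (add (mul s2 (add (mul s2 (add (mul s2 (k (.ofNat (nat_lit 150436)))) (mul s3 (k (.negSucc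 (nat_lit 171619)))))) (mul (pow s3 2) (k (.ofNat (nat_lit 74158)))))) (mul (pow s3 3) (k (.ofNat (nat_lit 279272)))))))) (add (mul s1 (add (mul s1 (add (mul s1 (add (mul s1 (k (.negSucc (nat_lit 235585)))) (add (mul s2 (k (.negSucc (nat_lit 363083)))) (mul s3 (k (.ofNat (nat_lit 377650))))))) (add (mul s2 (add (mul s2 (k (.ofNat (nat_lit 207398)))) (mul s3 (k (.ofNat (nat_lit 162200)))))) (mul (pow s3 2) (k (.ofNat (nat_lit 308164))))))) (add (mul s2 (add (mul s2 (add (mul s2 (k (.ofNat (nat_lit 85490)))) (mul s3 (k (.negSucc (nat_lit 38315)))))) (mul (pow s3 2) (k (.ofNat (nat_lit 162200)))))) (mul (pow s3 3) (k (.ofNat (nat_lit 377650))))))) (add (mul s2 (add (mul s2 (add (mul s2 (add (mul s2 (k (.negSucc (nat_lit 124143)))) (mul s3 (k (.ofNat (nat_lit 85490)))))) (mul (pow s3 2) (k (.ofNat (nat_lit 207398)))))) (mul (pow s3 3) (k (.negSucc (nat_lit 363083)))))) (mul (pow s3 4) (k (.negSucc (nat_lit 235585)))))))) (add (mul s1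 (add (mul s1 (add (mul s1 (add (mul s1 (add (mul s1 (k (.ofNat (nat_lit 38288)))) (add (mul s2 (k (.ofNat (nat_lit 41104)))) (mul s3 (k (.ofNat (nat_lit 79606))))))) (add (mul s2 (add (mul s2 (k (.ofNat (nat_lit 392832)))) (mul s3 (k (.negSucc (nat_lit 180055)))))) (mul (pow s3 2) (k (.negSucc (nat_lit 279931))))))) (add (mul s2 (add (mul s2 (add (mul s2 (k (.negSucc (nat_lit 244513)))) (mul s3 (k (.negSucc (nat_lit 458507)))))) (mul (pow s3 2) (k (.ofNat (nat_lit 659104)))))) (mul (pow s3 3) (k (.negSucc (nat_lit 279931))))))) (add (mul s2 (add (mul s2 (add (mul s2 (add (mul s2 (k (.negSucc (nat_lit 12207)))) (mul s3 (k (.ofNat (nat_lit 349768)))))) (mul (pow s3 2) (k (.negSucc (nat_lit 458507)))))) (mul (pow s3 3) (k (.negSucc (nat_lit 180055)))))) (mul (pow s3 4) (k (.ofNat (nat_lit 79606))))))) (add (mul s2 (add (mul s2 (add (mul s2 (add (mul s2 (add (mul s2 (k (.ofNat (nat_lit 37872)))) (mul s3 (k (.negSucc (nat_lit 12207))))))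 (mul (pow s3 2) (k (.negSucc (nat_lit 244513)))))) (mul (pow s3 3) (k (.ofNat (nat_lit 392832)))))) (mul (pow s3 4) (k (.ofNat (nat_lit 41104)))))) (mul (pow s3 5) (k (.ofNat (nat_lit 38288)))))))) (add (mul s1 (add (mul s1 (add (mul s1 (add (mul s1 (add (mul s1 (add (mul s1 (k (.ofNat (nat_lit 924)))) (add (mul s2 (k (.negSucc (nat_lit 60119)))) (mul s3 (k (.negSucc (nat_lit 14673))))))) (add (mul s2 (add (mul s2 (k (.ofNat (nat_lit 236966)))) (mul s3 (k (.ofNat (nat_lit 101284)))))) (mul (pow s3 2) (k (.ofNat (nat_lit 38808))))))) (add (mul s2 (add (mul s2 (add (mul s2 (k (.negSucc (nat_lit 282561)))) (mul s3 (k (.negSucc (nat_lit 509659)))))) (mul (pow s3 2) (k (.ofNat (nat_lit 202882)))))) (mul (pow s3 3) (k (.negSucc (nat_lit 72735))))))) (add (mul s2 (add (mul s2 (add (mul s2 (add (mul s2 (k (.ofNat (nat_lit 4436)))) (mul s3 (k (.ofNat (nat_lit 1004130)))))) (mul (pow s3 2) (k (.negSucc (nat_lit 789247)))))) (mul (pow s3 3)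 (k (.ofNat (nat_lit 202882)))))) (mul (pow s3 4) (k (.ofNat (nat_lit 38808))))))) (add (mul s2 (add (mul s2 (add (mul s2 (add (mul s2 (add (mul s2 (k (.ofNat (nat_lit 37660)))) (mul s3 (k (.negSucc (nat_lit 631871)))))) (mul (pow s3 2) (k (.ofNat (nat_lit 1004130)))))) (mul (pow s3 3) (k (.negSucc (nat_lit 509659)))))) (mul (pow s3 4) (k (.ofNat (nat_lit 101284)))))) (mul (pow s3 5) (k (.negSucc (nat_lit 14673))))))) (add (mul s2 (add (mul s2 (add (mul s2 (add (mul s2 (add (mul s2 (add (mul s2 (k (.negSucc (nat_lit 1267)))) (mul s3 (k (.ofNat (nat_lit 37660)))))) (mul (pow s3 2) (k (.ofNat (nat_lit 4436)))))) (mul (pow s3 3) (k (.negSucc (nat_lit 282561)))))) (mul (pow s3 4) (k (.ofNat (nat_lit 236966)))))) (mul (pow s3 5) (k (.negSucc (nat_lit 60119)))))) (mul (pow s3 6) (k (.ofNat (nat_lit 924))))))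
def kr0150 : PExp := add (mul s0 (add (mul s0 (add (mul s0 (add (mul s0 (add (mul s0 (add (mul s0 (k (.negSucc (nat_lit 517)))) (add (mul s1 (k (.negSucc (nat_lit 2419)))) (add (mul s2 (k (.ofNat (nat_lit 7220)))) (mul s3 (k (.ofNat (nat_lit 18240)))))))) (add (mul s1 (add (mul s1 (k (.ofNat (nat_lit 1638)))) (add (mul s2 (k (.negSucc (nat_lit 14673)))) (mul s3 (k (.negSucc (nat_lit 11759))))))) (add (mul s2 (add (mul s2 (k (.negSucc (nat_lit 51005)))) (mul s3 (k (.ofNat (nat_lit 38288)))))) (mul (pow s3 2) (k (.negSucc (nat_lit 97829)))))))) (add (mul s1 (add (mul s1 (add (mul s1 (k (.ofNat (nat_lit 18528)))) (add (mul s2 (k (.negSucc (nat_lit 104501)))) (mul s3 (k (.ofNat (nat_lit 13380))))))) (add (mul s2 (add (mul s2 (k (.ofNat (nat_lit 152170)))) (mul s3 (k (.ofNat (nat_lit 15314)))))) (mul (pow s3 2) (k (.ofNat (nat_lit 12686))))))) (add (mul s2 (add (mul s2 (add (mul s2 (k (.ofNat (nat_lit 74462)))) (mul s3 (k (.negSucc (nat_lit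 112807)))))) (mul (pow s3 2) (k (.ofNat (nat_lit 8716)))))) (mul (pow s3 3) (k (.ofNat (nat_lit 148540)))))))) (add (mul s1 (add (mul s1 (add (mul s1 (add (mul s1 (k (.negSucc (nat_lit 40259)))) (add (mul s2 (k (.ofNat (nat_lit 143646)))) (mul s3 (k (.ofNat (nat_lit 19402))))))) (add (mul s2 (add (mul s2 (k (.ofNat (nat_lit 18210)))) (mul s3 (k (.negSucc (nat_lit 80517)))))) (mul (pow s3 2) (k (.ofNat (nat_lit 17020))))))) (add (mul s2 (add (mul s2 (add (mul s2 (k (.negSucc (nat_lit 162855)))) (mul s3 (k (.ofNat (nat_lit 40932)))))) (mul (pow s3 2) (k (.negSucc (nat_lit 101143)))))) (mul (pow s3 3) (k (.ofNat (nat_lit 12686))))))) (add (mul s2 (add (mul s2 (add (mul s2 (add (mul s2 (k (.negSucc (nat_lit 8559)))) (mul s3 (k (.negSucc (nat_lit 28009)))))) (mul (pow s3 2) (k (.ofNat (nat_lit 130604)))))) (mul (pow s3 3) (k (.ofNat (nat_lit 8716)))))) (mul (pow s3 4) (k (.negSucc (nat_lit 97829)))))))) (add (mul s1 (add (mul s1 (add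 (mul s1 (add (mul s1 (add (mul s1 (k (.ofNat (nat_lit 7220)))) (add (mul s2 (k (.negSucc (nat_lit 60119)))) (mul s3 (k (.negSucc (nat_lit 3163))))))) (add (mul s2 (add (mul s2 (k (.ofNat (nat_lit 37368)))) (mul s3 (k (.negSucc (nat_lit 24103)))))) (mul (pow s3 2) (k (.ofNat (nat_lit 19402))))))) (add (mul s2 (add (mul s2 (add (mul s2 (k (.negSucc (nat_lit 75581)))) (mul s3 (k (.ofNat (nat_lit 115408)))))) (mul (pow s3 2) (k (.negSucc (nat_lit 80517)))))) (mul (pow s3 3) (k (.ofNat (nat_lit 13380))))))) (add (mul s2 (add (mul s2 (add (mul s2 (add (mul s2 (k (.ofNat (nat_lit 37660)))) (mul s3 (k (.ofNat (nat_lit 24872)))))) (mul (pow s3 2) (k (.ofNat (nat_lit 40932)))))) (mul (pow s3 3) (k (.ofNat (nat_lit 15314)))))) (mul (pow s3 4) (k (.negSucc (nat_lit 11759))))))) (add (mul s2 (add (mul s2 (add (mul s2 (add (mul s2 (add (mul s2 (k (.negSucc (nat_lit 4139)))) (mul s3 (k (.ofNat (nat_lit 37872)))))) (mul (pow s3 2) (k (.negSucc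 (nat_lit 28009)))))) (mul (pow s3 3) (k (.negSucc (nat_lit 112807)))))) (mul (pow s3 4) (k (.ofNat (nat_lit 38288)))))) (mul (pow s3 5) (k (.ofNat (nat_lit 18240)))))))) (add (mul s1 (add (mul s1 (add (mul s1 (add (mul s1 (add (mul s1 (add (mul s1 (k (.ofNat (nat_lit 676)))) (add (mul s2 (k (.negSucc (nat_lit 67135)))) (mul s3 (k (.ofNat (nat_lit 7220))))))) (add (mul s2 (add (mul s2 (k (.ofNat (nat_lit 268260)))) (mul s3 (k (.negSucc (nat_lit 60119)))))) (mul (pow s3 2) (k (.negSucc (nat_lit 40259))))))) (add (mul s2 (add (mul s2 (add (mul s2 (k (.negSucc (nat_lit 341423)))) (mul s3 (k (.ofNat (nat_lit 37368)))))) (mul (pow s3 2) (k (.ofNat (nat_lit 143646)))))) (mul (pow s3 3) (k (.ofNat (nat_lit 18528))))))) (add (mul s2 (add (mul s2 (add (mul s2 (add (mul s2 (k (.ofNat (nat_lit 197172)))) (mul s3 (k (.negSucc (nat_lit 75581)))))) (mul (pow s3 2) (k (.ofNat (nat_lit 18210)))))) (mul (pow s3 3) (k (.negSucc (nat_lit 104501))))))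 (mul (pow s3 4) (k (.ofNat (nat_lit 1638))))))) (add (mul s2 (add (mul s2 (add (mul s2 (add (mul s2 (add (mul s2 (k (.negSucc (nat_lit 22535)))) (mul s3 (k (.ofNat (nat_lit 37660)))))) (mul (pow s3 2) (k (.negSucc (nat_lit 162855)))))) (mul (pow s3 3) (k (.ofNat (nat_lit 152170)))))) (mul (pow s3 4) (k (.negSucc (nat_lit 14673)))))) (mul (pow s3 5) (k (.negSucc (nat_lit 2419))))))) (add (mul s2 (add (mul s2 (add (mul s2 (add (mul s2 (add (mul s2 (add (mul s2 (k (.ofNat (nat_lit 52)))) (mul s3 (k (.negSucc (nat_lit 4139)))))) (mul (pow s3 2) (k (.negSucc (nat_lit 8559)))))) (mul (pow s3 3) (k (.ofNat (nat_lit 74462)))))) (mul (pow s3 4) (k (.negSucc (nat_lit 51005)))))) (mul (pow s3 5) (k (.ofNat (nat_lit 7220)))))) (mul (pow s3 6) (k (.negSucc (nat_lit 517))))))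
def kr0204 : PExp := add (mul s0 (add (mul s0 (add (mul s0 (add (mul s0 (add (mul s0 (add (mul s0 (k (.negSucc (nat_lit 287)))) (add (mul s1 (k (.ofNat (nat_lit 1638)))) (add (mul s2 (k (.negSucc (nat_lit 97829)))) (mul s3 (k (.negSucc (nat_lit 40259)))))))) (add (mul s1 (add (mul s1 (k (.ofNat (nat_lit 136520)))) (add (mul s2 (k (.negSucc (nat_lit 63247)))) (mul s3 (k (.ofNat (nat_lit 38808))))))) (add (mul s2 (add (mul s2 (k (.ofNat (nat_lit 597708)))) (mul s3 (k (.negSucc (nat_lit 235585)))))) (mul (pow s3 2) (k (.ofNat (nat_lit 305860)))))))) (add (mul s1 (add (mul s1 (add (mul s1 (k (.negSucc (nat_lit 304563)))) (add (mul s2 (k (.ofNat (nat_lit 70040)))) (mul s3 (k (.ofNat (nat_lit 162340))))))) (add (mul s2 (add (mul s2 (k (.ofNat (nat_lit 84180)))) (mul s3 (k (.ofNat (nat_lit 131604)))))) (mul (pow s3 2) (k (.negSucc (nat_lit 436791))))))) (add (mul s2 (add (mul s2 (add (mul s2 (k (.negSucc (nat_lit 1008699)))) (mul s3 (k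 (.ofNat (nat_lit 244430)))))) (mul (pow s3 2) (k (.ofNat (nat_lit 345402)))))) (mul (pow s3 3) (k (.negSucc (nat_lit 379129)))))))) (add (mul s1 (add (mul s1 (add (mul s1 (add (mul s1 (k (.ofNat (nat_lit 305860)))) (add (mul s2 (k (.ofNat (nat_lit 81228)))) (mul s3 (k (.negSucc (nat_lit 580169))))))) (add (mul s2 (add (mul s2 (k (.negSucc (nat_lit 343231)))) (mul s3 (k (.negSucc (nat_lit 37241)))))) (mul (pow s3 2) (k (.ofNat (nat_lit 444912))))))) (add (mul s2 (add (mul s2 (add (mul s2 (k (.ofNat (nat_lit 84180)))) (mul s3 (k (.negSucc (nat_lit 256599)))))) (mul (pow s3 2) (k (.ofNat (nat_lit 281134)))))) (mul (pow s3 3) (k (.ofNat (nat_lit 179086))))))) (add (mul s2 (add (mul s2 (add (mul s2 (add (mul s2 (k (.ofNat (nat_lit 597708)))) (mul s3 (k (.ofNat (nat_lit 244430)))))) (mul (pow s3 2) (k (.negSucc (nat_lit 874175)))))) (mul (pow s3 3) (k (.ofNat (nat_lit 166214)))))) (mul (pow s3 4) (k (.ofNat (nat_lit 228140)))))))) (add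 (mul s1 (add (mul s1 (add (mul s1 (add (mul s1 (add (mul s1 (k (.negSucc (nat_lit 51005)))) (add (mul s2 (k (.negSucc (nat_lit 90007)))) (mul s3 (k (.ofNat (nat_lit 236966))))))) (add (mul s2 (add (mul s2 (k (.ofNat (nat_lit 81228)))) (mul s3 (k (.ofNat (nat_lit 40676)))))) (mul (pow s3 2) (k (.negSucc (nat_lit 218831))))))) (add (mul s2 (add (mul s2 (add (mul s2 (k (.ofNat (nat_lit 70040)))) (mul s3 (k (.negSucc (nat_lit 37241)))))) (mul (pow s3 2) (k (.negSucc (nat_lit 74083)))))) (mul (pow s3 3) (k (.ofNat (nat_lit 102302))))))) (add (mul s2 (add (mul s2 (add (mul s2 (add (mul s2 (k (.negSucc (nat_lit 63247)))) (mul s3 (k (.ofNat (nat_lit 131604)))))) (mul (pow s3 2) (k (.ofNat (nat_lit 281134)))))) (mul (pow s3 3) (k (.negSucc (nat_lit 405655)))))) (mul (pow s3 4) (k (.ofNat (nat_lit 4436))))))) (add (mul s2 (add (mul s2 (add (mul s2 (add (mul s2 (add (mul s2 (k (.negSucc (nat_lit 97829)))) (mul s3 (k (.negSucc (nat_lit 235585))))))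 (mul (pow s3 2) (k (.ofNat (nat_lit 345402)))))) (mul (pow s3 3) (k (.ofNat (nat_lit 166214)))))) (mul (pow s3 4) (k (.negSucc (nat_lit 124143)))))) (mul (pow s3 5) (k (.negSucc (nat_lit 8559)))))))) (add (mul s1 (add (mul s1 (add (mul s1 (add (mul s1 (add (mul s1 (add (mul s1 (k (.ofNat (nat_lit 14156)))) (add (mul s2 (k (.negSucc (nat_lit 51005)))) (mul s3 (k (.ofNat (nat_lit 268260))))))) (add (mul s2 (add (mul s2 (k (.ofNat (nat_lit 305860)))) (mul s3 (k (.ofNat (nat_lit 236966)))))) (mul (pow s3 2) (k (.negSucc (nat_lit 1547831))))))) (add (mul s2 (add (mul s2 (add (mul s2 (k (.negSucc (nat_lit 304563)))) (mul s3 (k (.negSucc (nat_lit 580169)))))) (mul (pow s3 2) (k (.negSucc (nat_lit 218831)))))) (mul (pow s3 3) (k (.ofNat (nat_lit 2290584))))))) (add (mul s2 (add (mul s2 (add (mul s2 (add (mul s2 (k (.ofNat (nat_lit 136520)))) (mul s3 (k (.ofNat (nat_lit 162340)))))) (mul (pow s3 2) (k (.ofNat (nat_lit 444912)))))) (mul (pow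 s3 3) (k (.ofNat (nat_lit 102302)))))) (mul (pow s3 4) (k (.negSucc (nat_lit 1242039))))))) (add (mul s2 (add (mul s2 (add (mul s2 (add (mul s2 (add (mul s2 (k (.ofNat (nat_lit 1638)))) (mul s3 (k (.ofNat (nat_lit 38808)))))) (mul (pow s3 2) (k (.negSucc (nat_lit 436791)))))) (mul (pow s3 3) (k (.ofNat (nat_lit 179086)))))) (mul (pow s3 4) (k (.ofNat (nat_lit 4436)))))) (mul (pow s3 5) (k (.ofNat (nat_lit 197172))))))) (add (mul s2 (add (mul s2 (add (mul s2 (add (mul s2 (add (mul s2 (add (mul s2 (k (.negSucc (nat_lit 287)))) (mul s3 (k (.negSucc (nat_lit 40259)))))) (mul (pow s3 2) (k (.ofNat (nat_lit 305860)))))) (mul (pow s3 3) (k (.negSucc (nat_lit 379129)))))) (mul (pow s3 4) (k (.ofNat (nat_lit 228140)))))) (mul (pow s3 5) (k (.negSucc (nat_lit 8559)))))) (mul (pow s3 6) (k (.ofNat (nat_lit 24464))))))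
def kr0213 : PExp := add (mul s0 (add (mul s0 (add (mul s0 (add (mul s0 (add (mul s0 (add (mul s0 (k (.negSucc (nat_lit 6683)))) (add (mul s1 (k (.ofNat (nat_lit 13380)))) (add (mul s2 (k (.ofNat (nat_lit 12686)))) (mul s3 (k (.ofNat (nat_lit 19402)))))))) (add (mul s1 (add (mul s1 (k (.ofNat (nat_lit 70040)))) (add (mul s2 (k (.negSucc (nat_lit 515387)))) (mul s3 (k (.negSucc (nat_lit 279931))))))) (add (mul s2 (add (mul s2 (k (.ofNat (nat_lit 84180)))) (mul s3 (k (.ofNat (nat_lit 377650)))))) (mul (pow s3 2) (k (.ofNat (nat_lit 81228)))))))) (add (mul s1 (add (mul s1 (add (mul s1 (k (.negSucc (nat_lit 188215)))) (add (mul s2 (k (.ofNat (nat_lit 1381968)))) (mul s3 (k (.negSucc (nat_lit 1394593))))))) (add (mul s2 (add (mul s2 (k (.ofNat (nat_lit 589078)))) (mul s3 (k (.negSucc (nat_lit 223871)))))) (mul (pow s3 2) (k (.ofNat (nat_lit 2210688))))))) (add (mul s2 (add (mul s2 (add (mul s2 (k (.negSucc (nat_lit 409991)))) (mul s3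 (k (.ofNat (nat_lit 239942)))))) (mul (pow s3 2) (k (.negSucc (nat_lit 1612883)))))) (mul (pow s3 3) (k (.negSucc (nat_lit 240581)))))))) (add (mul s1 (add (mul s1 (add (mul s1 (add (mul s1 (k (.ofNat (nat_lit 345402)))) (add (mul s2 (k (.negSucc (nat_lit 1612883)))) (mul s3 (k (.ofNat (nat_lit 779604))))))) (add (mul s2 (add (mul s2 (k (.negSucc (nat_lit 774799)))) (mul s3 (k (.ofNat (nat_lit 2200456)))))) (mul (pow s3 2) (k (.negSucc (nat_lit 89533))))))) (add (mul s2 (add (mul s2 (add (mul s2 (k (.ofNat (nat_lit 239942)))) (mul s3 (k (.negSucc (nat_lit 1001959)))))) (mul (pow s3 2) (k (.negSucc (nat_lit 1196751)))))) (mul (pow s3 3) (k (.negSucc (nat_lit 1476847))))))) (add (mul s2 (add (mul s2 (add (mul s2 (add (mul s2 (k (.ofNat (nat_lit 244430)))) (mul s3 (k (.negSucc (nat_lit 257311)))))) (mul (pow s3 2) (k (.ofNat (nat_lit 1088034)))))) (mul (pow s3 3) (k (.ofNat (nat_lit 1172184)))))) (mul (pow s3 4) (k (.ofNat (nat_lit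 166214)))))))) (add (mul s1 (add (mul s1 (add (mul s1 (add (mul s1 (add (mul s1 (k (.negSucc (nat_lit 112807)))) (add (mul s2 (k (.negSucc (nat_lit 171619)))) (mul s3 (k (.ofNat (nat_lit 392832))))))) (add (mul s2 (add (mul s2 (k (.ofNat (nat_lit 2210688)))) (mul s3 (k (.negSucc (nat_lit 985891)))))) (mul (pow s3 2) (k (.negSucc (nat_lit 1718075))))))) (add (mul s2 (add (mul s2 (add (mul s2 (k (.negSucc (nat_lit 1394593)))) (mul s3 (k (.negSucc (nat_lit 156185)))))) (mul (pow s3 2) (k (.ofNat (nat_lit 90034)))))) (mul (pow s3 3) (k (.ofNat (nat_lit 1730576))))))) (add (mul s2 (add (mul s2 (add (mul s2 (add (mul s2 (k (.ofNat (nat_lit 74158)))) (mul s3 (k (.ofNat (nat_lit 708250)))))) (mul (pow s3 2) (k (.negSucc (nat_lit 109261)))))) (mul (pow s3 3) (k (.ofNat (nat_lit 590038)))))) (mul (pow s3 4) (k (.negSucc (nat_lit 244513))))))) (add (mul s2 (add (mul s2 (add (mul s2 (add (mul s2 (add (mul s2 (k (.ofNat (nat_lit 8716)))) (mul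 s3 (k (.negSucc (nat_lit 363083)))))) (mul (pow s3 2) (k (.ofNat (nat_lit 779604)))))) (mul (pow s3 3) (k (.negSucc (nat_lit 1476847)))))) (mul (pow s3 4) (k (.ofNat (nat_lit 85490)))))) (mul (pow s3 5) (k (.negSucc (nat_lit 28009)))))))) (add (mul s1 (add (mul s1 (add (mul s1 (add (mul s1 (add (mul s1 (add (mul s1 (k (.ofNat (nat_lit 2232)))) (add (mul s2 (k (.ofNat (nat_lit 152170)))) (mul s3 (k (.ofNat (nat_lit 37368))))))) (add (mul s2 (add (mul s2 (k (.negSucc (nat_lit 436791)))) (mul s3 (k (.negSucc (nat_lit 509659)))))) (mul (pow s3 2) (k (.negSucc (nat_lit 218831))))))) (add (mul s2 (add (mul s2 (add (mul s2 (k (.ofNat (nat_lit 147062)))) (mul s3 (k (.negSucc (nat_lit 20809)))))) (mul (pow s3 2) (k (.ofNat (nat_lit 2030976)))))) (mul (pow s3 3) (k (.ofNat (nat_lit 145386))))))) (add (mul s2 (add (mul s2 (add (mul s2 (add (mul s2 (k (.ofNat (nat_lit 162340)))) (mul s3 (k (.ofNat (nat_lit 80396)))))) (mul (pow s3 2) (k (.ofNat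 (nat_lit 294672)))))) (mul (pow s3 3) (k (.negSucc (nat_lit 2165303)))))) (mul (pow s3 4) (k (.ofNat (nat_lit 102302))))))) (add (mul s2 (add (mul s2 (add (mul s2 (add (mul s2 (add (mul s2 (k (.negSucc (nat_lit 104501)))) (mul s3 (k (.ofNat (nat_lit 202882)))))) (mul (pow s3 2) (k (.negSucc (nat_lit 20809)))))) (mul (pow s3 3) (k (.negSucc (nat_lit 800143)))))) (mul (pow s3 4) (k (.ofNat (nat_lit 1004130)))))) (mul (pow s3 5) (k (.negSucc (nat_lit 75581))))))) (add (mul s2 (add (mul s2 (add (mul s2 (add (mul s2 (add (mul s2 (add (mul s2 (k (.negSucc (nat_lit 7007)))) (mul s3 (k (.ofNat (nat_lit 143646)))))) (mul (pow s3 2) (k (.negSucc (nat_lit 580169)))))) (mul (pow s3 3) (k (.ofNat (nat_lit 538020)))))) (mul (pow s3 4) (k (.ofNat (nat_lit 179086)))))) (mul (pow s3 5) (k (.negSucc (nat_lit 162855)))))) (mul (pow s3 6) (k (.ofNat (nat_lit 10836))))))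
def kr0222 : PExp := add (mul s0 (add (mul s0 (add (mul s0 (add (mul s0 (add (mul s0 (add (mul s0 (k (.ofNat (nat_lit 3456)))) (add (mul s1 (k (.ofNat (nat_lit 17020)))) (add (mul s2 (k (.ofNat (nat_lit 17020)))) (mul s3 (k (.ofNat (nat_lit 17020)))))))) (add (mul s1 (add (mul s1 (k (.negSucc (nat_lit 343231)))) (add (mul s2 (k (.ofNat (nat_lit 308164)))) (mul s3 (k (.ofNat (nat_lit 308164))))))) (add (mul s2 (add (mul s2 (k (.negSucc (nat_lit 343231)))) (mul s3 (k (.ofNat (nat_lit 308164)))))) (mul (pow s3 2) (k (.negSucc (nat_lit 343231)))))))) (add (mul s1 (add (mul s1 (add (mul s1 (k (.ofNat (nat_lit 1026424)))) (add (mul s2 (k (.negSucc (nat_lit 774799)))) (mul s3 (k (.negSucc (nat_lit 774799))))))) (add (mul s2 (add (mul s2 (k (.negSucc (nat_lit 774799)))) (mul s3 (k (.ofNat (nat_lit 1919244)))))) (mul (pow s3 2) (k (.negSucc (nat_lit 774799))))))) (add (mul s2 (add (mul s2 (add (mul s2 (k (.ofNat (nat_lit 1026424)))) (mul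 s3 (k (.negSucc (nat_lit 774799)))))) (mul (pow s3 2) (k (.negSucc (nat_lit 774799)))))) (mul (pow s3 3) (k (.ofNat (nat_lit 1026424)))))))) (add (mul s1 (add (mul s1 (add (mul s1 (add (mul s1 (k (.negSucc (nat_lit 874175)))) (add (mul s2 (k (.ofNat (nat_lit 1088034)))) (mul s3 (k (.ofNat (nat_lit 1088034))))))) (add (mul s2 (add (mul s2 (k (.negSucc (nat_lit 1183023)))) (mul s3 (k (.negSucc (nat_lit 426863)))))) (mul (pow s3 2) (k (.negSucc (nat_lit 1183023))))))) (add (mul s2 (add (mul s2 (add (mul s2 (k (.ofNat (nat_lit 1088034)))) (mul s3 (k (.negSucc (nat_lit 426863)))))) (mul (pow s3 2) (k (.negSucc (nat_lit 426863)))))) (mul (pow s3 3) (k (.ofNat (nat_lit 1088034))))))) (add (mul s2 (add (mul s2 (add (mul s2 (add (mul s2 (k (.negSucc (nat_lit 874175)))) (mul s3 (k (.ofNat (nat_lit 1088034)))))) (mul (pow s3 2) (k (.negSucc (nat_lit 1183023)))))) (mul (pow s3 3) (k (.ofNat (nat_lit 1088034)))))) (mul (pow s3 4) (k (.negSucc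 (nat_lit 874175)))))))) (add (mul s1 (add (mul s1 (add (mul s1 (add (mul s1 (add (mul s1 (k (.ofNat (nat_lit 130604)))) (add (mul s2 (k (.ofNat (nat_lit 207398)))) (mul s3 (k (.ofNat (nat_lit 207398))))))) (add (mul s2 (add (mul s2 (k (.negSucc (nat_lit 89533)))) (mul s3 (k (.negSucc (nat_lit 846223)))))) (mul (pow s3 2) (k (.negSucc (nat_lit 89533))))))) (add (mul s2 (add (mul s2 (add (mul s2 (k (.negSucc (nat_lit 89533)))) (mul s3 (k (.ofNat (nat_lit 794428)))))) (mul (pow s3 2) (k (.ofNat (nat_lit 794428)))))) (mul (pow s3 3) (k (.negSucc (nat_lit 89533))))))) (add (mul s2 (add (mul s2 (add (mul s2 (add (mul s2 (k (.ofNat (nat_lit 207398)))) (mul s3 (k (.negSucc (nat_lit 846223)))))) (mul (pow s3 2) (k (.ofNat (nat_lit 794428)))))) (mul (pow s3 3) (k (.negSucc (nat_lit 846223)))))) (mul (pow s3 4) (k (.ofNat (nat_lit 207398))))))) (add (mul s2 (add (mul s2 (add (mul s2 (add (mul s2 (add (mul s2 (k (.ofNat (nat_lit 130604))))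 (mul s3 (k (.ofNat (nat_lit 207398)))))) (mul (pow s3 2) (k (.negSucc (nat_lit 89533)))))) (mul (pow s3 3) (k (.negSucc (nat_lit 89533)))))) (mul (pow s3 4) (k (.ofNat (nat_lit 207398)))))) (mul (pow s3 5) (k (.ofNat (nat_lit 130604)))))))) (add (mul s1 (add (mul s1 (add (mul s1 (add (mul s1 (add (mul s1 (add (mul s1 (k (.ofNat (nat_lit 33412)))) (add (mul s2 (k (.ofNat (nat_lit 18210)))) (mul s3 (k (.ofNat (nat_lit 18210))))))) (add (mul s2 (add (mul s2 (k (.ofNat (nat_lit 444912)))) (mul s3 (k (.negSucc (nat_lit 789247)))))) (mul (pow s3 2) (k (.ofNat (nat_lit 444912))))))) (add (mul s2 (add (mul s2 (add (mul s2 (k (.negSucc (nat_lit 1010959)))) (mul s3 (k (.ofNat (nat_lit 294672)))))) (mul (pow s3 2) (k (.ofNat (nat_lit 294672)))))) (mul (pow s3 3) (k (.negSucc (nat_lit 1010959))))))) (add (mul s2 (add (mul s2 (add (mul s2 (add (mul s2 (k (.ofNat (nat_lit 444912)))) (mul s3 (k (.ofNat (nat_lit 294672)))))) (mul (pow s3 2) (k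 (.ofNat (nat_lit 434976)))))) (mul (pow s3 3) (k (.ofNat (nat_lit 294672)))))) (mul (pow s3 4) (k (.ofNat (nat_lit 444912))))))) (add (mul s2 (add (mul s2 (add (mul s2 (add (mul s2 (add (mul s2 (k (.ofNat (nat_lit 18210)))) (mul s3 (k (.negSucc (nat_lit 789247)))))) (mul (pow s3 2) (k (.ofNat (nat_lit 294672)))))) (mul (pow s3 3) (k (.ofNat (nat_lit 294672)))))) (mul (pow s3 4) (k (.negSucc (nat_lit 789247)))))) (mul (pow s3 5) (k (.ofNat (nat_lit 18210))))))) (add (mul s2 (add (mul s2 (add (mul s2 (add (mul s2 (add (mul s2 (add (mul s2 (k (.ofNat (nat_lit 33412)))) (mul s3 (k (.ofNat (nat_lit 18210)))))) (mul (pow s3 2) (k (.ofNat (nat_lit 444912)))))) (mul (pow s3 3) (k (.negSucc (nat_lit 1010959)))))) (mul (pow s3 4) (k (.ofNat (nat_lit 444912)))))) (mul (pow s3 5) (k (.ofNat (nat_lit 18210)))))) (mul (pow s3 6) (k (.ofNat (nat_lit 33412))))))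
def kr0231 : PExp := add (mul s0 (add (mul s0 (add (mul s0 (add (mul s0 (add (mul s0 (add (mul s0 (k (.negSucc (nat_lit 6683)))) (add (mul s1 (k (.ofNat (nat_lit 13380)))) (add (mul s2 (k (.ofNat (nat_lit 19402)))) (mul s3 (k (.ofNat (nat_lit 12686)))))))) (add (mul s1 (add (mul s1 (k (.ofNat (nat_lit 70040)))) (add (mul s2 (k (.negSucc (nat_lit 279931)))) (mul s3 (k (.negSucc (nat_lit 515387))))))) (add (mul s2 (add (mul s2 (k (.ofNat (nat_lit 81228)))) (mul s3 (k (.ofNat (nat_lit 377650)))))) (mul (pow s3 2) (k (.ofNat (nat_lit 84180)))))))) (add (mul s1 (add (mul s1 (add (mul s1 (k (.negSucc (nat_lit 188215)))) (add (mul s2 (k (.negSucc (nat_lit 1394593)))) (mul s3 (k (.ofNat (nat_lit 1381968))))))) (add (mul s2 (add (mul s2 (k (.ofNat (nat_lit 2210688)))) (mul s3 (k (.negSucc (nat_lit 223871)))))) (mul (pow s3 2) (k (.ofNat (nat_lit 589078))))))) (add (mul s2 (add (mul s2 (add (mul s2 (k (.negSucc (nat_lit 240581)))) (mul s3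 (k (.negSucc (nat_lit 1612883)))))) (mul (pow s3 2) (k (.ofNat (nat_lit 239942)))))) (mul (pow s3 3) (k (.negSucc (nat_lit 409991)))))))) (add (mul s1 (add (mul s1 (add (mul s1 (add (mul s1 (k (.ofNat (nat_lit 345402)))) (add (mul s2 (k (.ofNat (nat_lit 779604)))) (mul s3 (k (.negSucc (nat_lit 1612883))))))) (add (mul s2 (add (mul s2 (k (.negSucc (nat_lit 89533)))) (mul s3 (k (.ofNat (nat_lit 2200456)))))) (mul (pow s3 2) (k (.negSucc (nat_lit 774799))))))) (add (mul s2 (add (mul s2 (add (mul s2 (k (.negSucc (nat_lit 1476847)))) (mul s3 (k (.negSucc (nat_lit 1196751)))))) (mul (pow s3 2) (k (.negSucc (nat_lit 1001959)))))) (mul (pow s3 3) (k (.ofNat (nat_lit 239942))))))) (add (mul s2 (add (mul s2 (add (mul s2 (add (mul s2 (k (.ofNat (nat_lit 166214)))) (mul s3 (k (.ofNat (nat_lit 1172184)))))) (mul (pow s3 2) (k (.ofNat (nat_lit 1088034)))))) (mul (pow s3 3) (k (.negSucc (nat_lit 257311)))))) (mul (pow s3 4) (k (.ofNat (nat_lit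 244430)))))))) (add (mul s1 (add (mul s1 (add (mul s1 (add (mul s1 (add (mul s1 (k (.negSucc (nat_lit 112807)))) (add (mul s2 (k (.ofNat (nat_lit 392832)))) (mul s3 (k (.negSucc (nat_lit 171619))))))) (add (mul s2 (add (mul s2 (k (.negSucc (nat_lit 1718075)))) (mul s3 (k (.negSucc (nat_lit 985891)))))) (mul (pow s3 2) (k (.ofNat (nat_lit 2210688))))))) (add (mul s2 (add (mul s2 (add (mul s2 (k (.ofNat (nat_lit 1730576)))) (mul s3 (k (.ofNat (nat_lit 90034)))))) (mul (pow s3 2) (k (.negSucc (nat_lit 156185)))))) (mul (pow s3 3) (k (.negSucc (nat_lit 1394593))))))) (add (mul s2 (add (mul s2 (add (mul s2 (add (mul s2 (k (.negSucc (nat_lit 244513)))) (mul s3 (k (.ofNat (nat_lit 590038)))))) (mul (pow s3 2) (k (.negSucc (nat_lit 109261)))))) (mul (pow s3 3) (k (.ofNat (nat_lit 708250)))))) (mul (pow s3 4) (k (.ofNat (nat_lit 74158))))))) (add (mul s2 (add (mul s2 (add (mul s2 (add (mul s2 (add (mul s2 (k (.negSucc (nat_lit 28009))))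 (mul s3 (k (.ofNat (nat_lit 85490)))))) (mul (pow s3 2) (k (.negSucc (nat_lit 1476847)))))) (mul (pow s3 3) (k (.ofNat (nat_lit 779604)))))) (mul (pow s3 4) (k (.negSucc (nat_lit 363083)))))) (mul (pow s3 5) (k (.ofNat (nat_lit 8716)))))))) (add (mul s1 (add (mul s1 (add (mul s1 (add (mul s1 (add (mul s1 (add (mul s1 (k (.ofNat (nat_lit 2232)))) (add (mul s2 (k (.ofNat (nat_lit 37368)))) (mul s3 (k (.ofNat (nat_lit 152170))))))) (add (mul s2 (add (mul s2 (k (.negSucc (nat_lit 218831)))) (mul s3 (k (.negSucc (nat_lit 509659)))))) (mul (pow s3 2) (k (.negSucc (nat_lit 436791))))))) (add (mul s2 (add (mul s2 (add (mul s2 (k (.ofNat (nat_lit 145386)))) (mul s3 (k (.ofNat (nat_lit 2030976)))))) (mul (pow s3 2) (k (.negSucc (nat_lit 20809)))))) (mul (pow s3 3) (k (.ofNat (nat_lit 147062))))))) (add (mul s2 (add (mul s2 (add (mul s2 (add (mul s2 (k (.ofNat (nat_lit 102302)))) (mul s3 (k (.negSucc (nat_lit 2165303)))))) (mul (pow s3 2)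 (k (.ofNat (nat_lit 294672)))))) (mul (pow s3 3) (k (.ofNat (nat_lit 80396)))))) (mul (pow s3 4) (k (.ofNat (nat_lit 162340))))))) (add (mul s2 (add (mul s2 (add (mul s2 (add (mul s2 (add (mul s2 (k (.negSucc (nat_lit 75581)))) (mul s3 (k (.ofNat (nat_lit 1004130)))))) (mul (pow s3 2) (k (.negSucc (nat_lit 800143)))))) (mul (pow s3 3) (k (.negSucc (nat_lit 20809)))))) (mul (pow s3 4) (k (.ofNat (nat_lit 202882)))))) (mul (pow s3 5) (k (.negSucc (nat_lit 104501))))))) (add (mul s2 (add (mul s2 (add (mul s2 (add (mul s2 (add (mul s2 (add (mul s2 (k (.ofNat (nat_lit 10836)))) (mul s3 (k (.negSucc (nat_lit 162855)))))) (mul (pow s3 2) (k (.ofNat (nat_lit 179086)))))) (mul (pow s3 3) (k (.ofNat (nat_lit 538020)))))) (mul (pow s3 4) (k (.negSucc (nat_lit 580169)))))) (mul (pow s3 5) (k (.ofNat (nat_lit 143646)))))) (mul (pow s3 6) (k (.negSucc (nat_lit 7007))))))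
def kr0240 : PExp := add (mul s0 (add (mul s0 (add (mul s0 (add (mul s0 (add (mul s0 (add (mul s0 (k (.negSucc (nat_lit 287)))) (add (mul s1 (k (.ofNat (nat_lit 1638)))) (add (mul s2 (k (.negSucc (nat_lit 40259)))) (mul s3 (k (.negSucc (nat_lit 97829)))))))) (add (mul s1 (add (mul s1 (k (.ofNat (nat_lit 136520)))) (add (mul s2 (k (.ofNat (nat_lit 38808)))) (mul s3 (k (.negSucc (nat_lit 63247))))))) (add (mul s2 (add (mul s2 (k (.ofNat (nat_lit 305860)))) (mul s3 (k (.negSucc (nat_lit 235585)))))) (mul (pow s3 2) (k (.ofNat (nat_lit 597708)))))))) (add (mul s1 (add (mul s1 (add (mul s1 (k (.negSucc (nat_lit 304563)))) (add (mul s2 (k (.ofNat (nat_lit 162340)))) (mul s3 (k (.ofNat (nat_lit 70040))))))) (add (mul s2 (add (mul s2 (k (.negSucc (nat_lit 436791)))) (mul s3 (k (.ofNat (nat_lit 131604)))))) (mul (pow s3 2) (k (.ofNat (nat_lit 84180))))))) (add (mul s2 (add (mul s2 (add (mul s2 (k (.negSucc (nat_lit 379129)))) (mul s3 (k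 (.ofNat (nat_lit 345402)))))) (mul (pow s3 2) (k (.ofNat (nat_lit 244430)))))) (mul (pow s3 3) (k (.negSucc (nat_lit 1008699)))))))) (add (mul s1 (add (mul s1 (add (mul s1 (add (mul s1 (k (.ofNat (nat_lit 305860)))) (add (mul s2 (k (.negSucc (nat_lit 580169)))) (mul s3 (k (.ofNat (nat_lit 81228))))))) (add (mul s2 (add (mul s2 (k (.ofNat (nat_lit 444912)))) (mul s3 (k (.negSucc (nat_lit 37241)))))) (mul (pow s3 2) (k (.negSucc (nat_lit 343231))))))) (add (mul s2 (add (mul s2 (add (mul s2 (k (.ofNat (nat_lit 179086)))) (mul s3 (k (.ofNat (nat_lit 281134)))))) (mul (pow s3 2) (k (.negSucc (nat_lit 256599)))))) (mul (pow s3 3) (k (.ofNat (nat_lit 84180))))))) (add (mul s2 (add (mul s2 (add (mul s2 (add (mul s2 (k (.ofNat (nat_lit 228140)))) (mul s3 (k (.ofNat (nat_lit 166214)))))) (mul (pow s3 2) (k (.negSucc (nat_lit 874175)))))) (mul (pow s3 3) (k (.ofNat (nat_lit 244430)))))) (mul (pow s3 4) (k (.ofNat (nat_lit 597708)))))))) (add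 (mul s1 (add (mul s1 (add (mul s1 (add (mul s1 (add (mul s1 (k (.negSucc (nat_lit 51005)))) (add (mul s2 (k (.ofNat (nat_lit 236966)))) (mul s3 (k (.negSucc (nat_lit 90007))))))) (add (mul s2 (add (mul s2 (k (.negSucc (nat_lit 218831)))) (mul s3 (k (.ofNat (nat_lit 40676)))))) (mul (pow s3 2) (k (.ofNat (nat_lit 81228))))))) (add (mul s2 (add (mul s2 (add (mul s2 (k (.ofNat (nat_lit 102302)))) (mul s3 (k (.negSucc (nat_lit 74083)))))) (mul (pow s3 2) (k (.negSucc (nat_lit 37241)))))) (mul (pow s3 3) (k (.ofNat (nat_lit 70040))))))) (add (mul s2 (add (mul s2 (add (mul s2 (add (mul s2 (k (.ofNat (nat_lit 4436)))) (mul s3 (k (.negSucc (nat_lit 405655)))))) (mul (pow s3 2) (k (.ofNat (nat_lit 281134)))))) (mul (pow s3 3) (k (.ofNat (nat_lit 131604)))))) (mul (pow s3 4) (k (.negSucc (nat_lit 63247))))))) (add (mul s2 (add (mul s2 (add (mul s2 (add (mul s2 (add (mul s2 (k (.negSucc (nat_lit 8559)))) (mul s3 (k (.negSucc (nat_lit 124143))))))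 (mul (pow s3 2) (k (.ofNat (nat_lit 166214)))))) (mul (pow s3 3) (k (.ofNat (nat_lit 345402)))))) (mul (pow s3 4) (k (.negSucc (nat_lit 235585)))))) (mul (pow s3 5) (k (.negSucc (nat_lit 97829)))))))) (add (mul s1 (add (mul s1 (add (mul s1 (add (mul s1 (add (mul s1 (add (mul s1 (k (.ofNat (nat_lit 14156)))) (add (mul s2 (k (.ofNat (nat_lit 268260)))) (mul s3 (k (.negSucc (nat_lit 51005))))))) (add (mul s2 (add (mul s2 (k (.negSucc (nat_lit 1547831)))) (mul s3 (k (.ofNat (nat_lit 236966)))))) (mul (pow s3 2) (k (.ofNat (nat_lit 305860))))))) (add (mul s2 (add (mul s2 (add (mul s2 (k (.ofNat (nat_lit 2290584)))) (mul s3 (k (.negSucc (nat_lit 218831)))))) (mul (pow s3 2) (k (.negSucc (nat_lit 580169)))))) (mul (pow s3 3) (k (.negSucc (nat_lit 304563))))))) (add (mul s2 (add (mul s2 (add (mul s2 (add (mul s2 (k (.negSucc (nat_lit 1242039)))) (mul s3 (k (.ofNat (nat_lit 102302)))))) (mul (pow s3 2) (k (.ofNat (nat_lit 444912)))))) (mul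 (pow s3 3) (k (.ofNat (nat_lit 162340)))))) (mul (pow s3 4) (k (.ofNat (nat_lit 136520))))))) (add (mul s2 (add (mul s2 (add (mul s2 (add (mul s2 (add (mul s2 (k (.ofNat (nat_lit 197172)))) (mul s3 (k (.ofNat (nat_lit 4436)))))) (mul (pow s3 2) (k (.ofNat (nat_lit 179086)))))) (mul (pow s3 3) (k (.negSucc (nat_lit 436791)))))) (mul (pow s3 4) (k (.ofNat (nat_lit 38808)))))) (mul (pow s3 5) (k (.ofNat (nat_lit 1638))))))) (add (mul s2 (add (mul s2 (add (mul s2 (add (mul s2 (add (mul s2 (add (mul s2 (k (.ofNat (nat_lit 24464)))) (mul s3 (k (.negSucc (nat_lit 8559)))))) (mul (pow s3 2) (k (.ofNat (nat_lit 228140)))))) (mul (pow s3 3) (k (.negSucc (nat_lit 379129)))))) (mul (pow s3 4) (k (.ofNat (nat_lit 305860)))))) (mul (pow s3 5) (k (.negSucc (nat_lit 40259)))))) (mul (pow s3 6) (k (.negSucc (nat_lit 287))))))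
def kr0303 : PExp := add (mul s0 (add (mul s0 (add (mul s0 (add (mul s0 (add (mul s0 (add (mul s0 (k (.ofNat (nat_lit 2168)))) (add (mul s1 (k (.ofNat (nat_lit 18528)))) (add (mul s2 (k (.ofNat (nat_lit 148540)))) (mul s3 (k (.ofNat (nat_lit 18528)))))))) (add (mul s1 (add (mul s1 (k (.negSucc (nat_lit 304563)))) (add (mul s2 (k (.ofNat (nat_lit 279272)))) (mul s3 (k (.negSucc (nat_lit 72735))))))) (add (mul s2 (add (mul s2 (k (.negSucc (nat_lit 1008699)))) (mul s3 (k (.ofNat (nat_lit 279272)))))) (mul (pow s3 2) (k (.negSucc (nat_lit 304563)))))))) (add (mul s1 (add (mul s1 (add (mul s1 (k (.ofNat (nat_lit 531764)))) (add (mul s2 (k (.negSucc (nat_lit 188215)))) (mul s3 (k (.ofNat (nat_lit 147062))))))) (add (mul s2 (add (mul s2 (k (.negSucc (nat_lit 409991)))) (mul s3 (k (.negSucc (nat_lit 368679)))))) (mul (pow s3 2) (k (.ofNat (nat_lit 147062))))))) (add (mul s2 (add (mul s2 (add (mul s2 (k (.ofNat (nat_lit 1757920)))) (mul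 s3 (k (.negSucc (nat_lit 409991)))))) (mul (pow s3 2) (k (.negSucc (nat_lit 188215)))))) (mul (pow s3 3) (k (.ofNat (nat_lit 531764)))))))) (add (mul s1 (add (mul s1 (add (mul s1 (add (mul s1 (k (.negSucc (nat_lit 379129)))) (add (mul s2 (k (.negSucc (nat_lit 240581)))) (mul s3 (k (.ofNat (nat_lit 538020))))))) (add (mul s2 (add (mul s2 (k (.ofNat (nat_lit 1026424)))) (mul s3 (k (.negSucc (nat_lit 367665)))))) (mul (pow s3 2) (k (.negSucc (nat_lit 1010959))))))) (add (mul s2 (add (mul s2 (add (mul s2 (k (.negSucc (nat_lit 409991)))) (mul s3 (k (.ofNat (nat_lit 1185888)))))) (mul (pow s3 2) (k (.negSucc (nat_lit 367665)))))) (mul (pow s3 3) (k (.ofNat (nat_lit 538020))))))) (add (mul s2 (add (mul s2 (add (mul s2 (add (mul s2 (k (.negSucc (nat_lit 1008699)))) (mul s3 (k (.negSucc (nat_lit 409991)))))) (mul (pow s3 2) (k (.ofNat (nat_lit 1026424)))))) (mul (pow s3 3) (k (.negSucc (nat_lit 240581)))))) (mul (pow s3 4) (k (.negSucc (nat_lit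 379129)))))))) (add (mul s1 (add (mul s1 (add (mul s1 (add (mul s1 (add (mul s1 (k (.ofNat (nat_lit 74462)))) (add (mul s2 (k (.ofNat (nat_lit 150436)))) (mul s3 (k (.negSucc (nat_lit 282561))))))) (add (mul s2 (add (mul s2 (k (.negSucc (nat_lit 240581)))) (mul s3 (k (.ofNat (nat_lit 371904)))))) (mul (pow s3 2) (k (.ofNat (nat_lit 145386))))))) (add (mul s2 (add (mul s2 (add (mul s2 (k (.negSucc (nat_lit 188215)))) (mul s3 (k (.negSucc (nat_lit 367665)))))) (mul (pow s3 2) (k (.ofNat (nat_lit 270184)))))) (mul (pow s3 3) (k (.ofNat (nat_lit 145386))))))) (add (mul s2 (add (mul s2 (add (mul s2 (add (mul s2 (k (.ofNat (nat_lit 279272)))) (mul s3 (k (.negSucc (nat_lit 368679)))))) (mul (pow s3 2) (k (.negSucc (nat_lit 367665)))))) (mul (pow s3 3) (k (.ofNat (nat_lit 371904)))))) (mul (pow s3 4) (k (.negSucc (nat_lit 282561))))))) (add (mul s2 (add (mul s2 (add (mul s2 (add (mul s2 (add (mul s2 (k (.ofNat (nat_lit 148540)))) (mul s3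 (k (.ofNat (nat_lit 279272)))))) (mul (pow s3 2) (k (.negSucc (nat_lit 188215)))))) (mul (pow s3 3) (k (.negSucc (nat_lit 240581)))))) (mul (pow s3 4) (k (.ofNat (nat_lit 150436)))))) (mul (pow s3 5) (k (.ofNat (nat_lit 74462)))))))) (add (mul s1 (add (mul s1 (add (mul s1 (add (mul s1 (add (mul s1 (add (mul s1 (k (.ofNat (nat_lit 780)))) (add (mul s2 (k (.ofNat (nat_lit 74462)))) (mul s3 (k (.negSucc (nat_lit 341423))))))) (add (mul s2 (add (mul s2 (k (.negSucc (nat_lit 379129)))) (mul s3 (k (.negSucc (nat_lit 282561)))))) (mul (pow s3 2) (k (.ofNat (nat_lit 2290584))))))) (add (mul s2 (add (mul s2 (add (mul s2 (k (.ofNat (nat_lit 531764)))) (mul s3 (k (.ofNat (nat_lit 538020)))))) (mul (pow s3 2) (k (.ofNat (nat_lit 145386)))))) (mul (pow s3 3) (k (.negSucc (nat_lit 3837791))))))) (add (mul s2 (add (mul s2 (add (mul s2 (add (mul s2 (k (.negSucc (nat_lit 304563)))) (mul s3 (k (.ofNat (nat_lit 147062)))))) (mul (pow s3 2) (k (.negSucc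 (nat_lit 1010959)))))) (mul (pow s3 3) (k (.ofNat (nat_lit 145386)))))) (mul (pow s3 4) (k (.ofNat (nat_lit 2290584))))))) (add (mul s2 (add (mul s2 (add (mul s2 (add (mul s2 (add (mul s2 (k (.ofNat (nat_lit 18528)))) (mul s3 (k (.negSucc (nat_lit 72735)))))) (mul (pow s3 2) (k (.ofNat (nat_lit 147062)))))) (mul (pow s3 3) (k (.ofNat (nat_lit 538020)))))) (mul (pow s3 4) (k (.negSucc (nat_lit 282561)))))) (mul (pow s3 5) (k (.negSucc (nat_lit 341423))))))) (add (mul s2 (add (mul s2 (add (mul s2 (add (mul s2 (add (mul s2 (add (mul s2 (k (.ofNat (nat_lit 2168)))) (mul s3 (k (.ofNat (nat_lit 18528)))))) (mul (pow s3 2) (k (.negSucc (nat_lit 304563)))))) (mul (pow s3 3) (k (.ofNat (nat_lit 531764)))))) (mul (pow s3 4) (k (.negSucc (nat_lit 379129)))))) (mul (pow s3 5) (k (.ofNat (nat_lit 74462)))))) (mul (pow s3 6) (k (.ofNat (nat_lit 780))))))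
def kr0312 : PExp := add (mul s0 (add (mul s0 (add (mul s0 (add (mul s0 (add (mul s0 (add (mul s0 (k (.negSucc (nat_lit 6683)))) (add (mul s1 (k (.ofNat (nat_lit 19402)))) (add (mul s2 (k (.ofNat (nat_lit 12686)))) (mul s3 (k (.ofNat (nat_lit 13380)))))))) (add (mul s1 (add (mul s1 (k (.ofNat (nat_lit 81228)))) (add (mul s2 (k (.ofNat (nat_lit 377650)))) (mul s3 (k (.negSucc (nat_lit 279931))))))) (add (mul s2 (add (mul s2 (k (.ofNat (nat_lit 84180)))) (mul s3 (k (.negSucc (nat_lit 515387)))))) (mul (pow s3 2) (k (.ofNat (nat_lit 70040)))))))) (add (mul s1 (add (mul s1 (add (mul s1 (k (.negSucc (nat_lit 240581)))) (add (mul s2 (k (.negSucc (nat_lit 1612883)))) (mul s3 (k (.ofNat (nat_lit 2210688))))))) (add (mul s2 (add (mul s2 (k (.ofNat (nat_lit 239942)))) (mul s3 (k (.negSucc (nat_lit 223871)))))) (mul (pow s3 2) (k (.negSucc (nat_lit 1394593))))))) (add (mul s2 (add (mul s2 (add (mul s2 (k (.negSucc (nat_lit 409991)))) (mul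 s3 (k (.ofNat (nat_lit 589078)))))) (mul (pow s3 2) (k (.ofNat (nat_lit 1381968)))))) (mul (pow s3 3) (k (.negSucc (nat_lit 188215)))))))) (add (mul s1 (add (mul s1 (add (mul s1 (add (mul s1 (k (.ofNat (nat_lit 166214)))) (add (mul s2 (k (.ofNat (nat_lit 1172184)))) (mul s3 (k (.negSucc (nat_lit 1476847))))))) (add (mul s2 (add (mul s2 (k (.ofNat (nat_lit 1088034)))) (mul s3 (k (.negSucc (nat_lit 1196751)))))) (mul (pow s3 2) (k (.negSucc (nat_lit 89533))))))) (add (mul s2 (add (mul s2 (add (mul s2 (k (.negSucc (nat_lit 257311)))) (mul s3 (k (.negSucc (nat_lit 1001959)))))) (mul (pow s3 2) (k (.ofNat (nat_lit 2200456)))))) (mul (pow s3 3) (k (.ofNat (nat_lit 779604))))))) (add (mul s2 (add (mul s2 (add (mul s2 (add (mul s2 (k (.ofNat (nat_lit 244430)))) (mul s3 (k (.ofNat (nat_lit 239942)))))) (mul (pow s3 2) (k (.negSucc (nat_lit 774799)))))) (mul (pow s3 3) (k (.negSucc (nat_lit 1612883)))))) (mul (pow s3 4) (k (.ofNat (nat_lit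 345402)))))))) (add (mul s1 (add (mul s1 (add (mul s1 (add (mul s1 (add (mul s1 (k (.negSucc (nat_lit 28009)))) (add (mul s2 (k (.ofNat (nat_lit 85490)))) (mul s3 (k (.negSucc (nat_lit 244513))))))) (add (mul s2 (add (mul s2 (k (.negSucc (nat_lit 1476847)))) (mul s3 (k (.ofNat (nat_lit 590038)))))) (mul (pow s3 2) (k (.ofNat (nat_lit 1730576))))))) (add (mul s2 (add (mul s2 (add (mul s2 (k (.ofNat (nat_lit 779604)))) (mul s3 (k (.negSucc (nat_lit 109261)))))) (mul (pow s3 2) (k (.ofNat (nat_lit 90034)))))) (mul (pow s3 3) (k (.negSucc (nat_lit 1718075))))))) (add (mul s2 (add (mul s2 (add (mul s2 (add (mul s2 (k (.negSucc (nat_lit 363083)))) (mul s3 (k (.ofNat (nat_lit 708250)))))) (mul (pow s3 2) (k (.negSucc (nat_lit 156185)))))) (mul (pow s3 3) (k (.negSucc (nat_lit 985891)))))) (mul (pow s3 4) (k (.ofNat (nat_lit 392832))))))) (add (mul s2 (add (mul s2 (add (mul s2 (add (mul s2 (add (mul s2 (k (.ofNat (nat_lit 8716)))) (mul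 s3 (k (.ofNat (nat_lit 74158)))))) (mul (pow s3 2) (k (.negSucc (nat_lit 1394593)))))) (mul (pow s3 3) (k (.ofNat (nat_lit 2210688)))))) (mul (pow s3 4) (k (.negSucc (nat_lit 171619)))))) (mul (pow s3 5) (k (.negSucc (nat_lit 112807)))))))) (add (mul s1 (add (mul s1 (add (mul s1 (add (mul s1 (add (mul s1 (add (mul s1 (k (.ofNat (nat_lit 10836)))) (add (mul s2 (k (.negSucc (nat_lit 162855)))) (mul s3 (k (.negSucc (nat_lit 75581))))))) (add (mul s2 (add (mul s2 (k (.ofNat (nat_lit 179086)))) (mul s3 (k (.ofNat (nat_lit 1004130)))))) (mul (pow s3 2) (k (.ofNat (nat_lit 102302))))))) (add (mul s2 (add (mul s2 (add (mul s2 (k (.ofNat (nat_lit 538020)))) (mul s3 (k (.negSucc (nat_lit 800143)))))) (mul (pow s3 2) (k (.negSucc (nat_lit 2165303)))))) (mul (pow s3 3) (k (.ofNat (nat_lit 145386))))))) (add (mul s2 (add (mul s2 (add (mul s2 (add (mul s2 (k (.negSucc (nat_lit 580169)))) (mul s3 (k (.negSucc (nat_lit 20809)))))) (mul (pow s3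 2) (k (.ofNat (nat_lit 294672)))))) (mul (pow s3 3) (k (.ofNat (nat_lit 2030976)))))) (mul (pow s3 4) (k (.negSucc (nat_lit 218831))))))) (add (mul s2 (add (mul s2 (add (mul s2 (add (mul s2 (add (mul s2 (k (.ofNat (nat_lit 143646)))) (mul s3 (k (.ofNat (nat_lit 202882)))))) (mul (pow s3 2) (k (.ofNat (nat_lit 80396)))))) (mul (pow s3 3) (k (.negSucc (nat_lit 20809)))))) (mul (pow s3 4) (k (.negSucc (nat_lit 509659)))))) (mul (pow s3 5) (k (.ofNat (nat_lit 37368))))))) (add (mul s2 (add (mul s2 (add (mul s2 (add (mul s2 (add (mul s2 (add (mul s2 (k (.negSucc (nat_lit 7007)))) (mul s3 (k (.negSucc (nat_lit 104501)))))) (mul (pow s3 2) (k (.ofNat (nat_lit 162340)))))) (mul (pow s3 3) (k (.ofNat (nat_lit 147062)))))) (mul (pow s3 4) (k (.negSucc (nat_lit 436791)))))) (mul (pow s3 5) (k (.ofNat (nat_lit 152170)))))) (mul (pow s3 6) (k (.ofNat (nat_lit 2232))))))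
def kr0321 : PExp := add (mul s0 (add (mul s0 (add (mul s0 (add (mul s0 (add (mul s0 (add (mul s0 (k (.negSucc (nat_lit 6683)))) (add (mul s1 (k (.ofNat (nat_lit 19402)))) (add (mul s2 (k (.ofNat (nat_lit 13380)))) (mul s3 (k (.ofNat (nat_lit 12686)))))))) (add (mul s1 (add (mul s1 (k (.ofNat (nat_lit 81228)))) (add (mul s2 (k (.negSucc (nat_lit 279931)))) (mul s3 (k (.ofNat (nat_lit 377650))))))) (add (mul s2 (add (mul s2 (k (.ofNat (nat_lit 70040)))) (mul s3 (k (.negSucc (nat_lit 515387)))))) (mul (pow s3 2) (k (.ofNat (nat_lit 84180)))))))) (add (mul s1 (add (mul s1 (add (mul s1 (k (.negSucc (nat_lit 240581)))) (add (mul s2 (k (.ofNat (nat_lit 2210688)))) (mul s3 (k (.negSucc (nat_lit 1612883))))))) (add (mul s2 (add (mul s2 (k (.negSucc (nat_lit 1394593)))) (mul s3 (k (.negSucc (nat_lit 223871)))))) (mul (pow s3 2) (k (.ofNat (nat_lit 239942))))))) (add (mul s2 (add (mul s2 (add (mul s2 (k (.negSucc (nat_lit 188215)))) (mul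 s3 (k (.ofNat (nat_lit 1381968)))))) (mul (pow s3 2) (k (.ofNat (nat_lit 589078)))))) (mul (pow s3 3) (k (.negSucc (nat_lit 409991)))))))) (add (mul s1 (add (mul s1 (add (mul s1 (add (mul s1 (k (.ofNat (nat_lit 166214)))) (add (mul s2 (k (.negSucc (nat_lit 1476847)))) (mul s3 (k (.ofNat (nat_lit 1172184))))))) (add (mul s2 (add (mul s2 (k (.negSucc (nat_lit 89533)))) (mul s3 (k (.negSucc (nat_lit 1196751)))))) (mul (pow s3 2) (k (.ofNat (nat_lit 1088034))))))) (add (mul s2 (add (mul s2 (add (mul s2 (k (.ofNat (nat_lit 779604)))) (mul s3 (k (.ofNat (nat_lit 2200456)))))) (mul (pow s3 2) (k (.negSucc (nat_lit 1001959)))))) (mul (pow s3 3) (k (.negSucc (nat_lit 257311))))))) (add (mul s2 (add (mul s2 (add (mul s2 (add (mul s2 (k (.ofNat (nat_lit 345402)))) (mul s3 (k (.negSucc (nat_lit 1612883)))))) (mul (pow s3 2) (k (.negSucc (nat_lit 774799)))))) (mul (pow s3 3) (k (.ofNat (nat_lit 239942)))))) (mul (pow s3 4) (k (.ofNat (nat_lit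 244430)))))))) (add (mul s1 (add (mul s1 (add (mul s1 (add (mul s1 (add (mul s1 (k (.negSucc (nat_lit 28009)))) (add (mul s2 (k (.negSucc (nat_lit 244513)))) (mul s3 (k (.ofNat (nat_lit 85490))))))) (add (mul s2 (add (mul s2 (k (.ofNat (nat_lit 1730576)))) (mul s3 (k (.ofNat (nat_lit 590038)))))) (mul (pow s3 2) (k (.negSucc (nat_lit 1476847))))))) (add (mul s2 (add (mul s2 (add (mul s2 (k (.negSucc (nat_lit 1718075)))) (mul s3 (k (.ofNat (nat_lit 90034)))))) (mul (pow s3 2) (k (.negSucc (nat_lit 109261)))))) (mul (pow s3 3) (k (.ofNat (nat_lit 779604))))))) (add (mul s2 (add (mul s2 (add (mul s2 (add (mul s2 (k (.ofNat (nat_lit 392832)))) (mul s3 (k (.negSucc (nat_lit 985891)))))) (mul (pow s3 2) (k (.negSucc (nat_lit 156185)))))) (mul (pow s3 3) (k (.ofNat (nat_lit 708250)))))) (mul (pow s3 4) (k (.negSucc (nat_lit 363083))))))) (add (mul s2 (add (mul s2 (add (mul s2 (add (mul s2 (add (mul s2 (k (.negSucc (nat_lit 112807)))) (mul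 s3 (k (.negSucc (nat_lit 171619)))))) (mul (pow s3 2) (k (.ofNat (nat_lit 2210688)))))) (mul (pow s3 3) (k (.negSucc (nat_lit 1394593)))))) (mul (pow s3 4) (k (.ofNat (nat_lit 74158)))))) (mul (pow s3 5) (k (.ofNat (nat_lit 8716)))))))) (add (mul s1 (add (mul s1 (add (mul s1 (add (mul s1 (add (mul s1 (add (mul s1 (k (.ofNat (nat_lit 10836)))) (add (mul s2 (k (.negSucc (nat_lit 75581)))) (mul s3 (k (.negSucc (nat_lit 162855))))))) (add (mul s2 (add (mul s2 (k (.ofNat (nat_lit 102302)))) (mul s3 (k (.ofNat (nat_lit 1004130)))))) (mul (pow s3 2) (k (.ofNat (nat_lit 179086))))))) (add (mul s2 (add (mul s2 (add (mul s2 (k (.ofNat (nat_lit 145386)))) (mul s3 (k (.negSucc (nat_lit 2165303)))))) (mul (pow s3 2) (k (.negSucc (nat_lit 800143)))))) (mul (pow s3 3) (k (.ofNat (nat_lit 538020))))))) (add (mul s2 (add (mul s2 (add (mul s2 (add (mul s2 (k (.negSucc (nat_lit 218831)))) (mul s3 (k (.ofNat (nat_lit 2030976)))))) (mul (pow s3 2) (k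 (.ofNat (nat_lit 294672)))))) (mul (pow s3 3) (k (.negSucc (nat_lit 20809)))))) (mul (pow s3 4) (k (.negSucc (nat_lit 580169))))))) (add (mul s2 (add (mul s2 (add (mul s2 (add (mul s2 (add (mul s2 (k (.ofNat (nat_lit 37368)))) (mul s3 (k (.negSucc (nat_lit 509659)))))) (mul (pow s3 2) (k (.negSucc (nat_lit 20809)))))) (mul (pow s3 3) (k (.ofNat (nat_lit 80396)))))) (mul (pow s3 4) (k (.ofNat (nat_lit 202882)))))) (mul (pow s3 5) (k (.ofNat (nat_lit 143646))))))) (add (mul s2 (add (mul s2 (add (mul s2 (add (mul s2 (add (mul s2 (add (mul s2 (k (.ofNat (nat_lit 2232)))) (mul s3 (k (.ofNat (nat_lit 152170)))))) (mul (pow s3 2) (k (.negSucc (nat_lit 436791)))))) (mul (pow s3 3) (k (.ofNat (nat_lit 147062)))))) (mul (pow s3 4) (k (.ofNat (nat_lit 162340)))))) (mul (pow s3 5) (k (.negSucc (nat_lit 104501)))))) (mul (pow s3 6) (k (.negSucc (nat_lit 7007))))))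
def kr0330 : PExp := add (mul s0 (add (mul s0 (add (mul s0 (add (mul s0 (add (mul s0 (add (mul s0 (k (.ofNat (nat_lit 2168)))) (add (mul s1 (k (.ofNat (nat_lit 18528)))) (add (mul s2 (k (.ofNat (nat_lit 18528)))) (mul s3 (k (.ofNat (nat_lit 148540)))))))) (add (mul s1 (add (mul s1 (k (.negSucc (nat_lit 304563)))) (add (mul s2 (k (.negSucc (nat_lit 72735)))) (mul s3 (k (.ofNat (nat_lit 279272))))))) (add (mul s2 (add (mul s2 (k (.negSucc (nat_lit 304563)))) (mul s3 (k (.ofNat (nat_lit 279272)))))) (mul (pow s3 2) (k (.negSucc (nat_lit 1008699)))))))) (add (mul s1 (add (mul s1 (add (mul s1 (k (.ofNat (nat_lit 531764)))) (add (mul s2 (k (.ofNat (nat_lit 147062)))) (mul s3 (k (.negSucc (nat_lit 188215))))))) (add (mul s2 (add (mul s2 (k (.ofNat (nat_lit 147062)))) (mul s3 (k (.negSucc (nat_lit 368679)))))) (mul (pow s3 2) (k (.negSucc (nat_lit 409991))))))) (add (mul s2 (add (mul s2 (add (mul s2 (k (.ofNat (nat_lit 531764)))) (mul s3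 (k (.negSucc (nat_lit 188215)))))) (mul (pow s3 2) (k (.negSucc (nat_lit 409991)))))) (mul (pow s3 3) (k (.ofNat (nat_lit 1757920)))))))) (add (mul s1 (add (mul s1 (add (mul s1 (add (mul s1 (k (.negSucc (nat_lit 379129)))) (add (mul s2 (k (.ofNat (nat_lit 538020)))) (mul s3 (k (.negSucc (nat_lit 240581))))))) (add (mul s2 (add (mul s2 (k (.negSucc (nat_lit 1010959)))) (mul s3 (k (.negSucc (nat_lit 367665)))))) (mul (pow s3 2) (k (.ofNat (nat_lit 1026424))))))) (add (mul s2 (add (mul s2 (add (mul s2 (k (.ofNat (nat_lit 538020)))) (mul s3 (k (.negSucc (nat_lit 367665)))))) (mul (pow s3 2) (k (.ofNat (nat_lit 1185888)))))) (mul (pow s3 3) (k (.negSucc (nat_lit 409991))))))) (add (mul s2 (add (mul s2 (add (mul s2 (add (mul s2 (k (.negSucc (nat_lit 379129)))) (mul s3 (k (.negSucc (nat_lit 240581)))))) (mul (pow s3 2) (k (.ofNat (nat_lit 1026424)))))) (mul (pow s3 3) (k (.negSucc (nat_lit 409991)))))) (mul (pow s3 4) (k (.negSucc (nat_lit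 1008699)))))))) (add (mul s1 (add (mul s1 (add (mul s1 (add (mul s1 (add (mul s1 (k (.ofNat (nat_lit 74462)))) (add (mul s2 (k (.negSucc (nat_lit 282561)))) (mul s3 (k (.ofNat (nat_lit 150436))))))) (add (mul s2 (add (mul s2 (k (.ofNat (nat_lit 145386)))) (mul s3 (k (.ofNat (nat_lit 371904)))))) (mul (pow s3 2) (k (.negSucc (nat_lit 240581))))))) (add (mul s2 (add (mul s2 (add (mul s2 (k (.ofNat (nat_lit 145386)))) (mul s3 (k (.ofNat (nat_lit 270184)))))) (mul (pow s3 2) (k (.negSucc (nat_lit 367665)))))) (mul (pow s3 3) (k (.negSucc (nat_lit 188215))))))) (add (mul s2 (add (mul s2 (add (mul s2 (add (mul s2 (k (.negSucc (nat_lit 282561)))) (mul s3 (k (.ofNat (nat_lit 371904)))))) (mul (pow s3 2) (k (.negSucc (nat_lit 367665)))))) (mul (pow s3 3) (k (.negSucc (nat_lit 368679)))))) (mul (pow s3 4) (k (.ofNat (nat_lit 279272))))))) (add (mul s2 (add (mul s2 (add (mul s2 (add (mul s2 (add (mul s2 (k (.ofNat (nat_lit 74462)))) (mul s3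 (k (.ofNat (nat_lit 150436)))))) (mul (pow s3 2) (k (.negSucc (nat_lit 240581)))))) (mul (pow s3 3) (k (.negSucc (nat_lit 188215)))))) (mul (pow s3 4) (k (.ofNat (nat_lit 279272)))))) (mul (pow s3 5) (k (.ofNat (nat_lit 148540)))))))) (add (mul s1 (add (mul s1 (add (mul s1 (add (mul s1 (add (mul s1 (add (mul s1 (k (.ofNat (nat_lit 780)))) (add (mul s2 (k (.negSucc (nat_lit 341423)))) (mul s3 (k (.ofNat (nat_lit 74462))))))) (add (mul s2 (add (mul s2 (k (.ofNat (nat_lit 2290584)))) (mul s3 (k (.negSucc (nat_lit 282561)))))) (mul (pow s3 2) (k (.negSucc (nat_lit 379129))))))) (add (mul s2 (add (mul s2 (add (mul s2 (k (.negSucc (nat_lit 3837791)))) (mul s3 (k (.ofNat (nat_lit 145386)))))) (mul (pow s3 2) (k (.ofNat (nat_lit 538020)))))) (mul (pow s3 3) (k (.ofNat (nat_lit 531764))))))) (add (mul s2 (add (mul s2 (add (mul s2 (add (mul s2 (k (.ofNat (nat_lit 2290584)))) (mul s3 (k (.ofNat (nat_lit 145386)))))) (mul (pow s3 2) (k (.negSucc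 (nat_lit 1010959)))))) (mul (pow s3 3) (k (.ofNat (nat_lit 147062)))))) (mul (pow s3 4) (k (.negSucc (nat_lit 304563))))))) (add (mul s2 (add (mul s2 (add (mul s2 (add (mul s2 (add (mul s2 (k (.negSucc (nat_lit 341423)))) (mul s3 (k (.negSucc (nat_lit 282561)))))) (mul (pow s3 2) (k (.ofNat (nat_lit 538020)))))) (mul (pow s3 3) (k (.ofNat (nat_lit 147062)))))) (mul (pow s3 4) (k (.negSucc (nat_lit 72735)))))) (mul (pow s3 5) (k (.ofNat (nat_lit 18528))))))) (add (mul s2 (add (mul s2 (add (mul s2 (add (mul s2 (add (mul s2 (add (mul s2 (k (.ofNat (nat_lit 780)))) (mul s3 (k (.ofNat (nat_lit 74462)))))) (mul (pow s3 2) (k (.negSucc (nat_lit 379129)))))) (mul (pow s3 3) (k (.ofNat (nat_lit 531764)))))) (mul (pow s3 4) (k (.negSucc (nat_lit 304563)))))) (mul (pow s3 5) (k (.ofNat (nat_lit 18528)))))) (mul (pow s3 6) (k (.ofNat (nat_lit 2168))))))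
def kr0402 : PExp := add (mul s0 (add (mul s0 (add (mul s0 (add (mul s0 (add (mul s0 (add (mul s0 (k (.negSucc (nat_lit 287)))) (add (mul s1 (k (.negSucc (nat_lit 40259)))) (add (mul s2 (k (.negSucc (nat_lit 97829)))) (mul s3 (k (.ofNat (nat_lit 1638)))))))) (add (mul s1 (add (mul s1 (k (.ofNat (nat_lit 305860)))) (add (mul s2 (k (.negSucc (nat_lit 235585)))) (mul s3 (k (.ofNat (nat_lit 38808))))))) (add (mul s2 (add (mul s2 (k (.ofNat (nat_lit 597708)))) (mul s3 (k (.negSucc (nat_lit 63247)))))) (mul (pow s3 2) (k (.ofNat (nat_lit 136520)))))))) (add (mul s1 (add (mul s1 (add (mul s1 (k (.negSucc (nat_lit 379129)))) (add (mul s2 (k (.ofNat (nat_lit 345402)))) (mul s3 (k (.negSucc (nat_lit 436791))))))) (add (mul s2 (add (mul s2 (k (.ofNat (nat_lit 244430)))) (mul s3 (k (.ofNat (nat_lit 131604)))))) (mul (pow s3 2) (k (.ofNat (nat_lit 162340))))))) (add (mul s2 (add (mul s2 (add (mul s2 (k (.negSucc (nat_lit 1008699)))) (mul s3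 (k (.ofNat (nat_lit 84180)))))) (mul (pow s3 2) (k (.ofNat (nat_lit 70040)))))) (mul (pow s3 3) (k (.negSucc (nat_lit 304563)))))))) (add (mul s1 (add (mul s1 (add (mul s1 (add (mul s1 (k (.ofNat (nat_lit 228140)))) (add (mul s2 (k (.ofNat (nat_lit 166214)))) (mul s3 (k (.ofNat (nat_lit 179086))))))) (add (mul s2 (add (mul s2 (k (.negSucc (nat_lit 874175)))) (mul s3 (k (.ofNat (nat_lit 281134)))))) (mul (pow s3 2) (k (.ofNat (nat_lit 444912))))))) (add (mul s2 (add (mul s2 (add (mul s2 (k (.ofNat (nat_lit 244430)))) (mul s3 (k (.negSucc (nat_lit 256599)))))) (mul (pow s3 2) (k (.negSucc (nat_lit 37241)))))) (mul (pow s3 3) (k (.negSucc (nat_lit 580169))))))) (add (mul s2 (add (mul s2 (add (mul s2 (add (mul s2 (k (.ofNat (nat_lit 597708)))) (mul s3 (k (.ofNat (nat_lit 84180)))))) (mul (pow s3 2) (k (.negSucc (nat_lit 343231)))))) (mul (pow s3 3) (k (.ofNat (nat_lit 81228)))))) (mul (pow s3 4) (k (.ofNat (nat_lit 305860)))))))) (add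 (mul s1 (add (mul s1 (add (mul s1 (add (mul s1 (add (mul s1 (k (.negSucc (nat_lit 8559)))) (add (mul s2 (k (.negSucc (nat_lit 124143)))) (mul s3 (k (.ofNat (nat_lit 4436))))))) (add (mul s2 (add (mul s2 (k (.ofNat (nat_lit 166214)))) (mul s3 (k (.negSucc (nat_lit 405655)))))) (mul (pow s3 2) (k (.ofNat (nat_lit 102302))))))) (add (mul s2 (add (mul s2 (add (mul s2 (k (.ofNat (nat_lit 345402)))) (mul s3 (k (.ofNat (nat_lit 281134)))))) (mul (pow s3 2) (k (.negSucc (nat_lit 74083)))))) (mul (pow s3 3) (k (.negSucc (nat_lit 218831))))))) (add (mul s2 (add (mul s2 (add (mul s2 (add (mul s2 (k (.negSucc (nat_lit 235585)))) (mul s3 (k (.ofNat (nat_lit 131604)))))) (mul (pow s3 2) (k (.negSucc (nat_lit 37241)))))) (mul (pow s3 3) (k (.ofNat (nat_lit 40676)))))) (mul (pow s3 4) (k (.ofNat (nat_lit 236966))))))) (add (mul s2 (add (mul s2 (add (mul s2 (add (mul s2 (add (mul s2 (k (.negSucc (nat_lit 97829)))) (mul s3 (k (.negSucc (nat_lit 63247))))))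 (mul (pow s3 2) (k (.ofNat (nat_lit 70040)))))) (mul (pow s3 3) (k (.ofNat (nat_lit 81228)))))) (mul (pow s3 4) (k (.negSucc (nat_lit 90007)))))) (mul (pow s3 5) (k (.negSucc (nat_lit 51005)))))))) (add (mul s1 (add (mul s1 (add (mul s1 (add (mul s1 (add (mul s1 (add (mul s1 (k (.ofNat (nat_lit 24464)))) (add (mul s2 (k (.negSucc (nat_lit 8559)))) (mul s3 (k (.ofNat (nat_lit 197172))))))) (add (mul s2 (add (mul s2 (k (.ofNat (nat_lit 228140)))) (mul s3 (k (.ofNat (nat_lit 4436)))))) (mul (pow s3 2) (k (.negSucc (nat_lit 1242039))))))) (add (mul s2 (add (mul s2 (add (mul s2 (k (.negSucc (nat_lit 379129)))) (mul s3 (k (.ofNat (nat_lit 179086)))))) (mul (pow s3 2) (k (.ofNat (nat_lit 102302)))))) (mul (pow s3 3) (k (.ofNat (nat_lit 2290584))))))) (add (mul s2 (add (mul s2 (add (mul s2 (add (mul s2 (k (.ofNat (nat_lit 305860)))) (mul s3 (k (.negSucc (nat_lit 436791)))))) (mul (pow s3 2) (k (.ofNat (nat_lit 444912)))))) (mul (pow s3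 3) (k (.negSucc (nat_lit 218831)))))) (mul (pow s3 4) (k (.negSucc (nat_lit 1547831))))))) (add (mul s2 (add (mul s2 (add (mul s2 (add (mul s2 (add (mul s2 (k (.negSucc (nat_lit 40259)))) (mul s3 (k (.ofNat (nat_lit 38808)))))) (mul (pow s3 2) (k (.ofNat (nat_lit 162340)))))) (mul (pow s3 3) (k (.negSucc (nat_lit 580169)))))) (mul (pow s3 4) (k (.ofNat (nat_lit 236966)))))) (mul (pow s3 5) (k (.ofNat (nat_lit 268260))))))) (add (mul s2 (add (mul s2 (add (mul s2 (add (mul s2 (add (mul s2 (add (mul s2 (k (.negSucc (nat_lit 287)))) (mul s3 (k (.ofNat (nat_lit 1638)))))) (mul (pow s3 2) (k (.ofNat (nat_lit 136520)))))) (mul (pow s3 3) (k (.negSucc (nat_lit 304563)))))) (mul (pow s3 4) (k (.ofNat (nat_lit 305860)))))) (mul (pow s3 5) (k (.negSucc (nat_lit 51005)))))) (mul (pow s3 6) (k (.ofNat (nat_lit 14156))))))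
def kr0411 : PExp := add (mul s0 (add (mul s0 (add (mul s0 (add (mul s0 (add (mul s0 (add (mul s0 (k (.ofNat (nat_lit 6840)))) (add (mul s1 (k (.negSucc (nat_lit 3163)))) (add (mul s2 (k (.negSucc (nat_lit 11759)))) (mul s3 (k (.negSucc (nat_lit 11759)))))))) (add (mul s1 (add (mul s1 (k (.negSucc (nat_lit 90007)))) (add (mul s2 (k (.ofNat (nat_lit 79606)))) (mul s3 (k (.ofNat (nat_lit 79606))))))) (add (mul s2 (add (mul s2 (k (.negSucc (nat_lit 63247)))) (mul s3 (k (.ofNat (nat_lit 229388)))))) (mul (pow s3 2) (k (.negSucc (nat_lit 63247)))))))) (add (mul s1 (add (mul s1 (add (mul s1 (k (.ofNat (nat_lit 150436)))) (add (mul s2 (k (.negSucc (nat_lit 171619)))) (mul s3 (k (.negSucc (nat_lit 171619))))))) (add (mul s2 (add (mul s2 (k (.ofNat (nat_lit 74158)))) (mul s3 (k (.ofNat (nat_lit 436)))))) (mul (pow s3 2) (k (.ofNat (nat_lit 74158))))))) (add (mul s2 (add (mul s2 (add (mul s2 (k (.ofNat (nat_lit 279272)))) (mul s3 (k (.negSucc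 (nat_lit 515387)))))) (mul (pow s3 2) (k (.negSucc (nat_lit 515387)))))) (mul (pow s3 3) (k (.ofNat (nat_lit 279272)))))))) (add (mul s1 (add (mul s1 (add (mul s1 (add (mul s1 (k (.negSucc (nat_lit 124143)))) (add (mul s2 (k (.ofNat (nat_lit 85490)))) (mul s3 (k (.ofNat (nat_lit 85490))))))) (add (mul s2 (add (mul s2 (k (.ofNat (nat_lit 207398)))) (mul s3 (k (.negSucc (nat_lit 38315)))))) (mul (pow s3 2) (k (.ofNat (nat_lit 207398))))))) (add (mul s2 (add (mul s2 (add (mul s2 (k (.negSucc (nat_lit 363083)))) (mul s3 (k (.ofNat (nat_lit 162200)))))) (mul (pow s3 2) (k (.ofNat (nat_lit 162200)))))) (mul (pow s3 3) (k (.negSucc (nat_lit 363083))))))) (add (mul s2 (add (mul s2 (add (mul s2 (add (mul s2 (k (.negSucc (nat_lit 235585)))) (mul s3 (k (.ofNat (nat_lit 377650)))))) (mul (pow s3 2) (k (.ofNat (nat_lit 308164)))))) (mul (pow s3 3) (k (.ofNat (nat_lit 377650)))))) (mul (pow s3 4) (k (.negSucc (nat_lit 235585)))))))) (add (mul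 s1 (add (mul s1 (add (mul s1 (add (mul s1 (add (mul s1 (k (.ofNat (nat_lit 37872)))) (add (mul s2 (k (.negSucc (nat_lit 12207)))) (mul s3 (k (.negSucc (nat_lit 12207))))))) (add (mul s2 (add (mul s2 (k (.negSucc (nat_lit 244513)))) (mul s3 (k (.ofNat (nat_lit 349768)))))) (mul (pow s3 2) (k (.negSucc (nat_lit 244513))))))) (add (mul s2 (add (mul s2 (add (mul s2 (k (.ofNat (nat_lit 392832)))) (mul s3 (k (.negSucc (nat_lit 458507)))))) (mul (pow s3 2) (k (.negSucc (nat_lit 458507)))))) (mul (pow s3 3) (k (.ofNat (nat_lit 392832))))))) (add (mul s2 (add (mul s2 (add (mul s2 (add (mul s2 (k (.ofNat (nat_lit 41104)))) (mul s3 (k (.negSucc (nat_lit 180055)))))) (mul (pow s3 2) (k (.ofNat (nat_lit 659104)))))) (mul (pow s3 3) (k (.negSucc (nat_lit 180055)))))) (mul (pow s3 4) (k (.ofNat (nat_lit 41104))))))) (add (mul s2 (add (mul s2 (add (mul s2 (add (mul s2 (add (mul s2 (k (.ofNat (nat_lit 38288)))) (mul s3 (k (.ofNat (nat_lit 79606))))))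 (mul (pow s3 2) (k (.negSucc (nat_lit 279931)))))) (mul (pow s3 3) (k (.negSucc (nat_lit 279931)))))) (mul (pow s3 4) (k (.ofNat (nat_lit 79606)))))) (mul (pow s3 5) (k (.ofNat (nat_lit 38288)))))))) (add (mul s1 (add (mul s1 (add (mul s1 (add (mul s1 (add (mul s1 (add (mul s1 (k (.negSucc (nat_lit 1267)))) (add (mul s2 (k (.ofNat (nat_lit 37660)))) (mul s3 (k (.ofNat (nat_lit 37660))))))) (add (mul s2 (add (mul s2 (k (.ofNat (nat_lit 4436)))) (mul s3 (k (.negSucc (nat_lit 631871)))))) (mul (pow s3 2) (k (.ofNat (nat_lit 4436))))))) (add (mul s2 (add (mul s2 (add (mul s2 (k (.negSucc (nat_lit 282561)))) (mul s3 (k (.ofNat (nat_lit 1004130)))))) (mul (pow s3 2) (k (.ofNat (nat_lit 1004130)))))) (mul (pow s3 3) (k (.negSucc (nat_lit 282561))))))) (add (mul s2 (add (mul s2 (add (mul s2 (add (mul s2 (k (.ofNat (nat_lit 236966)))) (mul s3 (k (.negSucc (nat_lit 509659)))))) (mul (pow s3 2) (k (.negSucc (nat_lit 789247)))))) (mul (pow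 s3 3) (k (.negSucc (nat_lit 509659)))))) (mul (pow s3 4) (k (.ofNat (nat_lit 236966))))))) (add (mul s2 (add (mul s2 (add (mul s2 (add (mul s2 (add (mul s2 (k (.negSucc (nat_lit 60119)))) (mul s3 (k (.ofNat (nat_lit 101284)))))) (mul (pow s3 2) (k (.ofNat (nat_lit 202882)))))) (mul (pow s3 3) (k (.ofNat (nat_lit 202882)))))) (mul (pow s3 4) (k (.ofNat (nat_lit 101284)))))) (mul (pow s3 5) (k (.negSucc (nat_lit 60119))))))) (add (mul s2 (add (mul s2 (add (mul s2 (add (mul s2 (add (mul s2 (add (mul s2 (k (.ofNat (nat_lit 924)))) (mul s3 (k (.negSucc (nat_lit 14673)))))) (mul (pow s3 2) (k (.ofNat (nat_lit 38808)))))) (mul (pow s3 3) (k (.negSucc (nat_lit 72735)))))) (mul (pow s3 4) (k (.ofNat (nat_lit 38808)))))) (mul (pow s3 5) (k (.negSucc (nat_lit 14673)))))) (mul (pow s3 6) (k (.ofNat (nat_lit 924))))))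
def kr0420 : PExp := add (mul s0 (add (mul s0 (add (mul s0 (add (mul s0 (add (mul s0 (add (mul s0 (k (.negSucc (nat_lit 287)))) (add (mul s1 (k (.negSucc (nat_lit 40259)))) (add (mul s2 (k (.ofNat (nat_lit 1638)))) (mul s3 (k (.negSucc (nat_lit 97829)))))))) (add (mul s1 (add (mul s1 (k (.ofNat (nat_lit 305860)))) (add (mul s2 (k (.ofNat (nat_lit 38808)))) (mul s3 (k (.negSucc (nat_lit 235585))))))) (add (mul s2 (add (mul s2 (k (.ofNat (nat_lit 136520)))) (mul s3 (k (.negSucc (nat_lit 63247)))))) (mul (pow s3 2) (k (.ofNat (nat_lit 597708)))))))) (add (mul s1 (add (mul s1 (add (mul s1 (k (.negSucc (nat_lit 379129)))) (add (mul s2 (k (.negSucc (nat_lit 436791)))) (mul s3 (k (.ofNat (nat_lit 345402))))))) (add (mul s2 (add (mul s2 (k (.ofNat (nat_lit 162340)))) (mul s3 (k (.ofNat (nat_lit 131604)))))) (mul (pow s3 2) (k (.ofNat (nat_lit 244430))))))) (add (mul s2 (add (mul s2 (add (mul s2 (k (.negSucc (nat_lit 304563)))) (mul s3 (k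 (.ofNat (nat_lit 70040)))))) (mul (pow s3 2) (k (.ofNat (nat_lit 84180)))))) (mul (pow s3 3) (k (.negSucc (nat_lit 1008699)))))))) (add (mul s1 (add (mul s1 (add (mul s1 (add (mul s1 (k (.ofNat (nat_lit 228140)))) (add (mul s2 (k (.ofNat (nat_lit 179086)))) (mul s3 (k (.ofNat (nat_lit 166214))))))) (add (mul s2 (add (mul s2 (k (.ofNat (nat_lit 444912)))) (mul s3 (k (.ofNat (nat_lit 281134)))))) (mul (pow s3 2) (k (.negSucc (nat_lit 874175))))))) (add (mul s2 (add (mul s2 (add (mul s2 (k (.negSucc (nat_lit 580169)))) (mul s3 (k (.negSucc (nat_lit 37241)))))) (mul (pow s3 2) (k (.negSucc (nat_lit 256599)))))) (mul (pow s3 3) (k (.ofNat (nat_lit 244430))))))) (add (mul s2 (add (mul s2 (add (mul s2 (add (mul s2 (k (.ofNat (nat_lit 305860)))) (mul s3 (k (.ofNat (nat_lit 81228)))))) (mul (pow s3 2) (k (.negSucc (nat_lit 343231)))))) (mul (pow s3 3) (k (.ofNat (nat_lit 84180)))))) (mul (pow s3 4) (k (.ofNat (nat_lit 597708)))))))) (add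 (mul s1 (add (mul s1 (add (mul s1 (add (mul s1 (add (mul s1 (k (.negSucc (nat_lit 8559)))) (add (mul s2 (k (.ofNat (nat_lit 4436)))) (mul s3 (k (.negSucc (nat_lit 124143))))))) (add (mul s2 (add (mul s2 (k (.ofNat (nat_lit 102302)))) (mul s3 (k (.negSucc (nat_lit 405655)))))) (mul (pow s3 2) (k (.ofNat (nat_lit 166214))))))) (add (mul s2 (add (mul s2 (add (mul s2 (k (.negSucc (nat_lit 218831)))) (mul s3 (k (.negSucc (nat_lit 74083)))))) (mul (pow s3 2) (k (.ofNat (nat_lit 281134)))))) (mul (pow s3 3) (k (.ofNat (nat_lit 345402))))))) (add (mul s2 (add (mul s2 (add (mul s2 (add (mul s2 (k (.ofNat (nat_lit 236966)))) (mul s3 (k (.ofNat (nat_lit 40676)))))) (mul (pow s3 2) (k (.negSucc (nat_lit 37241)))))) (mul (pow s3 3) (k (.ofNat (nat_lit 131604)))))) (mul (pow s3 4) (k (.negSucc (nat_lit 235585))))))) (add (mul s2 (add (mul s2 (add (mul s2 (add (mul s2 (add (mul s2 (k (.negSucc (nat_lit 51005)))) (mul s3 (k (.negSucc (nat_lit 90007))))))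 (mul (pow s3 2) (k (.ofNat (nat_lit 81228)))))) (mul (pow s3 3) (k (.ofNat (nat_lit 70040)))))) (mul (pow s3 4) (k (.negSucc (nat_lit 63247)))))) (mul (pow s3 5) (k (.negSucc (nat_lit 97829)))))))) (add (mul s1 (add (mul s1 (add (mul s1 (add (mul s1 (add (mul s1 (add (mul s1 (k (.ofNat (nat_lit 24464)))) (add (mul s2 (k (.ofNat (nat_lit 197172)))) (mul s3 (k (.negSucc (nat_lit 8559))))))) (add (mul s2 (add (mul s2 (k (.negSucc (nat_lit 1242039)))) (mul s3 (k (.ofNat (nat_lit 4436)))))) (mul (pow s3 2) (k (.ofNat (nat_lit 228140))))))) (add (mul s2 (add (mul s2 (add (mul s2 (k (.ofNat (nat_lit 2290584)))) (mul s3 (k (.ofNat (nat_lit 102302)))))) (mul (pow s3 2) (k (.ofNat (nat_lit 179086)))))) (mul (pow s3 3) (k (.negSucc (nat_lit 379129))))))) (add (mul s2 (add (mul s2 (add (mul s2 (add (mul s2 (k (.negSucc (nat_lit 1547831)))) (mul s3 (k (.negSucc (nat_lit 218831)))))) (mul (pow s3 2) (k (.ofNat (nat_lit 444912)))))) (mul (pow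 s3 3) (k (.negSucc (nat_lit 436791)))))) (mul (pow s3 4) (k (.ofNat (nat_lit 305860))))))) (add (mul s2 (add (mul s2 (add (mul s2 (add (mul s2 (add (mul s2 (k (.ofNat (nat_lit 268260)))) (mul s3 (k (.ofNat (nat_lit 236966)))))) (mul (pow s3 2) (k (.negSucc (nat_lit 580169)))))) (mul (pow s3 3) (k (.ofNat (nat_lit 162340)))))) (mul (pow s3 4) (k (.ofNat (nat_lit 38808)))))) (mul (pow s3 5) (k (.negSucc (nat_lit 40259))))))) (add (mul s2 (add (mul s2 (add (mul s2 (add (mul s2 (add (mul s2 (add (mul s2 (k (.ofNat (nat_lit 14156)))) (mul s3 (k (.negSucc (nat_lit 51005)))))) (mul (pow s3 2) (k (.ofNat (nat_lit 305860)))))) (mul (pow s3 3) (k (.negSucc (nat_lit 304563)))))) (mul (pow s3 4) (k (.ofNat (nat_lit 136520)))))) (mul (pow s3 5) (k (.ofNat (nat_lit 1638)))))) (mul (pow s3 6) (k (.negSucc (nat_lit 287))))))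
def kr0501 : PExp := add (mul s0 (add (mul s0 (add (mul s0 (add (mul s0 (add (mul s0 (add (mul s0 (k (.negSucc (nat_lit 517)))) (add (mul s1 (k (.ofNat (nat_lit 7220)))) (add (mul s2 (k (.ofNat (nat_lit 18240)))) (mul s3 (k (.negSucc (nat_lit 2419)))))))) (add (mul s1 (add (mul s1 (k (.negSucc (nat_lit 51005)))) (add (mul s2 (k (.ofNat (nat_lit 38288)))) (mul s3 (k (.negSucc (nat_lit 14673))))))) (add (mul s2 (add (mul s2 (k (.negSucc (nat_lit 97829)))) (mul s3 (k (.negSucc (nat_lit 11759)))))) (mul (pow s3 2) (k (.ofNat (nat_lit 1638)))))))) (add (mul s1 (add (mul s1 (add (mul s1 (k (.ofNat (nat_lit 74462)))) (add (mul s2 (k (.negSucc (nat_lit 112807)))) (mul s3 (k (.ofNat (nat_lit 152170))))))) (add (mul s2 (add (mul s2 (k (.ofNat (nat_lit 8716)))) (mul s3 (k (.ofNat (nat_lit 15314)))))) (mul (pow s3 2) (k (.negSucc (nat_lit 104501))))))) (add (mul s2 (add (mul s2 (add (mul s2 (k (.ofNat (nat_lit 148540)))) (mul s3 (k (.ofNat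 (nat_lit 12686)))))) (mul (pow s3 2) (k (.ofNat (nat_lit 13380)))))) (mul (pow s3 3) (k (.ofNat (nat_lit 18528)))))))) (add (mul s1 (add (mul s1 (add (mul s1 (add (mul s1 (k (.negSucc (nat_lit 8559)))) (add (mul s2 (k (.negSucc (nat_lit 28009)))) (mul s3 (k (.negSucc (nat_lit 162855))))))) (add (mul s2 (add (mul s2 (k (.ofNat (nat_lit 130604)))) (mul s3 (k (.ofNat (nat_lit 40932)))))) (mul (pow s3 2) (k (.ofNat (nat_lit 18210))))))) (add (mul s2 (add (mul s2 (add (mul s2 (k (.ofNat (nat_lit 8716)))) (mul s3 (k (.negSucc (nat_lit 101143)))))) (mul (pow s3 2) (k (.negSucc (nat_lit 80517)))))) (mul (pow s3 3) (k (.ofNat (nat_lit 143646))))))) (add (mul s2 (add (mul s2 (add (mul s2 (add (mul s2 (k (.negSucc (nat_lit 97829)))) (mul s3 (k (.ofNat (nat_lit 12686)))))) (mul (pow s3 2) (k (.ofNat (nat_lit 17020)))))) (mul (pow s3 3) (k (.ofNat (nat_lit 19402)))))) (mul (pow s3 4) (k (.negSucc (nat_lit 40259)))))))) (add (mul s1 (add (mul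 s1 (add (mul s1 (add (mul s1 (add (mul s1 (k (.negSucc (nat_lit 4139)))) (add (mul s2 (k (.ofNat (nat_lit 37872)))) (mul s3 (k (.ofNat (nat_lit 37660))))))) (add (mul s2 (add (mul s2 (k (.negSucc (nat_lit 28009)))) (mul s3 (k (.ofNat (nat_lit 24872)))))) (mul (pow s3 2) (k (.negSucc (nat_lit 75581))))))) (add (mul s2 (add (mul s2 (add (mul s2 (k (.negSucc (nat_lit 112807)))) (mul s3 (k (.ofNat (nat_lit 40932)))))) (mul (pow s3 2) (k (.ofNat (nat_lit 115408)))))) (mul (pow s3 3) (k (.ofNat (nat_lit 37368))))))) (add (mul s2 (add (mul s2 (add (mul s2 (add (mul s2 (k (.ofNat (nat_lit 38288)))) (mul s3 (k (.ofNat (nat_lit 15314)))))) (mul (pow s3 2) (k (.negSucc (nat_lit 80517)))))) (mul (pow s3 3) (k (.negSucc (nat_lit 24103)))))) (mul (pow s3 4) (k (.negSucc (nat_lit 60119))))))) (add (mul s2 (add (mul s2 (add (mul s2 (add (mul s2 (add (mul s2 (k (.ofNat (nat_lit 18240)))) (mul s3 (k (.negSucc (nat_lit 11759)))))) (mul (pow s3 2)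 (k (.ofNat (nat_lit 13380)))))) (mul (pow s3 3) (k (.ofNat (nat_lit 19402)))))) (mul (pow s3 4) (k (.negSucc (nat_lit 3163)))))) (mul (pow s3 5) (k (.ofNat (nat_lit 7220)))))))) (add (mul s1 (add (mul s1 (add (mul s1 (add (mul s1 (add (mul s1 (add (mul s1 (k (.ofNat (nat_lit 52)))) (add (mul s2 (k (.negSucc (nat_lit 4139)))) (mul s3 (k (.negSucc (nat_lit 22535))))))) (add (mul s2 (add (mul s2 (k (.negSucc (nat_lit 8559)))) (mul s3 (k (.ofNat (nat_lit 37660)))))) (mul (pow s3 2) (k (.ofNat (nat_lit 197172))))))) (add (mul s2 (add (mul s2 (add (mul s2 (k (.ofNat (nat_lit 74462)))) (mul s3 (k (.negSucc (nat_lit 162855)))))) (mul (pow s3 2) (k (.negSucc (nat_lit 75581)))))) (mul (pow s3 3) (k (.negSucc (nat_lit 341423))))))) (add (mul s2 (add (mul s2 (add (mul s2 (add (mul s2 (k (.negSucc (nat_lit 51005)))) (mul s3 (k (.ofNat (nat_lit 152170)))))) (mul (pow s3 2) (k (.ofNat (nat_lit 18210)))))) (mul (pow s3 3) (k (.ofNat (nat_lit 37368))))))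 (mul (pow s3 4) (k (.ofNat (nat_lit 268260))))))) (add (mul s2 (add (mul s2 (add (mul s2 (add (mul s2 (add (mul s2 (k (.ofNat (nat_lit 7220)))) (mul s3 (k (.negSucc (nat_lit 14673)))))) (mul (pow s3 2) (k (.negSucc (nat_lit 104501)))))) (mul (pow s3 3) (k (.ofNat (nat_lit 143646)))))) (mul (pow s3 4) (k (.negSucc (nat_lit 60119)))))) (mul (pow s3 5) (k (.negSucc (nat_lit 67135))))))) (add (mul s2 (add (mul s2 (add (mul s2 (add (mul s2 (add (mul s2 (add (mul s2 (k (.negSucc (nat_lit 517)))) (mul s3 (k (.negSucc (nat_lit 2419)))))) (mul (pow s3 2) (k (.ofNat (nat_lit 1638)))))) (mul (pow s3 3) (k (.ofNat (nat_lit 18528)))))) (mul (pow s3 4) (k (.negSucc (nat_lit 40259)))))) (mul (pow s3 5) (k (.ofNat (nat_lit 7220)))))) (mul (pow s3 6) (k (.ofNat (nat_lit 676))))))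
def kr0510 : PExp := add (mul s0 (add (mul s0 (add (mul s0 (add (mul s0 (add (mul s0 (add (mul s0 (k (.negSucc (nat_lit 517)))) (add (mul s1 (k (.ofNat (nat_lit 7220)))) (add (mul s2 (k (.negSucc (nat_lit 2419)))) (mul s3 (k (.ofNat (nat_lit 18240)))))))) (add (mul s1 (add (mul s1 (k (.negSucc (nat_lit 51005)))) (add (mul s2 (k (.negSucc (nat_lit 14673)))) (mul s3 (k (.ofNat (nat_lit 38288))))))) (add (mul s2 (add (mul s2 (k (.ofNat (nat_lit 1638)))) (mul s3 (k (.negSucc (nat_lit 11759)))))) (mul (pow s3 2) (k (.negSucc (nat_lit 97829)))))))) (add (mul s1 (add (mul s1 (add (mul s1 (k (.ofNat (nat_lit 74462)))) (add (mul s2 (k (.ofNat (nat_lit 152170)))) (mul s3 (k (.negSucc (nat_lit 112807))))))) (add (mul s2 (add (mul s2 (k (.negSucc (nat_lit 104501)))) (mul s3 (k (.ofNat (nat_lit 15314)))))) (mul (pow s3 2) (k (.ofNat (nat_lit 8716))))))) (add (mul s2 (add (mul s2 (add (mul s2 (k (.ofNat (nat_lit 18528)))) (mul s3 (k (.ofNat (nat_lit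 13380)))))) (mul (pow s3 2) (k (.ofNat (nat_lit 12686)))))) (mul (pow s3 3) (k (.ofNat (nat_lit 148540)))))))) (add (mul s1 (add (mul s1 (add (mul s1 (add (mul s1 (k (.negSucc (nat_lit 8559)))) (add (mul s2 (k (.negSucc (nat_lit 162855)))) (mul s3 (k (.negSucc (nat_lit 28009))))))) (add (mul s2 (add (mul s2 (k (.ofNat (nat_lit 18210)))) (mul s3 (k (.ofNat (nat_lit 40932)))))) (mul (pow s3 2) (k (.ofNat (nat_lit 130604))))))) (add (mul s2 (add (mul s2 (add (mul s2 (k (.ofNat (nat_lit 143646)))) (mul s3 (k (.negSucc (nat_lit 80517)))))) (mul (pow s3 2) (k (.negSucc (nat_lit 101143)))))) (mul (pow s3 3) (k (.ofNat (nat_lit 8716))))))) (add (mul s2 (add (mul s2 (add (mul s2 (add (mul s2 (k (.negSucc (nat_lit 40259)))) (mul s3 (k (.ofNat (nat_lit 19402)))))) (mul (pow s3 2) (k (.ofNat (nat_lit 17020)))))) (mul (pow s3 3) (k (.ofNat (nat_lit 12686)))))) (mul (pow s3 4) (k (.negSucc (nat_lit 97829)))))))) (add (mul s1 (add (mul s1 (add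 (mul s1 (add (mul s1 (add (mul s1 (k (.negSucc (nat_lit 4139)))) (add (mul s2 (k (.ofNat (nat_lit 37660)))) (mul s3 (k (.ofNat (nat_lit 37872))))))) (add (mul s2 (add (mul s2 (k (.negSucc (nat_lit 75581)))) (mul s3 (k (.ofNat (nat_lit 24872)))))) (mul (pow s3 2) (k (.negSucc (nat_lit 28009))))))) (add (mul s2 (add (mul s2 (add (mul s2 (k (.ofNat (nat_lit 37368)))) (mul s3 (k (.ofNat (nat_lit 115408)))))) (mul (pow s3 2) (k (.ofNat (nat_lit 40932)))))) (mul (pow s3 3) (k (.negSucc (nat_lit 112807))))))) (add (mul s2 (add (mul s2 (add (mul s2 (add (mul s2 (k (.negSucc (nat_lit 60119)))) (mul s3 (k (.negSucc (nat_lit 24103)))))) (mul (pow s3 2) (k (.negSucc (nat_lit 80517)))))) (mul (pow s3 3) (k (.ofNat (nat_lit 15314)))))) (mul (pow s3 4) (k (.ofNat (nat_lit 38288))))))) (add (mul s2 (add (mul s2 (add (mul s2 (add (mul s2 (add (mul s2 (k (.ofNat (nat_lit 7220)))) (mul s3 (k (.negSucc (nat_lit 3163)))))) (mul (pow s3 2) (k (.ofNat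 (nat_lit 19402)))))) (mul (pow s3 3) (k (.ofNat (nat_lit 13380)))))) (mul (pow s3 4) (k (.negSucc (nat_lit 11759)))))) (mul (pow s3 5) (k (.ofNat (nat_lit 18240)))))))) (add (mul s1 (add (mul s1 (add (mul s1 (add (mul s1 (add (mul s1 (add (mul s1 (k (.ofNat (nat_lit 52)))) (add (mul s2 (k (.negSucc (nat_lit 22535)))) (mul s3 (k (.negSucc (nat_lit 4139))))))) (add (mul s2 (add (mul s2 (k (.ofNat (nat_lit 197172)))) (mul s3 (k (.ofNat (nat_lit 37660)))))) (mul (pow s3 2) (k (.negSucc (nat_lit 8559))))))) (add (mul s2 (add (mul s2 (add (mul s2 (k (.negSucc (nat_lit 341423)))) (mul s3 (k (.negSucc (nat_lit 75581)))))) (mul (pow s3 2) (k (.negSucc (nat_lit 162855)))))) (mul (pow s3 3) (k (.ofNat (nat_lit 74462))))))) (add (mul s2 (add (mul s2 (add (mul s2 (add (mul s2 (k (.ofNat (nat_lit 268260)))) (mul s3 (k (.ofNat (nat_lit 37368)))))) (mul (pow s3 2) (k (.ofNat (nat_lit 18210)))))) (mul (pow s3 3) (k (.ofNat (nat_lit 152170))))))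 (mul (pow s3 4) (k (.negSucc (nat_lit 51005))))))) (add (mul s2 (add (mul s2 (add (mul s2 (add (mul s2 (add (mul s2 (k (.negSucc (nat_lit 67135)))) (mul s3 (k (.negSucc (nat_lit 60119)))))) (mul (pow s3 2) (k (.ofNat (nat_lit 143646)))))) (mul (pow s3 3) (k (.negSucc (nat_lit 104501)))))) (mul (pow s3 4) (k (.negSucc (nat_lit 14673)))))) (mul (pow s3 5) (k (.ofNat (nat_lit 7220))))))) (add (mul s2 (add (mul s2 (add (mul s2 (add (mul s2 (add (mul s2 (add (mul s2 (k (.ofNat (nat_lit 676)))) (mul s3 (k (.ofNat (nat_lit 7220)))))) (mul (pow s3 2) (k (.negSucc (nat_lit 40259)))))) (mul (pow s3 3) (k (.ofNat (nat_lit 18528)))))) (mul (pow s3 4) (k (.ofNat (nat_lit 1638)))))) (mul (pow s3 5) (k (.negSucc (nat_lit 2419)))))) (mul (pow s3 6) (k (.negSucc (nat_lit 517))))))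
def kr0600 : PExp := add (mul s0 (add (mul s0 (add (mul s0 (add (mul s0 (add (mul s0 (add (mul s0 (k (.negSucc (nat_lit 295)))) (add (mul s1 (k (.ofNat (nat_lit 676)))) (add (mul s2 (k (.negSucc (nat_lit 517)))) (mul s3 (k (.negSucc (nat_lit 517)))))))) (add (mul s1 (add (mul s1 (k (.ofNat (nat_lit 14156)))) (add (mul s2 (k (.ofNat (nat_lit 924)))) (mul s3 (k (.ofNat (nat_lit 924))))))) (add (mul s2 (add (mul s2 (k (.negSucc (nat_lit 287)))) (mul s3 (k (.ofNat (nat_lit 6840)))))) (mul (pow s3 2) (k (.negSucc (nat_lit 287)))))))) (add (mul s1 (add (mul s1 (add (mul s1 (k (.ofNat (nat_lit 780)))) (add (mul s2 (k (.ofNat (nat_lit 2232)))) (mul s3 (k (.ofNat (nat_lit 2232))))))) (add (mul s2 (add (mul s2 (k (.negSucc (nat_lit 7007)))) (mul s3 (k (.negSucc (nat_lit 595)))))) (mul (pow s3 2) (k (.negSucc (nat_lit 7007))))))) (add (mul s2 (add (mul s2 (add (mul s2 (k (.ofNat (nat_lit 2168)))) (mul s3 (k (.negSucc (nat_lit 6683)))))) (mul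 (pow s3 2) (k (.negSucc (nat_lit 6683)))))) (mul (pow s3 3) (k (.ofNat (nat_lit 2168)))))))) (add (mul s1 (add (mul s1 (add (mul s1 (add (mul s1 (k (.ofNat (nat_lit 24464)))) (add (mul s2 (k (.ofNat (nat_lit 10836)))) (mul s3 (k (.ofNat (nat_lit 10836))))))) (add (mul s2 (add (mul s2 (k (.ofNat (nat_lit 33412)))) (mul s3 (k (.negSucc (nat_lit 28991)))))) (mul (pow s3 2) (k (.ofNat (nat_lit 33412))))))) (add (mul s2 (add (mul s2 (add (mul s2 (k (.negSucc (nat_lit 7007)))) (mul s3 (k (.ofNat (nat_lit 27980)))))) (mul (pow s3 2) (k (.ofNat (nat_lit 27980)))))) (mul (pow s3 3) (k (.negSucc (nat_lit 7007))))))) (add (mul s2 (add (mul s2 (add (mul s2 (add (mul s2 (k (.negSucc (nat_lit 287)))) (mul s3 (k (.negSucc (nat_lit 6683)))))) (mul (pow s3 2) (k (.ofNat (nat_lit 3456)))))) (mul (pow s3 3) (k (.negSucc (nat_lit 6683)))))) (mul (pow s3 4) (k (.negSucc (nat_lit 287)))))))) (add (mul s1 (add (mul s1 (add (mul s1 (add (mul s1 (add (mul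 s1 (k (.ofNat (nat_lit 52)))) (add (mul s2 (k (.negSucc (nat_lit 1267)))) (mul s3 (k (.negSucc (nat_lit 1267))))))) (add (mul s2 (add (mul s2 (k (.ofNat (nat_lit 10836)))) (mul s3 (k (.ofNat (nat_lit 4716)))))) (mul (pow s3 2) (k (.ofNat (nat_lit 10836))))))) (add (mul s2 (add (mul s2 (add (mul s2 (k (.ofNat (nat_lit 2232)))) (mul s3 (k (.negSucc (nat_lit 28991)))))) (mul (pow s3 2) (k (.negSucc (nat_lit 28991)))))) (mul (pow s3 3) (k (.ofNat (nat_lit 2232))))))) (add (mul s2 (add (mul s2 (add (mul s2 (add (mul s2 (k (.ofNat (nat_lit 924)))) (mul s3 (k (.negSucc (nat_lit 595)))))) (mul (pow s3 2) (k (.ofNat (nat_lit 27980)))))) (mul (pow s3 3) (k (.negSucc (nat_lit 595)))))) (mul (pow s3 4) (k (.ofNat (nat_lit 924))))))) (add (mul s2 (add (mul s2 (add (mul s2 (add (mul s2 (add (mul s2 (k (.negSucc (nat_lit 517)))) (mul s3 (k (.ofNat (nat_lit 6840)))))) (mul (pow s3 2) (k (.negSucc (nat_lit 6683)))))) (mul (pow s3 3) (k (.negSucc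 (nat_lit 6683)))))) (mul (pow s3 4) (k (.ofNat (nat_lit 6840)))))) (mul (pow s3 5) (k (.negSucc (nat_lit 517)))))))) (add (mul s1 (add (mul s1 (add (mul s1 (add (mul s1 (add (mul s1 (add (mul s1 (k (.ofNat (nat_lit 16176)))) (add (mul s2 (k (.ofNat (nat_lit 52)))) (mul s3 (k (.ofNat (nat_lit 52))))))) (add (mul s2 (add (mul s2 (k (.ofNat (nat_lit 24464)))) (mul s3 (k (.negSucc (nat_lit 1267)))))) (mul (pow s3 2) (k (.ofNat (nat_lit 24464))))))) (add (mul s2 (add (mul s2 (add (mul s2 (k (.ofNat (nat_lit 780)))) (mul s3 (k (.ofNat (nat_lit 10836)))))) (mul (pow s3 2) (k (.ofNat (nat_lit 10836)))))) (mul (pow s3 3) (k (.ofNat (nat_lit 780))))))) (add (mul s2 (add (mul s2 (add (mul s2 (add (mul s2 (k (.ofNat (nat_lit 14156)))) (mul s3 (k (.ofNat (nat_lit 2232)))))) (mul (pow s3 2) (k (.ofNat (nat_lit 33412)))))) (mul (pow s3 3) (k (.ofNat (nat_lit 2232)))))) (mul (pow s3 4) (k (.ofNat (nat_lit 14156))))))) (add (mul s2 (add (mul s2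 (add (mul s2 (add (mul s2 (add (mul s2 (k (.ofNat (nat_lit 676)))) (mul s3 (k (.ofNat (nat_lit 924)))))) (mul (pow s3 2) (k (.negSucc (nat_lit 7007)))))) (mul (pow s3 3) (k (.negSucc (nat_lit 7007)))))) (mul (pow s3 4) (k (.ofNat (nat_lit 924)))))) (mul (pow s3 5) (k (.ofNat (nat_lit 676))))))) (add (mul s2 (add (mul s2 (add (mul s2 (add (mul s2 (add (mul s2 (add (mul s2 (k (.negSucc (nat_lit 295)))) (mul s3 (k (.negSucc (nat_lit 517)))))) (mul (pow s3 2) (k (.negSucc (nat_lit 287)))))) (mul (pow s3 3) (k (.ofNat (nat_lit 2168)))))) (mul (pow s3 4) (k (.negSucc (nat_lit 287)))))) (mul (pow s3 5) (k (.negSucc (nat_lit 517)))))) (mul (pow s3 6) (k (.negSucc (nat_lit 295))))))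
def kr1005 : PExp := add (mul s0 (add (mul s0 (add (mul s0 (add (mul s0 (add (mul s0 (add (mul s0 (k (.ofNat (nat_lit 676)))) (add (mul s1 (k (.ofNat (nat_lit 7220)))) (add (mul s2 (k (.ofNat (nat_lit 7220)))) (mul s3 (k (.negSucc (nat_lit 67135)))))))) (add (mul s1 (add (mul s1 (k (.negSucc (nat_lit 40259)))) (add (mul s2 (k (.negSucc (nat_lit 3163)))) (mul s3 (k (.negSucc (nat_lit 60119))))))) (add (mul s2 (add (mul s2 (k (.negSucc (nat_lit 40259)))) (mul s3 (k (.negSucc (nat_lit 60119)))))) (mul (pow s3 2) (k (.ofNat (nat_lit 268260)))))))) (add (mul s1 (add (mul s1 (add (mul s1 (k (.ofNat (nat_lit 18528)))) (add (mul s2 (k (.ofNat (nat_lit 19402)))) (mul s3 (k (.ofNat (nat_lit 143646))))))) (add (mul s2 (add (mul s2 (k (.ofNat (nat_lit 19402)))) (mul s3 (k (.negSucc (nat_lit 24103)))))) (mul (pow s3 2) (k (.ofNat (nat_lit 37368))))))) (add (mul s2 (add (mul s2 (add (mul s2 (k (.ofNat (nat_lit 18528)))) (mul s3 (k (.ofNat (nat_lit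 143646)))))) (mul (pow s3 2) (k (.ofNat (nat_lit 37368)))))) (mul (pow s3 3) (k (.negSucc (nat_lit 341423)))))))) (add (mul s1 (add (mul s1 (add (mul s1 (add (mul s1 (k (.ofNat (nat_lit 1638)))) (add (mul s2 (k (.ofNat (nat_lit 13380)))) (mul s3 (k (.negSucc (nat_lit 104501))))))) (add (mul s2 (add (mul s2 (k (.ofNat (nat_lit 17020)))) (mul s3 (k (.negSucc (nat_lit 80517)))))) (mul (pow s3 2) (k (.ofNat (nat_lit 18210))))))) (add (mul s2 (add (mul s2 (add (mul s2 (k (.ofNat (nat_lit 13380)))) (mul s3 (k (.negSucc (nat_lit 80517)))))) (mul (pow s3 2) (k (.ofNat (nat_lit 115408)))))) (mul (pow s3 3) (k (.negSucc (nat_lit 75581))))))) (add (mul s2 (add (mul s2 (add (mul s2 (add (mul s2 (k (.ofNat (nat_lit 1638)))) (mul s3 (k (.negSucc (nat_lit 104501)))))) (mul (pow s3 2) (k (.ofNat (nat_lit 18210)))))) (mul (pow s3 3) (k (.negSucc (nat_lit 75581)))))) (mul (pow s3 4) (k (.ofNat (nat_lit 197172)))))))) (add (mul s1 (add (mul s1 (add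 (mul s1 (add (mul s1 (add (mul s1 (k (.negSucc (nat_lit 2419)))) (add (mul s2 (k (.negSucc (nat_lit 11759)))) (mul s3 (k (.negSucc (nat_lit 14673))))))) (add (mul s2 (add (mul s2 (k (.ofNat (nat_lit 12686)))) (mul s3 (k (.ofNat (nat_lit 15314)))))) (mul (pow s3 2) (k (.ofNat (nat_lit 152170))))))) (add (mul s2 (add (mul s2 (add (mul s2 (k (.ofNat (nat_lit 12686)))) (mul s3 (k (.negSucc (nat_lit 101143)))))) (mul (pow s3 2) (k (.ofNat (nat_lit 40932)))))) (mul (pow s3 3) (k (.negSucc (nat_lit 162855))))))) (add (mul s2 (add (mul s2 (add (mul s2 (add (mul s2 (k (.negSucc (nat_lit 11759)))) (mul s3 (k (.ofNat (nat_lit 15314)))))) (mul (pow s3 2) (k (.ofNat (nat_lit 40932)))))) (mul (pow s3 3) (k (.ofNat (nat_lit 24872)))))) (mul (pow s3 4) (k (.ofNat (nat_lit 37660))))))) (add (mul s2 (add (mul s2 (add (mul s2 (add (mul s2 (add (mul s2 (k (.negSucc (nat_lit 2419)))) (mul s3 (k (.negSucc (nat_lit 14673)))))) (mul (pow s3 2) (k (.ofNat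 (nat_lit 152170)))))) (mul (pow s3 3) (k (.negSucc (nat_lit 162855)))))) (mul (pow s3 4) (k (.ofNat (nat_lit 37660)))))) (mul (pow s3 5) (k (.negSucc (nat_lit 22535)))))))) (add (mul s1 (add (mul s1 (add (mul s1 (add (mul s1 (add (mul s1 (add (mul s1 (k (.negSucc (nat_lit 517)))) (add (mul s2 (k (.ofNat (nat_lit 18240)))) (mul s3 (k (.ofNat (nat_lit 7220))))))) (add (mul s2 (add (mul s2 (k (.negSucc (nat_lit 97829)))) (mul s3 (k (.ofNat (nat_lit 38288)))))) (mul (pow s3 2) (k (.negSucc (nat_lit 51005))))))) (add (mul s2 (add (mul s2 (add (mul s2 (k (.ofNat (nat_lit 148540)))) (mul s3 (k (.ofNat (nat_lit 8716)))))) (mul (pow s3 2) (k (.negSucc (nat_lit 112807)))))) (mul (pow s3 3) (k (.ofNat (nat_lit 74462))))))) (add (mul s2 (add (mul s2 (add (mul s2 (add (mul s2 (k (.negSucc (nat_lit 97829)))) (mul s3 (k (.ofNat (nat_lit 8716)))))) (mul (pow s3 2) (k (.ofNat (nat_lit 130604)))))) (mul (pow s3 3) (k (.negSucc (nat_lit 28009))))))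 (mul (pow s3 4) (k (.negSucc (nat_lit 8559))))))) (add (mul s2 (add (mul s2 (add (mul s2 (add (mul s2 (add (mul s2 (k (.ofNat (nat_lit 18240)))) (mul s3 (k (.ofNat (nat_lit 38288)))))) (mul (pow s3 2) (k (.negSucc (nat_lit 112807)))))) (mul (pow s3 3) (k (.negSucc (nat_lit 28009)))))) (mul (pow s3 4) (k (.ofNat (nat_lit 37872)))))) (mul (pow s3 5) (k (.negSucc (nat_lit 4139))))))) (add (mul s2 (add (mul s2 (add (mul s2 (add (mul s2 (add (mul s2 (add (mul s2 (k (.negSucc (nat_lit 517)))) (mul s3 (k (.ofNat (nat_lit 7220)))))) (mul (pow s3 2) (k (.negSucc (nat_lit 51005)))))) (mul (pow s3 3) (k (.ofNat (nat_lit 74462)))))) (mul (pow s3 4) (k (.negSucc (nat_lit 8559)))))) (mul (pow s3 5) (k (.negSucc (nat_lit 4139)))))) (mul (pow s3 6) (k (.ofNat (nat_lit 52))))))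
def kr1014 : PExp := add (mul s0 (add (mul s0 (add (mul s0 (add (mul s0 (add (mul s0 (add (mul s0 (k (.ofNat (nat_lit 924)))) (add (mul s1 (k (.ofNat (nat_lit 38288)))) (add (mul s2 (k (.negSucc (nat_lit 14673)))) (mul s3 (k (.negSucc (nat_lit 60119)))))))) (add (mul s1 (add (mul s1 (k (.negSucc (nat_lit 235585)))) (add (mul s2 (k (.ofNat (nat_lit 79606)))) (mul s3 (k (.ofNat (nat_lit 41104))))))) (add (mul s2 (add (mul s2 (k (.ofNat (nat_lit 38808)))) (mul s3 (k (.ofNat (nat_lit 101284)))))) (mul (pow s3 2) (k (.ofNat (nat_lit 236966)))))))) (add (mul s1 (add (mul s1 (add (mul s1 (k (.ofNat (nat_lit 279272)))) (add (mul s2 (k (.ofNat (nat_lit 377650)))) (mul s3 (k (.negSucc (nat_lit 363083))))))) (add (mul s2 (add (mul s2 (k (.negSucc (nat_lit 279931)))) (mul s3 (k (.negSucc (nat_lit 180055)))))) (mul (pow s3 2) (k (.ofNat (nat_lit 392832))))))) (add (mul s2 (add (mul s2 (add (mul s2 (k (.negSucc (nat_lit 72735)))) (mul s3 (k (.ofNat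 (nat_lit 202882)))))) (mul (pow s3 2) (k (.negSucc (nat_lit 509659)))))) (mul (pow s3 3) (k (.negSucc (nat_lit 282561)))))))) (add (mul s1 (add (mul s1 (add (mul s1 (add (mul s1 (k (.negSucc (nat_lit 63247)))) (add (mul s2 (k (.negSucc (nat_lit 515387)))) (mul s3 (k (.ofNat (nat_lit 74158))))))) (add (mul s2 (add (mul s2 (k (.ofNat (nat_lit 308164)))) (mul s3 (k (.ofNat (nat_lit 162200)))))) (mul (pow s3 2) (k (.ofNat (nat_lit 207398))))))) (add (mul s2 (add (mul s2 (add (mul s2 (k (.negSucc (nat_lit 279931)))) (mul s3 (k (.ofNat (nat_lit 659104)))))) (mul (pow s3 2) (k (.negSucc (nat_lit 458507)))))) (mul (pow s3 3) (k (.negSucc (nat_lit 244513))))))) (add (mul s2 (add (mul s2 (add (mul s2 (add (mul s2 (k (.ofNat (nat_lit 38808)))) (mul s3 (k (.ofNat (nat_lit 202882)))))) (mul (pow s3 2) (k (.negSucc (nat_lit 789247)))))) (mul (pow s3 3) (k (.ofNat (nat_lit 1004130)))))) (mul (pow s3 4) (k (.ofNat (nat_lit 4436)))))))) (add (mul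 s1 (add (mul s1 (add (mul s1 (add (mul s1 (add (mul s1 (k (.negSucc (nat_lit 11759)))) (add (mul s2 (k (.ofNat (nat_lit 229388)))) (mul s3 (k (.ofNat (nat_lit 79606))))))) (add (mul s2 (add (mul s2 (k (.negSucc (nat_lit 515387)))) (mul s3 (k (.ofNat (nat_lit 436)))))) (mul (pow s3 2) (k (.negSucc (nat_lit 171619))))))) (add (mul s2 (add (mul s2 (add (mul s2 (k (.ofNat (nat_lit 377650)))) (mul s3 (k (.ofNat (nat_lit 162200)))))) (mul (pow s3 2) (k (.negSucc (nat_lit 38315)))))) (mul (pow s3 3) (k (.ofNat (nat_lit 85490))))))) (add (mul s2 (add (mul s2 (add (mul s2 (add (mul s2 (k (.ofNat (nat_lit 79606)))) (mul s3 (k (.negSucc (nat_lit 180055)))))) (mul (pow s3 2) (k (.negSucc (nat_lit 458507)))))) (mul (pow s3 3) (k (.ofNat (nat_lit 349768)))))) (mul (pow s3 4) (k (.negSucc (nat_lit 12207))))))) (add (mul s2 (add (mul s2 (add (mul s2 (add (mul s2 (add (mul s2 (k (.negSucc (nat_lit 14673)))) (mul s3 (k (.ofNat (nat_lit 101284))))))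 (mul (pow s3 2) (k (.negSucc (nat_lit 509659)))))) (mul (pow s3 3) (k (.ofNat (nat_lit 1004130)))))) (mul (pow s3 4) (k (.negSucc (nat_lit 631871)))))) (mul (pow s3 5) (k (.ofNat (nat_lit 37660)))))))) (add (mul s1 (add (mul s1 (add (mul s1 (add (mul s1 (add (mul s1 (add (mul s1 (k (.ofNat (nat_lit 6840)))) (add (mul s2 (k (.negSucc (nat_lit 11759)))) (mul s3 (k (.negSucc (nat_lit 3163))))))) (add (mul s2 (add (mul s2 (k (.negSucc (nat_lit 63247)))) (mul s3 (k (.ofNat (nat_lit 79606)))))) (mul (pow s3 2) (k (.negSucc (nat_lit 90007))))))) (add (mul s2 (add (mul s2 (add (mul s2 (k (.ofNat (nat_lit 279272)))) (mul s3 (k (.ofNat (nat_lit 74158)))))) (mul (pow s3 2) (k (.negSucc (nat_lit 171619)))))) (mul (pow s3 3) (k (.ofNat (nat_lit 150436))))))) (add (mul s2 (add (mul s2 (add (mul s2 (add (mul s2 (k (.negSucc (nat_lit 235585)))) (mul s3 (k (.negSucc (nat_lit 363083)))))) (mul (pow s3 2) (k (.ofNat (nat_lit 207398)))))) (mul (pow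 s3 3) (k (.ofNat (nat_lit 85490)))))) (mul (pow s3 4) (k (.negSucc (nat_lit 124143))))))) (add (mul s2 (add (mul s2 (add (mul s2 (add (mul s2 (add (mul s2 (k (.ofNat (nat_lit 38288)))) (mul s3 (k (.ofNat (nat_lit 41104)))))) (mul (pow s3 2) (k (.ofNat (nat_lit 392832)))))) (mul (pow s3 3) (k (.negSucc (nat_lit 244513)))))) (mul (pow s3 4) (k (.negSucc (nat_lit 12207)))))) (mul (pow s3 5) (k (.ofNat (nat_lit 37872))))))) (add (mul s2 (add (mul s2 (add (mul s2 (add (mul s2 (add (mul s2 (add (mul s2 (k (.ofNat (nat_lit 924)))) (mul s3 (k (.negSucc (nat_lit 60119)))))) (mul (pow s3 2) (k (.ofNat (nat_lit 236966)))))) (mul (pow s3 3) (k (.negSucc (nat_lit 282561)))))) (mul (pow s3 4) (k (.ofNat (nat_lit 4436)))))) (mul (pow s3 5) (k (.ofNat (nat_lit 37660)))))) (mul (pow s3 6) (k (.negSucc (nat_lit 1267))))))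
def kr1023 : PExp := add (mul s0 (add (mul s0 (add (mul s0 (add (mul s0 (add (mul s0 (add (mul s0 (k (.negSucc (nat_lit 7007)))) (add (mul s1 (k (.ofNat (nat_lit 8716)))) (add (mul s2 (k (.negSucc (nat_lit 104501)))) (mul s3 (k (.ofNat (nat_lit 143646)))))))) (add (mul s1 (add (mul s1 (k (.ofNat (nat_lit 244430)))) (add (mul s2 (k (.ofNat (nat_lit 74158)))) (mul s3 (k (.negSucc (nat_lit 363083))))))) (add (mul s2 (add (mul s2 (k (.ofNat (nat_lit 162340)))) (mul s3 (k (.ofNat (nat_lit 202882)))))) (mul (pow s3 2) (k (.negSucc (nat_lit 580169)))))))) (add (mul s1 (add (mul s1 (add (mul s1 (k (.negSucc (nat_lit 409991)))) (add (mul s2 (k (.ofNat (nat_lit 239942)))) (mul s3 (k (.negSucc (nat_lit 257311))))))) (add (mul s2 (add (mul s2 (k (.negSucc (nat_lit 1394593)))) (mul s3 (k (.ofNat (nat_lit 708250)))))) (mul (pow s3 2) (k (.ofNat (nat_lit 779604))))))) (add (mul s2 (add (mul s2 (add (mul s2 (k (.ofNat (nat_lit 147062)))) (mul s3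 (k (.ofNat (nat_lit 80396)))))) (mul (pow s3 2) (k (.negSucc (nat_lit 20809)))))) (mul (pow s3 3) (k (.ofNat (nat_lit 538020)))))))) (add (mul s1 (add (mul s1 (add (mul s1 (add (mul s1 (k (.ofNat (nat_lit 84180)))) (add (mul s2 (k (.ofNat (nat_lit 589078)))) (mul s3 (k (.ofNat (nat_lit 239942))))))) (add (mul s2 (add (mul s2 (k (.negSucc (nat_lit 774799)))) (mul s3 (k (.negSucc (nat_lit 1001959)))))) (mul (pow s3 2) (k (.ofNat (nat_lit 1088034))))))) (add (mul s2 (add (mul s2 (add (mul s2 (k (.ofNat (nat_lit 2210688)))) (mul s3 (k (.negSucc (nat_lit 156185)))))) (mul (pow s3 2) (k (.negSucc (nat_lit 109261)))))) (mul (pow s3 3) (k (.negSucc (nat_lit 1476847))))))) (add (mul s2 (add (mul s2 (add (mul s2 (add (mul s2 (k (.negSucc (nat_lit 436791)))) (mul s3 (k (.negSucc (nat_lit 20809)))))) (mul (pow s3 2) (k (.ofNat (nat_lit 294672)))))) (mul (pow s3 3) (k (.negSucc (nat_lit 800143)))))) (mul (pow s3 4) (k (.ofNat (nat_lit 179086))))))))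 (add (mul s1 (add (mul s1 (add (mul s1 (add (mul s1 (add (mul s1 (k (.ofNat (nat_lit 12686)))) (add (mul s2 (k (.negSucc (nat_lit 515387)))) (mul s3 (k (.ofNat (nat_lit 377650))))))) (add (mul s2 (add (mul s2 (k (.ofNat (nat_lit 1381968)))) (mul s3 (k (.negSucc (nat_lit 223871)))))) (mul (pow s3 2) (k (.negSucc (nat_lit 1612883))))))) (add (mul s2 (add (mul s2 (add (mul s2 (k (.negSucc (nat_lit 1612883)))) (mul s3 (k (.ofNat (nat_lit 2200456)))))) (mul (pow s3 2) (k (.negSucc (nat_lit 1196751)))))) (mul (pow s3 3) (k (.ofNat (nat_lit 1172184))))))) (add (mul s2 (add (mul s2 (add (mul s2 (add (mul s2 (k (.negSucc (nat_lit 171619)))) (mul s3 (k (.negSucc (nat_lit 985891)))))) (mul (pow s3 2) (k (.ofNat (nat_lit 90034)))))) (mul (pow s3 3) (k (.ofNat (nat_lit 590038)))))) (mul (pow s3 4) (k (.ofNat (nat_lit 85490))))))) (add (mul s2 (add (mul s2 (add (mul s2 (add (mul s2 (add (mul s2 (k (.ofNat (nat_lit 152170)))) (mul s3 (k (.negSucc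 (nat_lit 509659)))))) (mul (pow s3 2) (k (.ofNat (nat_lit 2030976)))))) (mul (pow s3 3) (k (.negSucc (nat_lit 2165303)))))) (mul (pow s3 4) (k (.ofNat (nat_lit 1004130)))))) (mul (pow s3 5) (k (.negSucc (nat_lit 162855)))))))) (add (mul s1 (add (mul s1 (add (mul s1 (add (mul s1 (add (mul s1 (add (mul s1 (k (.negSucc (nat_lit 6683)))) (add (mul s2 (k (.ofNat (nat_lit 13380)))) (mul s3 (k (.ofNat (nat_lit 19402))))))) (add (mul s2 (add (mul s2 (k (.ofNat (nat_lit 70040)))) (mul s3 (k (.negSucc (nat_lit 279931)))))) (mul (pow s3 2) (k (.ofNat (nat_lit 81228))))))) (add (mul s2 (add (mul s2 (add (mul s2 (k (.negSucc (nat_lit 188215)))) (mul s3 (k (.negSucc (nat_lit 1394593)))))) (mul (pow s3 2) (k (.ofNat (nat_lit 2210688)))))) (mul (pow s3 3) (k (.negSucc (nat_lit 240581))))))) (add (mul s2 (add (mul s2 (add (mul s2 (add (mul s2 (k (.ofNat (nat_lit 345402)))) (mul s3 (k (.ofNat (nat_lit 779604)))))) (mul (pow s3 2) (k (.negSucc (nat_lit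 89533)))))) (mul (pow s3 3) (k (.negSucc (nat_lit 1476847)))))) (mul (pow s3 4) (k (.ofNat (nat_lit 166214))))))) (add (mul s2 (add (mul s2 (add (mul s2 (add (mul s2 (add (mul s2 (k (.negSucc (nat_lit 112807)))) (mul s3 (k (.ofNat (nat_lit 392832)))))) (mul (pow s3 2) (k (.negSucc (nat_lit 1718075)))))) (mul (pow s3 3) (k (.ofNat (nat_lit 1730576)))))) (mul (pow s3 4) (k (.negSucc (nat_lit 244513)))))) (mul (pow s3 5) (k (.negSucc (nat_lit 28009))))))) (add (mul s2 (add (mul s2 (add (mul s2 (add (mul s2 (add (mul s2 (add (mul s2 (k (.ofNat (nat_lit 2232)))) (mul s3 (k (.ofNat (nat_lit 37368)))))) (mul (pow s3 2) (k (.negSucc (nat_lit 218831)))))) (mul (pow s3 3) (k (.ofNat (nat_lit 145386)))))) (mul (pow s3 4) (k (.ofNat (nat_lit 102302)))))) (mul (pow s3 5) (k (.negSucc (nat_lit 75581)))))) (mul (pow s3 6) (k (.ofNat (nat_lit 10836))))))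
def kr1032 : PExp := add (mul s0 (add (mul s0 (add (mul s0 (add (mul s0 (add (mul s0 (add (mul s0 (k (.negSucc (nat_lit 7007)))) (add (mul s1 (k (.ofNat (nat_lit 8716)))) (add (mul s2 (k (.ofNat (nat_lit 143646)))) (mul s3 (k (.negSucc (nat_lit 104501)))))))) (add (mul s1 (add (mul s1 (k (.ofNat (nat_lit 244430)))) (add (mul s2 (k (.negSucc (nat_lit 363083)))) (mul s3 (k (.ofNat (nat_lit 74158))))))) (add (mul s2 (add (mul s2 (k (.negSucc (nat_lit 580169)))) (mul s3 (k (.ofNat (nat_lit 202882)))))) (mul (pow s3 2) (k (.ofNat (nat_lit 162340)))))))) (add (mul s1 (add (mul s1 (add (mul s1 (k (.negSucc (nat_lit 409991)))) (add (mul s2 (k (.negSucc (nat_lit 257311)))) (mul s3 (k (.ofNat (nat_lit 239942))))))) (add (mul s2 (add (mul s2 (k (.ofNat (nat_lit 779604)))) (mul s3 (k (.ofNat (nat_lit 708250)))))) (mul (pow s3 2) (k (.negSucc (nat_lit 1394593))))))) (add (mul s2 (add (mul s2 (add (mul s2 (k (.ofNat (nat_lit 538020)))) (mul s3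 (k (.negSucc (nat_lit 20809)))))) (mul (pow s3 2) (k (.ofNat (nat_lit 80396)))))) (mul (pow s3 3) (k (.ofNat (nat_lit 147062)))))))) (add (mul s1 (add (mul s1 (add (mul s1 (add (mul s1 (k (.ofNat (nat_lit 84180)))) (add (mul s2 (k (.ofNat (nat_lit 239942)))) (mul s3 (k (.ofNat (nat_lit 589078))))))) (add (mul s2 (add (mul s2 (k (.ofNat (nat_lit 1088034)))) (mul s3 (k (.negSucc (nat_lit 1001959)))))) (mul (pow s3 2) (k (.negSucc (nat_lit 774799))))))) (add (mul s2 (add (mul s2 (add (mul s2 (k (.negSucc (nat_lit 1476847)))) (mul s3 (k (.negSucc (nat_lit 109261)))))) (mul (pow s3 2) (k (.negSucc (nat_lit 156185)))))) (mul (pow s3 3) (k (.ofNat (nat_lit 2210688))))))) (add (mul s2 (add (mul s2 (add (mul s2 (add (mul s2 (k (.ofNat (nat_lit 179086)))) (mul s3 (k (.negSucc (nat_lit 800143)))))) (mul (pow s3 2) (k (.ofNat (nat_lit 294672)))))) (mul (pow s3 3) (k (.negSucc (nat_lit 20809)))))) (mul (pow s3 4) (k (.negSucc (nat_lit 436791))))))))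 (add (mul s1 (add (mul s1 (add (mul s1 (add (mul s1 (add (mul s1 (k (.ofNat (nat_lit 12686)))) (add (mul s2 (k (.ofNat (nat_lit 377650)))) (mul s3 (k (.negSucc (nat_lit 515387))))))) (add (mul s2 (add (mul s2 (k (.negSucc (nat_lit 1612883)))) (mul s3 (k (.negSucc (nat_lit 223871)))))) (mul (pow s3 2) (k (.ofNat (nat_lit 1381968))))))) (add (mul s2 (add (mul s2 (add (mul s2 (k (.ofNat (nat_lit 1172184)))) (mul s3 (k (.negSucc (nat_lit 1196751)))))) (mul (pow s3 2) (k (.ofNat (nat_lit 2200456)))))) (mul (pow s3 3) (k (.negSucc (nat_lit 1612883))))))) (add (mul s2 (add (mul s2 (add (mul s2 (add (mul s2 (k (.ofNat (nat_lit 85490)))) (mul s3 (k (.ofNat (nat_lit 590038)))))) (mul (pow s3 2) (k (.ofNat (nat_lit 90034)))))) (mul (pow s3 3) (k (.negSucc (nat_lit 985891)))))) (mul (pow s3 4) (k (.negSucc (nat_lit 171619))))))) (add (mul s2 (add (mul s2 (add (mul s2 (add (mul s2 (add (mul s2 (k (.negSucc (nat_lit 162855)))) (mul s3 (k (.ofNat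 (nat_lit 1004130)))))) (mul (pow s3 2) (k (.negSucc (nat_lit 2165303)))))) (mul (pow s3 3) (k (.ofNat (nat_lit 2030976)))))) (mul (pow s3 4) (k (.negSucc (nat_lit 509659)))))) (mul (pow s3 5) (k (.ofNat (nat_lit 152170)))))))) (add (mul s1 (add (mul s1 (add (mul s1 (add (mul s1 (add (mul s1 (add (mul s1 (k (.negSucc (nat_lit 6683)))) (add (mul s2 (k (.ofNat (nat_lit 19402)))) (mul s3 (k (.ofNat (nat_lit 13380))))))) (add (mul s2 (add (mul s2 (k (.ofNat (nat_lit 81228)))) (mul s3 (k (.negSucc (nat_lit 279931)))))) (mul (pow s3 2) (k (.ofNat (nat_lit 70040))))))) (add (mul s2 (add (mul s2 (add (mul s2 (k (.negSucc (nat_lit 240581)))) (mul s3 (k (.ofNat (nat_lit 2210688)))))) (mul (pow s3 2) (k (.negSucc (nat_lit 1394593)))))) (mul (pow s3 3) (k (.negSucc (nat_lit 188215))))))) (add (mul s2 (add (mul s2 (add (mul s2 (add (mul s2 (k (.ofNat (nat_lit 166214)))) (mul s3 (k (.negSucc (nat_lit 1476847)))))) (mul (pow s3 2) (k (.negSucc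 (nat_lit 89533)))))) (mul (pow s3 3) (k (.ofNat (nat_lit 779604)))))) (mul (pow s3 4) (k (.ofNat (nat_lit 345402))))))) (add (mul s2 (add (mul s2 (add (mul s2 (add (mul s2 (add (mul s2 (k (.negSucc (nat_lit 28009)))) (mul s3 (k (.negSucc (nat_lit 244513)))))) (mul (pow s3 2) (k (.ofNat (nat_lit 1730576)))))) (mul (pow s3 3) (k (.negSucc (nat_lit 1718075)))))) (mul (pow s3 4) (k (.ofNat (nat_lit 392832)))))) (mul (pow s3 5) (k (.negSucc (nat_lit 112807))))))) (add (mul s2 (add (mul s2 (add (mul s2 (add (mul s2 (add (mul s2 (add (mul s2 (k (.ofNat (nat_lit 10836)))) (mul s3 (k (.negSucc (nat_lit 75581)))))) (mul (pow s3 2) (k (.ofNat (nat_lit 102302)))))) (mul (pow s3 3) (k (.ofNat (nat_lit 145386)))))) (mul (pow s3 4) (k (.negSucc (nat_lit 218831)))))) (mul (pow s3 5) (k (.ofNat (nat_lit 37368)))))) (mul (pow s3 6) (k (.ofNat (nat_lit 2232))))))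
def kr1041 : PExp := add (mul s0 (add (mul s0 (add (mul s0 (add (mul s0 (add (mul s0 (add (mul s0 (k (.ofNat (nat_lit 924)))) (add (mul s1 (k (.ofNat (nat_lit 38288)))) (add (mul s2 (k (.negSucc (nat_lit 60119)))) (mul s3 (k (.negSucc (nat_lit 14673)))))))) (add (mul s1 (add (mul s1 (k (.negSucc (nat_lit 235585)))) (add (mul s2 (k (.ofNat (nat_lit 41104)))) (mul s3 (k (.ofNat (nat_lit 79606))))))) (add (mul s2 (add (mul s2 (k (.ofNat (nat_lit 236966)))) (mul s3 (k (.ofNat (nat_lit 101284)))))) (mul (pow s3 2) (k (.ofNat (nat_lit 38808)))))))) (add (mul s1 (add (mul s1 (add (mul s1 (k (.ofNat (nat_lit 279272)))) (add (mul s2 (k (.negSucc (nat_lit 363083)))) (mul s3 (k (.ofNat (nat_lit 377650))))))) (add (mul s2 (add (mul s2 (k (.ofNat (nat_lit 392832)))) (mul s3 (k (.negSucc (nat_lit 180055)))))) (mul (pow s3 2) (k (.negSucc (nat_lit 279931))))))) (add (mul s2 (add (mul s2 (add (mul s2 (k (.negSucc (nat_lit 282561)))) (mul s3 (k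 (.negSucc (nat_lit 509659)))))) (mul (pow s3 2) (k (.ofNat (nat_lit 202882)))))) (mul (pow s3 3) (k (.negSucc (nat_lit 72735)))))))) (add (mul s1 (add (mul s1 (add (mul s1 (add (mul s1 (k (.negSucc (nat_lit 63247)))) (add (mul s2 (k (.ofNat (nat_lit 74158)))) (mul s3 (k (.negSucc (nat_lit 515387))))))) (add (mul s2 (add (mul s2 (k (.ofNat (nat_lit 207398)))) (mul s3 (k (.ofNat (nat_lit 162200)))))) (mul (pow s3 2) (k (.ofNat (nat_lit 308164))))))) (add (mul s2 (add (mul s2 (add (mul s2 (k (.negSucc (nat_lit 244513)))) (mul s3 (k (.negSucc (nat_lit 458507)))))) (mul (pow s3 2) (k (.ofNat (nat_lit 659104)))))) (mul (pow s3 3) (k (.negSucc (nat_lit 279931))))))) (add (mul s2 (add (mul s2 (add (mul s2 (add (mul s2 (k (.ofNat (nat_lit 4436)))) (mul s3 (k (.ofNat (nat_lit 1004130)))))) (mul (pow s3 2) (k (.negSucc (nat_lit 789247)))))) (mul (pow s3 3) (k (.ofNat (nat_lit 202882)))))) (mul (pow s3 4) (k (.ofNat (nat_lit 38808)))))))) (add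 (mul s1 (add (mul s1 (add (mul s1 (add (mul s1 (add (mul s1 (k (.negSucc (nat_lit 11759)))) (add (mul s2 (k (.ofNat (nat_lit 79606)))) (mul s3 (k (.ofNat (nat_lit 229388))))))) (add (mul s2 (add (mul s2 (k (.negSucc (nat_lit 171619)))) (mul s3 (k (.ofNat (nat_lit 436)))))) (mul (pow s3 2) (k (.negSucc (nat_lit 515387))))))) (add (mul s2 (add (mul s2 (add (mul s2 (k (.ofNat (nat_lit 85490)))) (mul s3 (k (.negSucc (nat_lit 38315)))))) (mul (pow s3 2) (k (.ofNat (nat_lit 162200)))))) (mul (pow s3 3) (k (.ofNat (nat_lit 377650))))))) (add (mul s2 (add (mul s2 (add (mul s2 (add (mul s2 (k (.negSucc (nat_lit 12207)))) (mul s3 (k (.ofNat (nat_lit 349768)))))) (mul (pow s3 2) (k (.negSucc (nat_lit 458507)))))) (mul (pow s3 3) (k (.negSucc (nat_lit 180055)))))) (mul (pow s3 4) (k (.ofNat (nat_lit 79606))))))) (add (mul s2 (add (mul s2 (add (mul s2 (add (mul s2 (add (mul s2 (k (.ofNat (nat_lit 37660)))) (mul s3 (k (.negSucc (nat_lit 631871))))))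 (mul (pow s3 2) (k (.ofNat (nat_lit 1004130)))))) (mul (pow s3 3) (k (.negSucc (nat_lit 509659)))))) (mul (pow s3 4) (k (.ofNat (nat_lit 101284)))))) (mul (pow s3 5) (k (.negSucc (nat_lit 14673)))))))) (add (mul s1 (add (mul s1 (add (mul s1 (add (mul s1 (add (mul s1 (add (mul s1 (k (.ofNat (nat_lit 6840)))) (add (mul s2 (k (.negSucc (nat_lit 3163)))) (mul s3 (k (.negSucc (nat_lit 11759))))))) (add (mul s2 (add (mul s2 (k (.negSucc (nat_lit 90007)))) (mul s3 (k (.ofNat (nat_lit 79606)))))) (mul (pow s3 2) (k (.negSucc (nat_lit 63247))))))) (add (mul s2 (add (mul s2 (add (mul s2 (k (.ofNat (nat_lit 150436)))) (mul s3 (k (.negSucc (nat_lit 171619)))))) (mul (pow s3 2) (k (.ofNat (nat_lit 74158)))))) (mul (pow s3 3) (k (.ofNat (nat_lit 279272))))))) (add (mul s2 (add (mul s2 (add (mul s2 (add (mul s2 (k (.negSucc (nat_lit 124143)))) (mul s3 (k (.ofNat (nat_lit 85490)))))) (mul (pow s3 2) (k (.ofNat (nat_lit 207398)))))) (mul (pow s3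 3) (k (.negSucc (nat_lit 363083)))))) (mul (pow s3 4) (k (.negSucc (nat_lit 235585))))))) (add (mul s2 (add (mul s2 (add (mul s2 (add (mul s2 (add (mul s2 (k (.ofNat (nat_lit 37872)))) (mul s3 (k (.negSucc (nat_lit 12207)))))) (mul (pow s3 2) (k (.negSucc (nat_lit 244513)))))) (mul (pow s3 3) (k (.ofNat (nat_lit 392832)))))) (mul (pow s3 4) (k (.ofNat (nat_lit 41104)))))) (mul (pow s3 5) (k (.ofNat (nat_lit 38288))))))) (add (mul s2 (add (mul s2 (add (mul s2 (add (mul s2 (add (mul s2 (add (mul s2 (k (.negSucc (nat_lit 1267)))) (mul s3 (k (.ofNat (nat_lit 37660)))))) (mul (pow s3 2) (k (.ofNat (nat_lit 4436)))))) (mul (pow s3 3) (k (.negSucc (nat_lit 282561)))))) (mul (pow s3 4) (k (.ofNat (nat_lit 236966)))))) (mul (pow s3 5) (k (.negSucc (nat_lit 60119)))))) (mul (pow s3 6) (k (.ofNat (nat_lit 924))))))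
def kr1050 : PExp := add (mul s0 (add (mul s0 (add (mul s0 (add (mul s0 (add (mul s0 (add (mul s0 (k (.ofNat (nat_lit 676)))) (add (mul s1 (k (.ofNat (nat_lit 7220)))) (add (mul s2 (k (.negSucc (nat_lit 67135)))) (mul s3 (k (.ofNat (nat_lit 7220)))))))) (add (mul s1 (add (mul s1 (k (.negSucc (nat_lit 40259)))) (add (mul s2 (k (.negSucc (nat_lit 60119)))) (mul s3 (k (.negSucc (nat_lit 3163))))))) (add (mul s2 (add (mul s2 (k (.ofNat (nat_lit 268260)))) (mul s3 (k (.negSucc (nat_lit 60119)))))) (mul (pow s3 2) (k (.negSucc (nat_lit 40259)))))))) (add (mul s1 (add (mul s1 (add (mul s1 (k (.ofNat (nat_lit 18528)))) (add (mul s2 (k (.ofNat (nat_lit 143646)))) (mul s3 (k (.ofNat (nat_lit 19402))))))) (add (mul s2 (add (mul s2 (k (.ofNat (nat_lit 37368)))) (mul s3 (k (.negSucc (nat_lit 24103)))))) (mul (pow s3 2) (k (.ofNat (nat_lit 19402))))))) (add (mul s2 (add (mul s2 (add (mul s2 (k (.negSucc (nat_lit 341423)))) (mul s3 (k (.ofNat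 (nat_lit 37368)))))) (mul (pow s3 2) (k (.ofNat (nat_lit 143646)))))) (mul (pow s3 3) (k (.ofNat (nat_lit 18528)))))))) (add (mul s1 (add (mul s1 (add (mul s1 (add (mul s1 (k (.ofNat (nat_lit 1638)))) (add (mul s2 (k (.negSucc (nat_lit 104501)))) (mul s3 (k (.ofNat (nat_lit 13380))))))) (add (mul s2 (add (mul s2 (k (.ofNat (nat_lit 18210)))) (mul s3 (k (.negSucc (nat_lit 80517)))))) (mul (pow s3 2) (k (.ofNat (nat_lit 17020))))))) (add (mul s2 (add (mul s2 (add (mul s2 (k (.negSucc (nat_lit 75581)))) (mul s3 (k (.ofNat (nat_lit 115408)))))) (mul (pow s3 2) (k (.negSucc (nat_lit 80517)))))) (mul (pow s3 3) (k (.ofNat (nat_lit 13380))))))) (add (mul s2 (add (mul s2 (add (mul s2 (add (mul s2 (k (.ofNat (nat_lit 197172)))) (mul s3 (k (.negSucc (nat_lit 75581)))))) (mul (pow s3 2) (k (.ofNat (nat_lit 18210)))))) (mul (pow s3 3) (k (.negSucc (nat_lit 104501)))))) (mul (pow s3 4) (k (.ofNat (nat_lit 1638)))))))) (add (mul s1 (add (mul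 s1 (add (mul s1 (add (mul s1 (add (mul s1 (k (.negSucc (nat_lit 2419)))) (add (mul s2 (k (.negSucc (nat_lit 14673)))) (mul s3 (k (.negSucc (nat_lit 11759))))))) (add (mul s2 (add (mul s2 (k (.ofNat (nat_lit 152170)))) (mul s3 (k (.ofNat (nat_lit 15314)))))) (mul (pow s3 2) (k (.ofNat (nat_lit 12686))))))) (add (mul s2 (add (mul s2 (add (mul s2 (k (.negSucc (nat_lit 162855)))) (mul s3 (k (.ofNat (nat_lit 40932)))))) (mul (pow s3 2) (k (.negSucc (nat_lit 101143)))))) (mul (pow s3 3) (k (.ofNat (nat_lit 12686))))))) (add (mul s2 (add (mul s2 (add (mul s2 (add (mul s2 (k (.ofNat (nat_lit 37660)))) (mul s3 (k (.ofNat (nat_lit 24872)))))) (mul (pow s3 2) (k (.ofNat (nat_lit 40932)))))) (mul (pow s3 3) (k (.ofNat (nat_lit 15314)))))) (mul (pow s3 4) (k (.negSucc (nat_lit 11759))))))) (add (mul s2 (add (mul s2 (add (mul s2 (add (mul s2 (add (mul s2 (k (.negSucc (nat_lit 22535)))) (mul s3 (k (.ofNat (nat_lit 37660)))))) (mul (pow s3 2) (k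 (.negSucc (nat_lit 162855)))))) (mul (pow s3 3) (k (.ofNat (nat_lit 152170)))))) (mul (pow s3 4) (k (.negSucc (nat_lit 14673)))))) (mul (pow s3 5) (k (.negSucc (nat_lit 2419)))))))) (add (mul s1 (add (mul s1 (add (mul s1 (add (mul s1 (add (mul s1 (add (mul s1 (k (.negSucc (nat_lit 517)))) (add (mul s2 (k (.ofNat (nat_lit 7220)))) (mul s3 (k (.ofNat (nat_lit 18240))))))) (add (mul s2 (add (mul s2 (k (.negSucc (nat_lit 51005)))) (mul s3 (k (.ofNat (nat_lit 38288)))))) (mul (pow s3 2) (k (.negSucc (nat_lit 97829))))))) (add (mul s2 (add (mul s2 (add (mul s2 (k (.ofNat (nat_lit 74462)))) (mul s3 (k (.negSucc (nat_lit 112807)))))) (mul (pow s3 2) (k (.ofNat (nat_lit 8716)))))) (mul (pow s3 3) (k (.ofNat (nat_lit 148540))))))) (add (mul s2 (add (mul s2 (add (mul s2 (add (mul s2 (k (.negSucc (nat_lit 8559)))) (mul s3 (k (.negSucc (nat_lit 28009)))))) (mul (pow s3 2) (k (.ofNat (nat_lit 130604)))))) (mul (pow s3 3) (k (.ofNat (nat_lit 8716))))))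 (mul (pow s3 4) (k (.negSucc (nat_lit 97829))))))) (add (mul s2 (add (mul s2 (add (mul s2 (add (mul s2 (add (mul s2 (k (.negSucc (nat_lit 4139)))) (mul s3 (k (.ofNat (nat_lit 37872)))))) (mul (pow s3 2) (k (.negSucc (nat_lit 28009)))))) (mul (pow s3 3) (k (.negSucc (nat_lit 112807)))))) (mul (pow s3 4) (k (.ofNat (nat_lit 38288)))))) (mul (pow s3 5) (k (.ofNat (nat_lit 18240))))))) (add (mul s2 (add (mul s2 (add (mul s2 (add (mul s2 (add (mul s2 (add (mul s2 (k (.ofNat (nat_lit 52)))) (mul s3 (k (.negSucc (nat_lit 4139)))))) (mul (pow s3 2) (k (.negSucc (nat_lit 8559)))))) (mul (pow s3 3) (k (.ofNat (nat_lit 74462)))))) (mul (pow s3 4) (k (.negSucc (nat_lit 51005)))))) (mul (pow s3 5) (k (.ofNat (nat_lit 7220)))))) (mul (pow s3 6) (k (.negSucc (nat_lit 517))))))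
def kr1104 : PExp := add (mul s0 (add (mul s0 (add (mul s0 (add (mul s0 (add (mul s0 (add (mul s0 (k (.ofNat (nat_lit 924)))) (add (mul s1 (k (.negSucc (nat_lit 14673)))) (add (mul s2 (k (.ofNat (nat_lit 38288)))) (mul s3 (k (.negSucc (nat_lit 60119)))))))) (add (mul s1 (add (mul s1 (k (.ofNat (nat_lit 38808)))) (add (mul s2 (k (.ofNat (nat_lit 79606)))) (mul s3 (k (.ofNat (nat_lit 101284))))))) (add (mul s2 (add (mul s2 (k (.negSucc (nat_lit 235585)))) (mul s3 (k (.ofNat (nat_lit 41104)))))) (mul (pow s3 2) (k (.ofNat (nat_lit 236966)))))))) (add (mul s1 (add (mul s1 (add (mul s1 (k (.negSucc (nat_lit 72735)))) (add (mul s2 (k (.negSucc (nat_lit 279931)))) (mul s3 (k (.ofNat (nat_lit 202882))))))) (add (mul s2 (add (mul s2 (k (.ofNat (nat_lit 377650)))) (mul s3 (k (.negSucc (nat_lit 180055)))))) (mul (pow s3 2) (k (.negSucc (nat_lit 509659))))))) (add (mul s2 (add (mul s2 (add (mul s2 (k (.ofNat (nat_lit 279272)))) (mul s3 (k (.negSucc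 (nat_lit 363083)))))) (mul (pow s3 2) (k (.ofNat (nat_lit 392832)))))) (mul (pow s3 3) (k (.negSucc (nat_lit 282561)))))))) (add (mul s1 (add (mul s1 (add (mul s1 (add (mul s1 (k (.ofNat (nat_lit 38808)))) (add (mul s2 (k (.negSucc (nat_lit 279931)))) (mul s3 (k (.ofNat (nat_lit 202882))))))) (add (mul s2 (add (mul s2 (k (.ofNat (nat_lit 308164)))) (mul s3 (k (.ofNat (nat_lit 659104)))))) (mul (pow s3 2) (k (.negSucc (nat_lit 789247))))))) (add (mul s2 (add (mul s2 (add (mul s2 (k (.negSucc (nat_lit 515387)))) (mul s3 (k (.ofNat (nat_lit 162200)))))) (mul (pow s3 2) (k (.negSucc (nat_lit 458507)))))) (mul (pow s3 3) (k (.ofNat (nat_lit 1004130))))))) (add (mul s2 (add (mul s2 (add (mul s2 (add (mul s2 (k (.negSucc (nat_lit 63247)))) (mul s3 (k (.ofNat (nat_lit 74158)))))) (mul (pow s3 2) (k (.ofNat (nat_lit 207398)))))) (mul (pow s3 3) (k (.negSucc (nat_lit 244513)))))) (mul (pow s3 4) (k (.ofNat (nat_lit 4436)))))))) (add (mul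 s1 (add (mul s1 (add (mul s1 (add (mul s1 (add (mul s1 (k (.negSucc (nat_lit 14673)))) (add (mul s2 (k (.ofNat (nat_lit 79606)))) (mul s3 (k (.ofNat (nat_lit 101284))))))) (add (mul s2 (add (mul s2 (k (.ofNat (nat_lit 377650)))) (mul s3 (k (.negSucc (nat_lit 180055)))))) (mul (pow s3 2) (k (.negSucc (nat_lit 509659))))))) (add (mul s2 (add (mul s2 (add (mul s2 (k (.negSucc (nat_lit 515387)))) (mul s3 (k (.ofNat (nat_lit 162200)))))) (mul (pow s3 2) (k (.negSucc (nat_lit 458507)))))) (mul (pow s3 3) (k (.ofNat (nat_lit 1004130))))))) (add (mul s2 (add (mul s2 (add (mul s2 (add (mul s2 (k (.ofNat (nat_lit 229388)))) (mul s3 (k (.ofNat (nat_lit 436)))))) (mul (pow s3 2) (k (.negSucc (nat_lit 38315)))))) (mul (pow s3 3) (k (.ofNat (nat_lit 349768)))))) (mul (pow s3 4) (k (.negSucc (nat_lit 631871))))))) (add (mul s2 (add (mul s2 (add (mul s2 (add (mul s2 (add (mul s2 (k (.negSucc (nat_lit 11759)))) (mul s3 (k (.ofNat (nat_lit 79606))))))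 (mul (pow s3 2) (k (.negSucc (nat_lit 171619)))))) (mul (pow s3 3) (k (.ofNat (nat_lit 85490)))))) (mul (pow s3 4) (k (.negSucc (nat_lit 12207)))))) (mul (pow s3 5) (k (.ofNat (nat_lit 37660)))))))) (add (mul s1 (add (mul s1 (add (mul s1 (add (mul s1 (add (mul s1 (add (mul s1 (k (.ofNat (nat_lit 924)))) (add (mul s2 (k (.ofNat (nat_lit 38288)))) (mul s3 (k (.negSucc (nat_lit 60119))))))) (add (mul s2 (add (mul s2 (k (.negSucc (nat_lit 235585)))) (mul s3 (k (.ofNat (nat_lit 41104)))))) (mul (pow s3 2) (k (.ofNat (nat_lit 236966))))))) (add (mul s2 (add (mul s2 (add (mul s2 (k (.ofNat (nat_lit 279272)))) (mul s3 (k (.negSucc (nat_lit 363083)))))) (mul (pow s3 2) (k (.ofNat (nat_lit 392832)))))) (mul (pow s3 3) (k (.negSucc (nat_lit 282561))))))) (add (mul s2 (add (mul s2 (add (mul s2 (add (mul s2 (k (.negSucc (nat_lit 63247)))) (mul s3 (k (.ofNat (nat_lit 74158)))))) (mul (pow s3 2) (k (.ofNat (nat_lit 207398)))))) (mul (pow s3 3)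 (k (.negSucc (nat_lit 244513)))))) (mul (pow s3 4) (k (.ofNat (nat_lit 4436))))))) (add (mul s2 (add (mul s2 (add (mul s2 (add (mul s2 (add (mul s2 (k (.negSucc (nat_lit 11759)))) (mul s3 (k (.ofNat (nat_lit 79606)))))) (mul (pow s3 2) (k (.negSucc (nat_lit 171619)))))) (mul (pow s3 3) (k (.ofNat (nat_lit 85490)))))) (mul (pow s3 4) (k (.negSucc (nat_lit 12207)))))) (mul (pow s3 5) (k (.ofNat (nat_lit 37660))))))) (add (mul s2 (add (mul s2 (add (mul s2 (add (mul s2 (add (mul s2 (add (mul s2 (k (.ofNat (nat_lit 6840)))) (mul s3 (k (.negSucc (nat_lit 3163)))))) (mul (pow s3 2) (k (.negSucc (nat_lit 90007)))))) (mul (pow s3 3) (k (.ofNat (nat_lit 150436)))))) (mul (pow s3 4) (k (.negSucc (nat_lit 124143)))))) (mul (pow s3 5) (k (.ofNat (nat_lit 37872)))))) (mul (pow s3 6) (k (.negSucc (nat_lit 1267))))))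
def kr1113 : PExp := add (mul s0 (add (mul s0 (add (mul s0 (add (mul s0 (add (mul s0 (add (mul s0 (k (.negSucc (nat_lit 595)))) (add (mul s1 (k (.ofNat (nat_lit 15314)))) (add (mul s2 (k (.ofNat (nat_lit 15314)))) (mul s3 (k (.negSucc (nat_lit 24103)))))))) (add (mul s1 (add (mul s1 (k (.ofNat (nat_lit 131604)))) (add (mul s2 (k (.ofNat (nat_lit 436)))) (mul s3 (k (.negSucc (nat_lit 180055))))))) (add (mul s2 (add (mul s2 (k (.ofNat (nat_lit 131604)))) (mul s3 (k (.negSucc (nat_lit 180055)))))) (mul (pow s3 2) (k (.ofNat (nat_lit 40676)))))))) (add (mul s1 (add (mul s1 (add (mul s1 (k (.negSucc (nat_lit 368679)))) (add (mul s2 (k (.negSucc (nat_lit 223871)))) (mul s3 (k (.ofNat (nat_lit 708250))))))) (add (mul s2 (add (mul s2 (k (.negSucc (nat_lit 223871)))) (mul s3 (k (.ofNat (nat_lit 1566784)))))) (mul (pow s3 2) (k (.negSucc (nat_lit 985891))))))) (add (mul s2 (add (mul s2 (add (mul s2 (k (.negSucc (nat_lit 368679)))) (mul s3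 (k (.ofNat (nat_lit 708250)))))) (mul (pow s3 2) (k (.negSucc (nat_lit 985891)))))) (mul (pow s3 3) (k (.ofNat (nat_lit 371904)))))))) (add (mul s1 (add (mul s1 (add (mul s1 (add (mul s1 (k (.ofNat (nat_lit 131604)))) (add (mul s2 (k (.negSucc (nat_lit 223871)))) (mul s3 (k (.ofNat (nat_lit 708250))))))) (add (mul s2 (add (mul s2 (k (.ofNat (nat_lit 1919244)))) (mul s3 (k (.negSucc (nat_lit 3069375)))))) (mul (pow s3 2) (k (.negSucc (nat_lit 846223))))))) (add (mul s2 (add (mul s2 (add (mul s2 (k (.negSucc (nat_lit 223871)))) (mul s3 (k (.negSucc (nat_lit 3069375)))))) (mul (pow s3 2) (k (.ofNat (nat_lit 3132240)))))) (mul (pow s3 3) (k (.ofNat (nat_lit 590038))))))) (add (mul s2 (add (mul s2 (add (mul s2 (add (mul s2 (k (.ofNat (nat_lit 131604)))) (mul s3 (k (.ofNat (nat_lit 708250)))))) (mul (pow s3 2) (k (.negSucc (nat_lit 846223)))))) (mul (pow s3 3) (k (.ofNat (nat_lit 590038)))))) (mul (pow s3 4) (k (.negSucc (nat_lit 405655))))))))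 (add (mul s1 (add (mul s1 (add (mul s1 (add (mul s1 (add (mul s1 (k (.ofNat (nat_lit 15314)))) (add (mul s2 (k (.ofNat (nat_lit 436)))) (mul s3 (k (.negSucc (nat_lit 180055))))))) (add (mul s2 (add (mul s2 (k (.negSucc (nat_lit 223871)))) (mul s3 (k (.ofNat (nat_lit 1566784)))))) (mul (pow s3 2) (k (.negSucc (nat_lit 985891))))))) (add (mul s2 (add (mul s2 (add (mul s2 (k (.negSucc (nat_lit 223871)))) (mul s3 (k (.negSucc (nat_lit 3069375)))))) (mul (pow s3 2) (k (.ofNat (nat_lit 3132240)))))) (mul (pow s3 3) (k (.ofNat (nat_lit 590038))))))) (add (mul s2 (add (mul s2 (add (mul s2 (add (mul s2 (k (.ofNat (nat_lit 436)))) (mul s3 (k (.ofNat (nat_lit 1566784)))))) (mul (pow s3 2) (k (.ofNat (nat_lit 3132240)))))) (mul (pow s3 3) (k (.negSucc (nat_lit 4805687)))))) (mul (pow s3 4) (k (.ofNat (nat_lit 349768))))))) (add (mul s2 (add (mul s2 (add (mul s2 (add (mul s2 (add (mul s2 (k (.ofNat (nat_lit 15314)))) (mul s3 (k (.negSucc (nat_lit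 180055)))))) (mul (pow s3 2) (k (.negSucc (nat_lit 985891)))))) (mul (pow s3 3) (k (.ofNat (nat_lit 590038)))))) (mul (pow s3 4) (k (.ofNat (nat_lit 349768)))))) (mul (pow s3 5) (k (.ofNat (nat_lit 24872)))))))) (add (mul s1 (add (mul s1 (add (mul s1 (add (mul s1 (add (mul s1 (add (mul s1 (k (.negSucc (nat_lit 595)))) (add (mul s2 (k (.ofNat (nat_lit 15314)))) (mul s3 (k (.negSucc (nat_lit 24103))))))) (add (mul s2 (add (mul s2 (k (.ofNat (nat_lit 131604)))) (mul s3 (k (.negSucc (nat_lit 180055)))))) (mul (pow s3 2) (k (.ofNat (nat_lit 40676))))))) (add (mul s2 (add (mul s2 (add (mul s2 (k (.negSucc (nat_lit 368679)))) (mul s3 (k (.ofNat (nat_lit 708250)))))) (mul (pow s3 2) (k (.negSucc (nat_lit 985891)))))) (mul (pow s3 3) (k (.ofNat (nat_lit 371904))))))) (add (mul s2 (add (mul s2 (add (mul s2 (add (mul s2 (k (.ofNat (nat_lit 131604)))) (mul s3 (k (.ofNat (nat_lit 708250)))))) (mul (pow s3 2) (k (.negSucc (nat_lit 846223))))))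 (mul (pow s3 3) (k (.ofNat (nat_lit 590038)))))) (mul (pow s3 4) (k (.negSucc (nat_lit 405655))))))) (add (mul s2 (add (mul s2 (add (mul s2 (add (mul s2 (add (mul s2 (k (.ofNat (nat_lit 15314)))) (mul s3 (k (.negSucc (nat_lit 180055)))))) (mul (pow s3 2) (k (.negSucc (nat_lit 985891)))))) (mul (pow s3 3) (k (.ofNat (nat_lit 590038)))))) (mul (pow s3 4) (k (.ofNat (nat_lit 349768)))))) (mul (pow s3 5) (k (.ofNat (nat_lit 24872))))))) (add (mul s2 (add (mul s2 (add (mul s2 (add (mul s2 (add (mul s2 (add (mul s2 (k (.negSucc (nat_lit 595)))) (mul s3 (k (.negSucc (nat_lit 24103)))))) (mul (pow s3 2) (k (.ofNat (nat_lit 40676)))))) (mul (pow s3 3) (k (.ofNat (nat_lit 371904)))))) (mul (pow s3 4) (k (.negSucc (nat_lit 405655)))))) (mul (pow s3 5) (k (.ofNat (nat_lit 24872)))))) (mul (pow s3 6) (k (.ofNat (nat_lit 4716))))))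
def kr1122 : PExp := add (mul s0 (add (mul s0 (add (mul s0 (add (mul s0 (add (mul s0 (add (mul s0 (k (.ofNat (nat_lit 27980)))) (add (mul s1 (k (.negSucc (nat_lit 101143)))) (add (mul s2 (k (.negSucc (nat_lit 80517)))) (mul s3 (k (.negSucc (nat_lit 80517)))))))) (add (mul s1 (add (mul s1 (k (.negSucc (nat_lit 256599)))) (add (mul s2 (k (.ofNat (nat_lit 162200)))) (mul s3 (k (.ofNat (nat_lit 162200))))))) (add (mul s2 (add (mul s2 (k (.negSucc (nat_lit 37241)))) (mul s3 (k (.ofNat (nat_lit 659104)))))) (mul (pow s3 2) (k (.negSucc (nat_lit 37241)))))))) (add (mul s1 (add (mul s1 (add (mul s1 (k (.ofNat (nat_lit 1185888)))) (add (mul s2 (k (.negSucc (nat_lit 1001959)))) (mul s3 (k (.negSucc (nat_lit 1001959))))))) (add (mul s2 (add (mul s2 (k (.ofNat (nat_lit 2200456)))) (mul s3 (k (.negSucc (nat_lit 3069375)))))) (mul (pow s3 2) (k (.ofNat (nat_lit 2200456))))))) (add (mul s2 (add (mul s2 (add (mul s2 (k (.negSucc (nat_lit 367665))))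 (mul s3 (k (.negSucc (nat_lit 156185)))))) (mul (pow s3 2) (k (.negSucc (nat_lit 156185)))))) (mul (pow s3 3) (k (.negSucc (nat_lit 367665)))))))) (add (mul s1 (add (mul s1 (add (mul s1 (add (mul s1 (k (.negSucc (nat_lit 256599)))) (add (mul s2 (k (.negSucc (nat_lit 1001959)))) (mul s3 (k (.negSucc (nat_lit 1001959))))))) (add (mul s2 (add (mul s2 (k (.negSucc (nat_lit 426863)))) (mul s3 (k (.ofNat (nat_lit 5191280)))))) (mul (pow s3 2) (k (.negSucc (nat_lit 426863))))))) (add (mul s2 (add (mul s2 (add (mul s2 (k (.negSucc (nat_lit 1196751)))) (mul s3 (k (.negSucc (nat_lit 235171)))))) (mul (pow s3 2) (k (.negSucc (nat_lit 235171)))))) (mul (pow s3 3) (k (.negSucc (nat_lit 1196751))))))) (add (mul s2 (add (mul s2 (add (mul s2 (add (mul s2 (k (.ofNat (nat_lit 281134)))) (mul s3 (k (.negSucc (nat_lit 109261)))))) (mul (pow s3 2) (k (.ofNat (nat_lit 794428)))))) (mul (pow s3 3) (k (.negSucc (nat_lit 109261)))))) (mul (pow s3 4) (k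 (.ofNat (nat_lit 281134)))))))) (add (mul s1 (add (mul s1 (add (mul s1 (add (mul s1 (add (mul s1 (k (.negSucc (nat_lit 101143)))) (add (mul s2 (k (.ofNat (nat_lit 162200)))) (mul s3 (k (.ofNat (nat_lit 162200))))))) (add (mul s2 (add (mul s2 (k (.ofNat (nat_lit 2200456)))) (mul s3 (k (.negSucc (nat_lit 3069375)))))) (mul (pow s3 2) (k (.ofNat (nat_lit 2200456))))))) (add (mul s2 (add (mul s2 (add (mul s2 (k (.negSucc (nat_lit 1196751)))) (mul s3 (k (.negSucc (nat_lit 235171)))))) (mul (pow s3 2) (k (.negSucc (nat_lit 235171)))))) (mul (pow s3 3) (k (.negSucc (nat_lit 1196751))))))) (add (mul s2 (add (mul s2 (add (mul s2 (add (mul s2 (k (.negSucc (nat_lit 38315)))) (mul s3 (k (.ofNat (nat_lit 3132240)))))) (mul (pow s3 2) (k (.negSucc (nat_lit 4491279)))))) (mul (pow s3 3) (k (.ofNat (nat_lit 3132240)))))) (mul (pow s3 4) (k (.negSucc (nat_lit 38315))))))) (add (mul s2 (add (mul s2 (add (mul s2 (add (mul s2 (add (mul s2 (k (.ofNat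 (nat_lit 40932)))) (mul s3 (k (.negSucc (nat_lit 458507)))))) (mul (pow s3 2) (k (.ofNat (nat_lit 90034)))))) (mul (pow s3 3) (k (.ofNat (nat_lit 90034)))))) (mul (pow s3 4) (k (.negSucc (nat_lit 458507)))))) (mul (pow s3 5) (k (.ofNat (nat_lit 40932)))))))) (add (mul s1 (add (mul s1 (add (mul s1 (add (mul s1 (add (mul s1 (add (mul s1 (k (.ofNat (nat_lit 27980)))) (add (mul s2 (k (.negSucc (nat_lit 80517)))) (mul s3 (k (.negSucc (nat_lit 80517))))))) (add (mul s2 (add (mul s2 (k (.negSucc (nat_lit 37241)))) (mul s3 (k (.ofNat (nat_lit 659104)))))) (mul (pow s3 2) (k (.negSucc (nat_lit 37241))))))) (add (mul s2 (add (mul s2 (add (mul s2 (k (.negSucc (nat_lit 367665)))) (mul s3 (k (.negSucc (nat_lit 156185)))))) (mul (pow s3 2) (k (.negSucc (nat_lit 156185)))))) (mul (pow s3 3) (k (.negSucc (nat_lit 367665))))))) (add (mul s2 (add (mul s2 (add (mul s2 (add (mul s2 (k (.ofNat (nat_lit 281134)))) (mul s3 (k (.negSucc (nat_lit 109261))))))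 (mul (pow s3 2) (k (.ofNat (nat_lit 794428)))))) (mul (pow s3 3) (k (.negSucc (nat_lit 109261)))))) (mul (pow s3 4) (k (.ofNat (nat_lit 281134))))))) (add (mul s2 (add (mul s2 (add (mul s2 (add (mul s2 (add (mul s2 (k (.ofNat (nat_lit 40932)))) (mul s3 (k (.negSucc (nat_lit 458507)))))) (mul (pow s3 2) (k (.ofNat (nat_lit 90034)))))) (mul (pow s3 3) (k (.ofNat (nat_lit 90034)))))) (mul (pow s3 4) (k (.negSucc (nat_lit 458507)))))) (mul (pow s3 5) (k (.ofNat (nat_lit 40932))))))) (add (mul s2 (add (mul s2 (add (mul s2 (add (mul s2 (add (mul s2 (add (mul s2 (k (.negSucc (nat_lit 28991)))) (mul s3 (k (.ofNat (nat_lit 115408)))))) (mul (pow s3 2) (k (.negSucc (nat_lit 74083)))))) (mul (pow s3 3) (k (.ofNat (nat_lit 270184)))))) (mul (pow s3 4) (k (.negSucc (nat_lit 74083)))))) (mul (pow s3 5) (k (.ofNat (nat_lit 115408)))))) (mul (pow s3 6) (k (.negSucc (nat_lit 28991))))))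
def kr1131 : PExp := add (mul s0 (add (mul s0 (add (mul s0 (add (mul s0 (add (mul s0 (add (mul s0 (k (.negSucc (nat_lit 595)))) (add (mul s1 (k (.ofNat (nat_lit 15314)))) (add (mul s2 (k (.negSucc (nat_lit 24103)))) (mul s3 (k (.ofNat (nat_lit 15314)))))))) (add (mul s1 (add (mul s1 (k (.ofNat (nat_lit 131604)))) (add (mul s2 (k (.negSucc (nat_lit 180055)))) (mul s3 (k (.ofNat (nat_lit 436))))))) (add (mul s2 (add (mul s2 (k (.ofNat (nat_lit 40676)))) (mul s3 (k (.negSucc (nat_lit 180055)))))) (mul (pow s3 2) (k (.ofNat (nat_lit 131604)))))))) (add (mul s1 (add (mul s1 (add (mul s1 (k (.negSucc (nat_lit 368679)))) (add (mul s2 (k (.ofNat (nat_lit 708250)))) (mul s3 (k (.negSucc (nat_lit 223871))))))) (add (mul s2 (add (mul s2 (k (.negSucc (nat_lit 985891)))) (mul s3 (k (.ofNat (nat_lit 1566784)))))) (mul (pow s3 2) (k (.negSucc (nat_lit 223871))))))) (add (mul s2 (add (mul s2 (add (mul s2 (k (.ofNat (nat_lit 371904)))) (mul s3 (k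 (.negSucc (nat_lit 985891)))))) (mul (pow s3 2) (k (.ofNat (nat_lit 708250)))))) (mul (pow s3 3) (k (.negSucc (nat_lit 368679)))))))) (add (mul s1 (add (mul s1 (add (mul s1 (add (mul s1 (k (.ofNat (nat_lit 131604)))) (add (mul s2 (k (.ofNat (nat_lit 708250)))) (mul s3 (k (.negSucc (nat_lit 223871))))))) (add (mul s2 (add (mul s2 (k (.negSucc (nat_lit 846223)))) (mul s3 (k (.negSucc (nat_lit 3069375)))))) (mul (pow s3 2) (k (.ofNat (nat_lit 1919244))))))) (add (mul s2 (add (mul s2 (add (mul s2 (k (.ofNat (nat_lit 590038)))) (mul s3 (k (.ofNat (nat_lit 3132240)))))) (mul (pow s3 2) (k (.negSucc (nat_lit 3069375)))))) (mul (pow s3 3) (k (.negSucc (nat_lit 223871))))))) (add (mul s2 (add (mul s2 (add (mul s2 (add (mul s2 (k (.negSucc (nat_lit 405655)))) (mul s3 (k (.ofNat (nat_lit 590038)))))) (mul (pow s3 2) (k (.negSucc (nat_lit 846223)))))) (mul (pow s3 3) (k (.ofNat (nat_lit 708250)))))) (mul (pow s3 4) (k (.ofNat (nat_lit 131604))))))))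 (add (mul s1 (add (mul s1 (add (mul s1 (add (mul s1 (add (mul s1 (k (.ofNat (nat_lit 15314)))) (add (mul s2 (k (.negSucc (nat_lit 180055)))) (mul s3 (k (.ofNat (nat_lit 436))))))) (add (mul s2 (add (mul s2 (k (.negSucc (nat_lit 985891)))) (mul s3 (k (.ofNat (nat_lit 1566784)))))) (mul (pow s3 2) (k (.negSucc (nat_lit 223871))))))) (add (mul s2 (add (mul s2 (add (mul s2 (k (.ofNat (nat_lit 590038)))) (mul s3 (k (.ofNat (nat_lit 3132240)))))) (mul (pow s3 2) (k (.negSucc (nat_lit 3069375)))))) (mul (pow s3 3) (k (.negSucc (nat_lit 223871))))))) (add (mul s2 (add (mul s2 (add (mul s2 (add (mul s2 (k (.ofNat (nat_lit 349768)))) (mul s3 (k (.negSucc (nat_lit 4805687)))))) (mul (pow s3 2) (k (.ofNat (nat_lit 3132240)))))) (mul (pow s3 3) (k (.ofNat (nat_lit 1566784)))))) (mul (pow s3 4) (k (.ofNat (nat_lit 436))))))) (add (mul s2 (add (mul s2 (add (mul s2 (add (mul s2 (add (mul s2 (k (.ofNat (nat_lit 24872)))) (mul s3 (k (.ofNat (nat_lit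 349768)))))) (mul (pow s3 2) (k (.ofNat (nat_lit 590038)))))) (mul (pow s3 3) (k (.negSucc (nat_lit 985891)))))) (mul (pow s3 4) (k (.negSucc (nat_lit 180055)))))) (mul (pow s3 5) (k (.ofNat (nat_lit 15314)))))))) (add (mul s1 (add (mul s1 (add (mul s1 (add (mul s1 (add (mul s1 (add (mul s1 (k (.negSucc (nat_lit 595)))) (add (mul s2 (k (.negSucc (nat_lit 24103)))) (mul s3 (k (.ofNat (nat_lit 15314))))))) (add (mul s2 (add (mul s2 (k (.ofNat (nat_lit 40676)))) (mul s3 (k (.negSucc (nat_lit 180055)))))) (mul (pow s3 2) (k (.ofNat (nat_lit 131604))))))) (add (mul s2 (add (mul s2 (add (mul s2 (k (.ofNat (nat_lit 371904)))) (mul s3 (k (.negSucc (nat_lit 985891)))))) (mul (pow s3 2) (k (.ofNat (nat_lit 708250)))))) (mul (pow s3 3) (k (.negSucc (nat_lit 368679))))))) (add (mul s2 (add (mul s2 (add (mul s2 (add (mul s2 (k (.negSucc (nat_lit 405655)))) (mul s3 (k (.ofNat (nat_lit 590038)))))) (mul (pow s3 2) (k (.negSucc (nat_lit 846223))))))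 (mul (pow s3 3) (k (.ofNat (nat_lit 708250)))))) (mul (pow s3 4) (k (.ofNat (nat_lit 131604))))))) (add (mul s2 (add (mul s2 (add (mul s2 (add (mul s2 (add (mul s2 (k (.ofNat (nat_lit 24872)))) (mul s3 (k (.ofNat (nat_lit 349768)))))) (mul (pow s3 2) (k (.ofNat (nat_lit 590038)))))) (mul (pow s3 3) (k (.negSucc (nat_lit 985891)))))) (mul (pow s3 4) (k (.negSucc (nat_lit 180055)))))) (mul (pow s3 5) (k (.ofNat (nat_lit 15314))))))) (add (mul s2 (add (mul s2 (add (mul s2 (add (mul s2 (add (mul s2 (add (mul s2 (k (.ofNat (nat_lit 4716)))) (mul s3 (k (.ofNat (nat_lit 24872)))))) (mul (pow s3 2) (k (.negSucc (nat_lit 405655)))))) (mul (pow s3 3) (k (.ofNat (nat_lit 371904)))))) (mul (pow s3 4) (k (.ofNat (nat_lit 40676)))))) (mul (pow s3 5) (k (.negSucc (nat_lit 24103)))))) (mul (pow s3 6) (k (.negSucc (nat_lit 595))))))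
def kr1140 : PExp := add (mul s0 (add (mul s0 (add (mul s0 (add (mul s0 (add (mul s0 (add (mul s0 (k (.ofNat (nat_lit 924)))) (add (mul s1 (k (.negSucc (nat_lit 14673)))) (add (mul s2 (k (.negSucc (nat_lit 60119)))) (mul s3 (k (.ofNat (nat_lit 38288)))))))) (add (mul s1 (add (mul s1 (k (.ofNat (nat_lit 38808)))) (add (mul s2 (k (.ofNat (nat_lit 101284)))) (mul s3 (k (.ofNat (nat_lit 79606))))))) (add (mul s2 (add (mul s2 (k (.ofNat (nat_lit 236966)))) (mul s3 (k (.ofNat (nat_lit 41104)))))) (mul (pow s3 2) (k (.negSucc (nat_lit 235585)))))))) (add (mul s1 (add (mul s1 (add (mul s1 (k (.negSucc (nat_lit 72735)))) (add (mul s2 (k (.ofNat (nat_lit 202882)))) (mul s3 (k (.negSucc (nat_lit 279931))))))) (add (mul s2 (add (mul s2 (k (.negSucc (nat_lit 509659)))) (mul s3 (k (.negSucc (nat_lit 180055)))))) (mul (pow s3 2) (k (.ofNat (nat_lit 377650))))))) (add (mul s2 (add (mul s2 (add (mul s2 (k (.negSucc (nat_lit 282561)))) (mul s3 (k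 (.ofNat (nat_lit 392832)))))) (mul (pow s3 2) (k (.negSucc (nat_lit 363083)))))) (mul (pow s3 3) (k (.ofNat (nat_lit 279272)))))))) (add (mul s1 (add (mul s1 (add (mul s1 (add (mul s1 (k (.ofNat (nat_lit 38808)))) (add (mul s2 (k (.ofNat (nat_lit 202882)))) (mul s3 (k (.negSucc (nat_lit 279931))))))) (add (mul s2 (add (mul s2 (k (.negSucc (nat_lit 789247)))) (mul s3 (k (.ofNat (nat_lit 659104)))))) (mul (pow s3 2) (k (.ofNat (nat_lit 308164))))))) (add (mul s2 (add (mul s2 (add (mul s2 (k (.ofNat (nat_lit 1004130)))) (mul s3 (k (.negSucc (nat_lit 458507)))))) (mul (pow s3 2) (k (.ofNat (nat_lit 162200)))))) (mul (pow s3 3) (k (.negSucc (nat_lit 515387))))))) (add (mul s2 (add (mul s2 (add (mul s2 (add (mul s2 (k (.ofNat (nat_lit 4436)))) (mul s3 (k (.negSucc (nat_lit 244513)))))) (mul (pow s3 2) (k (.ofNat (nat_lit 207398)))))) (mul (pow s3 3) (k (.ofNat (nat_lit 74158)))))) (mul (pow s3 4) (k (.negSucc (nat_lit 63247)))))))) (add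 (mul s1 (add (mul s1 (add (mul s1 (add (mul s1 (add (mul s1 (k (.negSucc (nat_lit 14673)))) (add (mul s2 (k (.ofNat (nat_lit 101284)))) (mul s3 (k (.ofNat (nat_lit 79606))))))) (add (mul s2 (add (mul s2 (k (.negSucc (nat_lit 509659)))) (mul s3 (k (.negSucc (nat_lit 180055)))))) (mul (pow s3 2) (k (.ofNat (nat_lit 377650))))))) (add (mul s2 (add (mul s2 (add (mul s2 (k (.ofNat (nat_lit 1004130)))) (mul s3 (k (.negSucc (nat_lit 458507)))))) (mul (pow s3 2) (k (.ofNat (nat_lit 162200)))))) (mul (pow s3 3) (k (.negSucc (nat_lit 515387))))))) (add (mul s2 (add (mul s2 (add (mul s2 (add (mul s2 (k (.negSucc (nat_lit 631871)))) (mul s3 (k (.ofNat (nat_lit 349768)))))) (mul (pow s3 2) (k (.negSucc (nat_lit 38315)))))) (mul (pow s3 3) (k (.ofNat (nat_lit 436)))))) (mul (pow s3 4) (k (.ofNat (nat_lit 229388))))))) (add (mul s2 (add (mul s2 (add (mul s2 (add (mul s2 (add (mul s2 (k (.ofNat (nat_lit 37660)))) (mul s3 (k (.negSucc (nat_lit 12207))))))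 (mul (pow s3 2) (k (.ofNat (nat_lit 85490)))))) (mul (pow s3 3) (k (.negSucc (nat_lit 171619)))))) (mul (pow s3 4) (k (.ofNat (nat_lit 79606)))))) (mul (pow s3 5) (k (.negSucc (nat_lit 11759)))))))) (add (mul s1 (add (mul s1 (add (mul s1 (add (mul s1 (add (mul s1 (add (mul s1 (k (.ofNat (nat_lit 924)))) (add (mul s2 (k (.negSucc (nat_lit 60119)))) (mul s3 (k (.ofNat (nat_lit 38288))))))) (add (mul s2 (add (mul s2 (k (.ofNat (nat_lit 236966)))) (mul s3 (k (.ofNat (nat_lit 41104)))))) (mul (pow s3 2) (k (.negSucc (nat_lit 235585))))))) (add (mul s2 (add (mul s2 (add (mul s2 (k (.negSucc (nat_lit 282561)))) (mul s3 (k (.ofNat (nat_lit 392832)))))) (mul (pow s3 2) (k (.negSucc (nat_lit 363083)))))) (mul (pow s3 3) (k (.ofNat (nat_lit 279272))))))) (add (mul s2 (add (mul s2 (add (mul s2 (add (mul s2 (k (.ofNat (nat_lit 4436)))) (mul s3 (k (.negSucc (nat_lit 244513)))))) (mul (pow s3 2) (k (.ofNat (nat_lit 207398)))))) (mul (pow s3 3)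 (k (.ofNat (nat_lit 74158)))))) (mul (pow s3 4) (k (.negSucc (nat_lit 63247))))))) (add (mul s2 (add (mul s2 (add (mul s2 (add (mul s2 (add (mul s2 (k (.ofNat (nat_lit 37660)))) (mul s3 (k (.negSucc (nat_lit 12207)))))) (mul (pow s3 2) (k (.ofNat (nat_lit 85490)))))) (mul (pow s3 3) (k (.negSucc (nat_lit 171619)))))) (mul (pow s3 4) (k (.ofNat (nat_lit 79606)))))) (mul (pow s3 5) (k (.negSucc (nat_lit 11759))))))) (add (mul s2 (add (mul s2 (add (mul s2 (add (mul s2 (add (mul s2 (add (mul s2 (k (.negSucc (nat_lit 1267)))) (mul s3 (k (.ofNat (nat_lit 37872)))))) (mul (pow s3 2) (k (.negSucc (nat_lit 124143)))))) (mul (pow s3 3) (k (.ofNat (nat_lit 150436)))))) (mul (pow s3 4) (k (.negSucc (nat_lit 90007)))))) (mul (pow s3 5) (k (.negSucc (nat_lit 3163)))))) (mul (pow s3 6) (k (.ofNat (nat_lit 6840))))))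
def kr1203 : PExp := add (mul s0 (add (mul s0 (add (mul s0 (add (mul s0 (add (mul s0 (add (mul s0 (k (.negSucc (nat_lit 7007)))) (add (mul s1 (k (.negSucc (nat_lit 104501)))) (add (mul s2 (k (.ofNat (nat_lit 8716)))) (mul s3 (k (.ofNat (nat_lit 143646)))))))) (add (mul s1 (add (mul s1 (k (.ofNat (nat_lit 162340)))) (add (mul s2 (k (.ofNat (nat_lit 74158)))) (mul s3 (k (.ofNat (nat_lit 202882))))))) (add (mul s2 (add (mul s2 (k (.ofNat (nat_lit 244430)))) (mul s3 (k (.negSucc (nat_lit 363083)))))) (mul (pow s3 2) (k (.negSucc (nat_lit 580169)))))))) (add (mul s1 (add (mul s1 (add (mul s1 (k (.ofNat (nat_lit 147062)))) (add (mul s2 (k (.negSucc (nat_lit 1394593)))) (mul s3 (k (.ofNat (nat_lit 80396))))))) (add (mul s2 (add (mul s2 (k (.ofNat (nat_lit 239942)))) (mul s3 (k (.ofNat (nat_lit 708250)))))) (mul (pow s3 2) (k (.negSucc (nat_lit 20809))))))) (add (mul s2 (add (mul s2 (add (mul s2 (k (.negSucc (nat_lit 409991)))) (mul s3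 (k (.negSucc (nat_lit 257311)))))) (mul (pow s3 2) (k (.ofNat (nat_lit 779604)))))) (mul (pow s3 3) (k (.ofNat (nat_lit 538020)))))))) (add (mul s1 (add (mul s1 (add (mul s1 (add (mul s1 (k (.negSucc (nat_lit 436791)))) (add (mul s2 (k (.ofNat (nat_lit 2210688)))) (mul s3 (k (.negSucc (nat_lit 20809))))))) (add (mul s2 (add (mul s2 (k (.negSucc (nat_lit 774799)))) (mul s3 (k (.negSucc (nat_lit 156185)))))) (mul (pow s3 2) (k (.ofNat (nat_lit 294672))))))) (add (mul s2 (add (mul s2 (add (mul s2 (k (.ofNat (nat_lit 589078)))) (mul s3 (k (.negSucc (nat_lit 1001959)))))) (mul (pow s3 2) (k (.negSucc (nat_lit 109261)))))) (mul (pow s3 3) (k (.negSucc (nat_lit 800143))))))) (add (mul s2 (add (mul s2 (add (mul s2 (add (mul s2 (k (.ofNat (nat_lit 84180)))) (mul s3 (k (.ofNat (nat_lit 239942)))))) (mul (pow s3 2) (k (.ofNat (nat_lit 1088034)))))) (mul (pow s3 3) (k (.negSucc (nat_lit 1476847)))))) (mul (pow s3 4) (k (.ofNat (nat_lit 179086))))))))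 (add (mul s1 (add (mul s1 (add (mul s1 (add (mul s1 (add (mul s1 (k (.ofNat (nat_lit 152170)))) (add (mul s2 (k (.negSucc (nat_lit 171619)))) (mul s3 (k (.negSucc (nat_lit 509659))))))) (add (mul s2 (add (mul s2 (k (.negSucc (nat_lit 1612883)))) (mul s3 (k (.negSucc (nat_lit 985891)))))) (mul (pow s3 2) (k (.ofNat (nat_lit 2030976))))))) (add (mul s2 (add (mul s2 (add (mul s2 (k (.ofNat (nat_lit 1381968)))) (mul s3 (k (.ofNat (nat_lit 2200456)))))) (mul (pow s3 2) (k (.ofNat (nat_lit 90034)))))) (mul (pow s3 3) (k (.negSucc (nat_lit 2165303))))))) (add (mul s2 (add (mul s2 (add (mul s2 (add (mul s2 (k (.negSucc (nat_lit 515387)))) (mul s3 (k (.negSucc (nat_lit 223871)))))) (mul (pow s3 2) (k (.negSucc (nat_lit 1196751)))))) (mul (pow s3 3) (k (.ofNat (nat_lit 590038)))))) (mul (pow s3 4) (k (.ofNat (nat_lit 1004130))))))) (add (mul s2 (add (mul s2 (add (mul s2 (add (mul s2 (add (mul s2 (k (.ofNat (nat_lit 12686)))) (mul s3 (k (.ofNat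 (nat_lit 377650)))))) (mul (pow s3 2) (k (.negSucc (nat_lit 1612883)))))) (mul (pow s3 3) (k (.ofNat (nat_lit 1172184)))))) (mul (pow s3 4) (k (.ofNat (nat_lit 85490)))))) (mul (pow s3 5) (k (.negSucc (nat_lit 162855)))))))) (add (mul s1 (add (mul s1 (add (mul s1 (add (mul s1 (add (mul s1 (add (mul s1 (k (.ofNat (nat_lit 2232)))) (add (mul s2 (k (.negSucc (nat_lit 112807)))) (mul s3 (k (.ofNat (nat_lit 37368))))))) (add (mul s2 (add (mul s2 (k (.ofNat (nat_lit 345402)))) (mul s3 (k (.ofNat (nat_lit 392832)))))) (mul (pow s3 2) (k (.negSucc (nat_lit 218831))))))) (add (mul s2 (add (mul s2 (add (mul s2 (k (.negSucc (nat_lit 188215)))) (mul s3 (k (.ofNat (nat_lit 779604)))))) (mul (pow s3 2) (k (.negSucc (nat_lit 1718075)))))) (mul (pow s3 3) (k (.ofNat (nat_lit 145386))))))) (add (mul s2 (add (mul s2 (add (mul s2 (add (mul s2 (k (.ofNat (nat_lit 70040)))) (mul s3 (k (.negSucc (nat_lit 1394593)))))) (mul (pow s3 2) (k (.negSucc (nat_lit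 89533)))))) (mul (pow s3 3) (k (.ofNat (nat_lit 1730576)))))) (mul (pow s3 4) (k (.ofNat (nat_lit 102302))))))) (add (mul s2 (add (mul s2 (add (mul s2 (add (mul s2 (add (mul s2 (k (.ofNat (nat_lit 13380)))) (mul s3 (k (.negSucc (nat_lit 279931)))))) (mul (pow s3 2) (k (.ofNat (nat_lit 2210688)))))) (mul (pow s3 3) (k (.negSucc (nat_lit 1476847)))))) (mul (pow s3 4) (k (.negSucc (nat_lit 244513)))))) (mul (pow s3 5) (k (.negSucc (nat_lit 75581))))))) (add (mul s2 (add (mul s2 (add (mul s2 (add (mul s2 (add (mul s2 (add (mul s2 (k (.negSucc (nat_lit 6683)))) (mul s3 (k (.ofNat (nat_lit 19402)))))) (mul (pow s3 2) (k (.ofNat (nat_lit 81228)))))) (mul (pow s3 3) (k (.negSucc (nat_lit 240581)))))) (mul (pow s3 4) (k (.ofNat (nat_lit 166214)))))) (mul (pow s3 5) (k (.negSucc (nat_lit 28009)))))) (mul (pow s3 6) (k (.ofNat (nat_lit 10836))))))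
def kr1212 : PExp := add (mul s0 (add (mul s0 (add (mul s0 (add (mul s0 (add (mul s0 (add (mul s0 (k (.ofNat (nat_lit 27980)))) (add (mul s1 (k (.negSucc (nat_lit 80517)))) (add (mul s2 (k (.negSucc (nat_lit 101143)))) (mul s3 (k (.negSucc (nat_lit 80517)))))))) (add (mul s1 (add (mul s1 (k (.negSucc (nat_lit 37241)))) (add (mul s2 (k (.ofNat (nat_lit 162200)))) (mul s3 (k (.ofNat (nat_lit 659104))))))) (add (mul s2 (add (mul s2 (k (.negSucc (nat_lit 256599)))) (mul s3 (k (.ofNat (nat_lit 162200)))))) (mul (pow s3 2) (k (.negSucc (nat_lit 37241)))))))) (add (mul s1 (add (mul s1 (add (mul s1 (k (.negSucc (nat_lit 367665)))) (add (mul s2 (k (.ofNat (nat_lit 2200456)))) (mul s3 (k (.negSucc (nat_lit 156185))))))) (add (mul s2 (add (mul s2 (k (.negSucc (nat_lit 1001959)))) (mul s3 (k (.negSucc (nat_lit 3069375)))))) (mul (pow s3 2) (k (.negSucc (nat_lit 156185))))))) (add (mul s2 (add (mul s2 (add (mul s2 (k (.ofNat (nat_lit 1185888))))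 (mul s3 (k (.negSucc (nat_lit 1001959)))))) (mul (pow s3 2) (k (.ofNat (nat_lit 2200456)))))) (mul (pow s3 3) (k (.negSucc (nat_lit 367665)))))))) (add (mul s1 (add (mul s1 (add (mul s1 (add (mul s1 (k (.ofNat (nat_lit 281134)))) (add (mul s2 (k (.negSucc (nat_lit 1196751)))) (mul s3 (k (.negSucc (nat_lit 109261))))))) (add (mul s2 (add (mul s2 (k (.negSucc (nat_lit 426863)))) (mul s3 (k (.negSucc (nat_lit 235171)))))) (mul (pow s3 2) (k (.ofNat (nat_lit 794428))))))) (add (mul s2 (add (mul s2 (add (mul s2 (k (.negSucc (nat_lit 1001959)))) (mul s3 (k (.ofNat (nat_lit 5191280)))))) (mul (pow s3 2) (k (.negSucc (nat_lit 235171)))))) (mul (pow s3 3) (k (.negSucc (nat_lit 109261))))))) (add (mul s2 (add (mul s2 (add (mul s2 (add (mul s2 (k (.negSucc (nat_lit 256599)))) (mul s3 (k (.negSucc (nat_lit 1001959)))))) (mul (pow s3 2) (k (.negSucc (nat_lit 426863)))))) (mul (pow s3 3) (k (.negSucc (nat_lit 1196751)))))) (mul (pow s3 4) (k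 (.ofNat (nat_lit 281134)))))))) (add (mul s1 (add (mul s1 (add (mul s1 (add (mul s1 (add (mul s1 (k (.ofNat (nat_lit 40932)))) (add (mul s2 (k (.negSucc (nat_lit 38315)))) (mul s3 (k (.negSucc (nat_lit 458507))))))) (add (mul s2 (add (mul s2 (k (.negSucc (nat_lit 1196751)))) (mul s3 (k (.ofNat (nat_lit 3132240)))))) (mul (pow s3 2) (k (.ofNat (nat_lit 90034))))))) (add (mul s2 (add (mul s2 (add (mul s2 (k (.ofNat (nat_lit 2200456)))) (mul s3 (k (.negSucc (nat_lit 235171)))))) (mul (pow s3 2) (k (.negSucc (nat_lit 4491279)))))) (mul (pow s3 3) (k (.ofNat (nat_lit 90034))))))) (add (mul s2 (add (mul s2 (add (mul s2 (add (mul s2 (k (.ofNat (nat_lit 162200)))) (mul s3 (k (.negSucc (nat_lit 3069375)))))) (mul (pow s3 2) (k (.negSucc (nat_lit 235171)))))) (mul (pow s3 3) (k (.ofNat (nat_lit 3132240)))))) (mul (pow s3 4) (k (.negSucc (nat_lit 458507))))))) (add (mul s2 (add (mul s2 (add (mul s2 (add (mul s2 (add (mul s2 (k (.negSucc (nat_lit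 101143)))) (mul s3 (k (.ofNat (nat_lit 162200)))))) (mul (pow s3 2) (k (.ofNat (nat_lit 2200456)))))) (mul (pow s3 3) (k (.negSucc (nat_lit 1196751)))))) (mul (pow s3 4) (k (.negSucc (nat_lit 38315)))))) (mul (pow s3 5) (k (.ofNat (nat_lit 40932)))))))) (add (mul s1 (add (mul s1 (add (mul s1 (add (mul s1 (add (mul s1 (add (mul s1 (k (.negSucc (nat_lit 28991)))) (add (mul s2 (k (.ofNat (nat_lit 40932)))) (mul s3 (k (.ofNat (nat_lit 115408))))))) (add (mul s2 (add (mul s2 (k (.ofNat (nat_lit 281134)))) (mul s3 (k (.negSucc (nat_lit 458507)))))) (mul (pow s3 2) (k (.negSucc (nat_lit 74083))))))) (add (mul s2 (add (mul s2 (add (mul s2 (k (.negSucc (nat_lit 367665)))) (mul s3 (k (.negSucc (nat_lit 109261)))))) (mul (pow s3 2) (k (.ofNat (nat_lit 90034)))))) (mul (pow s3 3) (k (.ofNat (nat_lit 270184))))))) (add (mul s2 (add (mul s2 (add (mul s2 (add (mul s2 (k (.negSucc (nat_lit 37241)))) (mul s3 (k (.negSucc (nat_lit 156185)))))) (mul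 (pow s3 2) (k (.ofNat (nat_lit 794428)))))) (mul (pow s3 3) (k (.ofNat (nat_lit 90034)))))) (mul (pow s3 4) (k (.negSucc (nat_lit 74083))))))) (add (mul s2 (add (mul s2 (add (mul s2 (add (mul s2 (add (mul s2 (k (.negSucc (nat_lit 80517)))) (mul s3 (k (.ofNat (nat_lit 659104)))))) (mul (pow s3 2) (k (.negSucc (nat_lit 156185)))))) (mul (pow s3 3) (k (.negSucc (nat_lit 109261)))))) (mul (pow s3 4) (k (.negSucc (nat_lit 458507)))))) (mul (pow s3 5) (k (.ofNat (nat_lit 115408))))))) (add (mul s2 (add (mul s2 (add (mul s2 (add (mul s2 (add (mul s2 (add (mul s2 (k (.ofNat (nat_lit 27980)))) (mul s3 (k (.negSucc (nat_lit 80517)))))) (mul (pow s3 2) (k (.negSucc (nat_lit 37241)))))) (mul (pow s3 3) (k (.negSucc (nat_lit 367665)))))) (mul (pow s3 4) (k (.ofNat (nat_lit 281134)))))) (mul (pow s3 5) (k (.ofNat (nat_lit 40932)))))) (mul (pow s3 6) (k (.negSucc (nat_lit 28991))))))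
def kr1221 : PExp := add (mul s0 (add (mul s0 (add (mul s0 (add (mul s0 (add (mul s0 (add (mul s0 (k (.ofNat (nat_lit 27980)))) (add (mul s1 (k (.negSucc (nat_lit 80517)))) (add (mul s2 (k (.negSucc (nat_lit 80517)))) (mul s3 (k (.negSucc (nat_lit 101143)))))))) (add (mul s1 (add (mul s1 (k (.negSucc (nat_lit 37241)))) (add (mul s2 (k (.ofNat (nat_lit 659104)))) (mul s3 (k (.ofNat (nat_lit 162200))))))) (add (mul s2 (add (mul s2 (k (.negSucc (nat_lit 37241)))) (mul s3 (k (.ofNat (nat_lit 162200)))))) (mul (pow s3 2) (k (.negSucc (nat_lit 256599)))))))) (add (mul s1 (add (mul s1 (add (mul s1 (k (.negSucc (nat_lit 367665)))) (add (mul s2 (k (.negSucc (nat_lit 156185)))) (mul s3 (k (.ofNat (nat_lit 2200456))))))) (add (mul s2 (add (mul s2 (k (.negSucc (nat_lit 156185)))) (mul s3 (k (.negSucc (nat_lit 3069375)))))) (mul (pow s3 2) (k (.negSucc (nat_lit 1001959))))))) (add (mul s2 (add (mul s2 (add (mul s2 (k (.negSucc (nat_lit 367665))))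 (mul s3 (k (.ofNat (nat_lit 2200456)))))) (mul (pow s3 2) (k (.negSucc (nat_lit 1001959)))))) (mul (pow s3 3) (k (.ofNat (nat_lit 1185888)))))))) (add (mul s1 (add (mul s1 (add (mul s1 (add (mul s1 (k (.ofNat (nat_lit 281134)))) (add (mul s2 (k (.negSucc (nat_lit 109261)))) (mul s3 (k (.negSucc (nat_lit 1196751))))))) (add (mul s2 (add (mul s2 (k (.ofNat (nat_lit 794428)))) (mul s3 (k (.negSucc (nat_lit 235171)))))) (mul (pow s3 2) (k (.negSucc (nat_lit 426863))))))) (add (mul s2 (add (mul s2 (add (mul s2 (k (.negSucc (nat_lit 109261)))) (mul s3 (k (.negSucc (nat_lit 235171)))))) (mul (pow s3 2) (k (.ofNat (nat_lit 5191280)))))) (mul (pow s3 3) (k (.negSucc (nat_lit 1001959))))))) (add (mul s2 (add (mul s2 (add (mul s2 (add (mul s2 (k (.ofNat (nat_lit 281134)))) (mul s3 (k (.negSucc (nat_lit 1196751)))))) (mul (pow s3 2) (k (.negSucc (nat_lit 426863)))))) (mul (pow s3 3) (k (.negSucc (nat_lit 1001959)))))) (mul (pow s3 4) (k (.negSucc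 (nat_lit 256599)))))))) (add (mul s1 (add (mul s1 (add (mul s1 (add (mul s1 (add (mul s1 (k (.ofNat (nat_lit 40932)))) (add (mul s2 (k (.negSucc (nat_lit 458507)))) (mul s3 (k (.negSucc (nat_lit 38315))))))) (add (mul s2 (add (mul s2 (k (.ofNat (nat_lit 90034)))) (mul s3 (k (.ofNat (nat_lit 3132240)))))) (mul (pow s3 2) (k (.negSucc (nat_lit 1196751))))))) (add (mul s2 (add (mul s2 (add (mul s2 (k (.ofNat (nat_lit 90034)))) (mul s3 (k (.negSucc (nat_lit 4491279)))))) (mul (pow s3 2) (k (.negSucc (nat_lit 235171)))))) (mul (pow s3 3) (k (.ofNat (nat_lit 2200456))))))) (add (mul s2 (add (mul s2 (add (mul s2 (add (mul s2 (k (.negSucc (nat_lit 458507)))) (mul s3 (k (.ofNat (nat_lit 3132240)))))) (mul (pow s3 2) (k (.negSucc (nat_lit 235171)))))) (mul (pow s3 3) (k (.negSucc (nat_lit 3069375)))))) (mul (pow s3 4) (k (.ofNat (nat_lit 162200))))))) (add (mul s2 (add (mul s2 (add (mul s2 (add (mul s2 (add (mul s2 (k (.ofNat (nat_lit 40932))))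 (mul s3 (k (.negSucc (nat_lit 38315)))))) (mul (pow s3 2) (k (.negSucc (nat_lit 1196751)))))) (mul (pow s3 3) (k (.ofNat (nat_lit 2200456)))))) (mul (pow s3 4) (k (.ofNat (nat_lit 162200)))))) (mul (pow s3 5) (k (.negSucc (nat_lit 101143)))))))) (add (mul s1 (add (mul s1 (add (mul s1 (add (mul s1 (add (mul s1 (add (mul s1 (k (.negSucc (nat_lit 28991)))) (add (mul s2 (k (.ofNat (nat_lit 115408)))) (mul s3 (k (.ofNat (nat_lit 40932))))))) (add (mul s2 (add (mul s2 (k (.negSucc (nat_lit 74083)))) (mul s3 (k (.negSucc (nat_lit 458507)))))) (mul (pow s3 2) (k (.ofNat (nat_lit 281134))))))) (add (mul s2 (add (mul s2 (add (mul s2 (k (.ofNat (nat_lit 270184)))) (mul s3 (k (.ofNat (nat_lit 90034)))))) (mul (pow s3 2) (k (.negSucc (nat_lit 109261)))))) (mul (pow s3 3) (k (.negSucc (nat_lit 367665))))))) (add (mul s2 (add (mul s2 (add (mul s2 (add (mul s2 (k (.negSucc (nat_lit 74083)))) (mul s3 (k (.ofNat (nat_lit 90034)))))) (mul (pow s3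 2) (k (.ofNat (nat_lit 794428)))))) (mul (pow s3 3) (k (.negSucc (nat_lit 156185)))))) (mul (pow s3 4) (k (.negSucc (nat_lit 37241))))))) (add (mul s2 (add (mul s2 (add (mul s2 (add (mul s2 (add (mul s2 (k (.ofNat (nat_lit 115408)))) (mul s3 (k (.negSucc (nat_lit 458507)))))) (mul (pow s3 2) (k (.negSucc (nat_lit 109261)))))) (mul (pow s3 3) (k (.negSucc (nat_lit 156185)))))) (mul (pow s3 4) (k (.ofNat (nat_lit 659104)))))) (mul (pow s3 5) (k (.negSucc (nat_lit 80517))))))) (add (mul s2 (add (mul s2 (add (mul s2 (add (mul s2 (add (mul s2 (add (mul s2 (k (.negSucc (nat_lit 28991)))) (mul s3 (k (.ofNat (nat_lit 40932)))))) (mul (pow s3 2) (k (.ofNat (nat_lit 281134)))))) (mul (pow s3 3) (k (.negSucc (nat_lit 367665)))))) (mul (pow s3 4) (k (.negSucc (nat_lit 37241)))))) (mul (pow s3 5) (k (.negSucc (nat_lit 80517)))))) (mul (pow s3 6) (k (.ofNat (nat_lit 27980))))))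
def kr1230 : PExp := add (mul s0 (add (mul s0 (add (mul s0 (add (mul s0 (add (mul s0 (add (mul s0 (k (.negSucc (nat_lit 7007)))) (add (mul s1 (k (.negSucc (nat_lit 104501)))) (add (mul s2 (k (.ofNat (nat_lit 143646)))) (mul s3 (k (.ofNat (nat_lit 8716)))))))) (add (mul s1 (add (mul s1 (k (.ofNat (nat_lit 162340)))) (add (mul s2 (k (.ofNat (nat_lit 202882)))) (mul s3 (k (.ofNat (nat_lit 74158))))))) (add (mul s2 (add (mul s2 (k (.negSucc (nat_lit 580169)))) (mul s3 (k (.negSucc (nat_lit 363083)))))) (mul (pow s3 2) (k (.ofNat (nat_lit 244430)))))))) (add (mul s1 (add (mul s1 (add (mul s1 (k (.ofNat (nat_lit 147062)))) (add (mul s2 (k (.ofNat (nat_lit 80396)))) (mul s3 (k (.negSucc (nat_lit 1394593))))))) (add (mul s2 (add (mul s2 (k (.negSucc (nat_lit 20809)))) (mul s3 (k (.ofNat (nat_lit 708250)))))) (mul (pow s3 2) (k (.ofNat (nat_lit 239942))))))) (add (mul s2 (add (mul s2 (add (mul s2 (k (.ofNat (nat_lit 538020)))) (mul s3 (k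 (.ofNat (nat_lit 779604)))))) (mul (pow s3 2) (k (.negSucc (nat_lit 257311)))))) (mul (pow s3 3) (k (.negSucc (nat_lit 409991)))))))) (add (mul s1 (add (mul s1 (add (mul s1 (add (mul s1 (k (.negSucc (nat_lit 436791)))) (add (mul s2 (k (.negSucc (nat_lit 20809)))) (mul s3 (k (.ofNat (nat_lit 2210688))))))) (add (mul s2 (add (mul s2 (k (.ofNat (nat_lit 294672)))) (mul s3 (k (.negSucc (nat_lit 156185)))))) (mul (pow s3 2) (k (.negSucc (nat_lit 774799))))))) (add (mul s2 (add (mul s2 (add (mul s2 (k (.negSucc (nat_lit 800143)))) (mul s3 (k (.negSucc (nat_lit 109261)))))) (mul (pow s3 2) (k (.negSucc (nat_lit 1001959)))))) (mul (pow s3 3) (k (.ofNat (nat_lit 589078))))))) (add (mul s2 (add (mul s2 (add (mul s2 (add (mul s2 (k (.ofNat (nat_lit 179086)))) (mul s3 (k (.negSucc (nat_lit 1476847)))))) (mul (pow s3 2) (k (.ofNat (nat_lit 1088034)))))) (mul (pow s3 3) (k (.ofNat (nat_lit 239942)))))) (mul (pow s3 4) (k (.ofNat (nat_lit 84180))))))))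 (add (mul s1 (add (mul s1 (add (mul s1 (add (mul s1 (add (mul s1 (k (.ofNat (nat_lit 152170)))) (add (mul s2 (k (.negSucc (nat_lit 509659)))) (mul s3 (k (.negSucc (nat_lit 171619))))))) (add (mul s2 (add (mul s2 (k (.ofNat (nat_lit 2030976)))) (mul s3 (k (.negSucc (nat_lit 985891)))))) (mul (pow s3 2) (k (.negSucc (nat_lit 1612883))))))) (add (mul s2 (add (mul s2 (add (mul s2 (k (.negSucc (nat_lit 2165303)))) (mul s3 (k (.ofNat (nat_lit 90034)))))) (mul (pow s3 2) (k (.ofNat (nat_lit 2200456)))))) (mul (pow s3 3) (k (.ofNat (nat_lit 1381968))))))) (add (mul s2 (add (mul s2 (add (mul s2 (add (mul s2 (k (.ofNat (nat_lit 1004130)))) (mul s3 (k (.ofNat (nat_lit 590038)))))) (mul (pow s3 2) (k (.negSucc (nat_lit 1196751)))))) (mul (pow s3 3) (k (.negSucc (nat_lit 223871)))))) (mul (pow s3 4) (k (.negSucc (nat_lit 515387))))))) (add (mul s2 (add (mul s2 (add (mul s2 (add (mul s2 (add (mul s2 (k (.negSucc (nat_lit 162855)))) (mul s3 (k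 (.ofNat (nat_lit 85490)))))) (mul (pow s3 2) (k (.ofNat (nat_lit 1172184)))))) (mul (pow s3 3) (k (.negSucc (nat_lit 1612883)))))) (mul (pow s3 4) (k (.ofNat (nat_lit 377650)))))) (mul (pow s3 5) (k (.ofNat (nat_lit 12686)))))))) (add (mul s1 (add (mul s1 (add (mul s1 (add (mul s1 (add (mul s1 (add (mul s1 (k (.ofNat (nat_lit 2232)))) (add (mul s2 (k (.ofNat (nat_lit 37368)))) (mul s3 (k (.negSucc (nat_lit 112807))))))) (add (mul s2 (add (mul s2 (k (.negSucc (nat_lit 218831)))) (mul s3 (k (.ofNat (nat_lit 392832)))))) (mul (pow s3 2) (k (.ofNat (nat_lit 345402))))))) (add (mul s2 (add (mul s2 (add (mul s2 (k (.ofNat (nat_lit 145386)))) (mul s3 (k (.negSucc (nat_lit 1718075)))))) (mul (pow s3 2) (k (.ofNat (nat_lit 779604)))))) (mul (pow s3 3) (k (.negSucc (nat_lit 188215))))))) (add (mul s2 (add (mul s2 (add (mul s2 (add (mul s2 (k (.ofNat (nat_lit 102302)))) (mul s3 (k (.ofNat (nat_lit 1730576)))))) (mul (pow s3 2) (k (.negSucc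 (nat_lit 89533)))))) (mul (pow s3 3) (k (.negSucc (nat_lit 1394593)))))) (mul (pow s3 4) (k (.ofNat (nat_lit 70040))))))) (add (mul s2 (add (mul s2 (add (mul s2 (add (mul s2 (add (mul s2 (k (.negSucc (nat_lit 75581)))) (mul s3 (k (.negSucc (nat_lit 244513)))))) (mul (pow s3 2) (k (.negSucc (nat_lit 1476847)))))) (mul (pow s3 3) (k (.ofNat (nat_lit 2210688)))))) (mul (pow s3 4) (k (.negSucc (nat_lit 279931)))))) (mul (pow s3 5) (k (.ofNat (nat_lit 13380))))))) (add (mul s2 (add (mul s2 (add (mul s2 (add (mul s2 (add (mul s2 (add (mul s2 (k (.ofNat (nat_lit 10836)))) (mul s3 (k (.negSucc (nat_lit 28009)))))) (mul (pow s3 2) (k (.ofNat (nat_lit 166214)))))) (mul (pow s3 3) (k (.negSucc (nat_lit 240581)))))) (mul (pow s3 4) (k (.ofNat (nat_lit 81228)))))) (mul (pow s3 5) (k (.ofNat (nat_lit 19402)))))) (mul (pow s3 6) (k (.negSucc (nat_lit 6683))))))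
def kr1302 : PExp := add (mul s0 (add (mul s0 (add (mul s0 (add (mul s0 (add (mul s0 (add (mul s0 (k (.negSucc (nat_lit 7007)))) (add (mul s1 (k (.ofNat (nat_lit 143646)))) (add (mul s2 (k (.ofNat (nat_lit 8716)))) (mul s3 (k (.negSucc (nat_lit 104501)))))))) (add (mul s1 (add (mul s1 (k (.negSucc (nat_lit 580169)))) (add (mul s2 (k (.negSucc (nat_lit 363083)))) (mul s3 (k (.ofNat (nat_lit 202882))))))) (add (mul s2 (add (mul s2 (k (.ofNat (nat_lit 244430)))) (mul s3 (k (.ofNat (nat_lit 74158)))))) (mul (pow s3 2) (k (.ofNat (nat_lit 162340)))))))) (add (mul s1 (add (mul s1 (add (mul s1 (k (.ofNat (nat_lit 538020)))) (add (mul s2 (k (.ofNat (nat_lit 779604)))) (mul s3 (k (.negSucc (nat_lit 20809))))))) (add (mul s2 (add (mul s2 (k (.negSucc (nat_lit 257311)))) (mul s3 (k (.ofNat (nat_lit 708250)))))) (mul (pow s3 2) (k (.ofNat (nat_lit 80396))))))) (add (mul s2 (add (mul s2 (add (mul s2 (k (.negSucc (nat_lit 409991)))) (mul s3 (k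 (.ofNat (nat_lit 239942)))))) (mul (pow s3 2) (k (.negSucc (nat_lit 1394593)))))) (mul (pow s3 3) (k (.ofNat (nat_lit 147062)))))))) (add (mul s1 (add (mul s1 (add (mul s1 (add (mul s1 (k (.ofNat (nat_lit 179086)))) (add (mul s2 (k (.negSucc (nat_lit 1476847)))) (mul s3 (k (.negSucc (nat_lit 800143))))))) (add (mul s2 (add (mul s2 (k (.ofNat (nat_lit 1088034)))) (mul s3 (k (.negSucc (nat_lit 109261)))))) (mul (pow s3 2) (k (.ofNat (nat_lit 294672))))))) (add (mul s2 (add (mul s2 (add (mul s2 (k (.ofNat (nat_lit 239942)))) (mul s3 (k (.negSucc (nat_lit 1001959)))))) (mul (pow s3 2) (k (.negSucc (nat_lit 156185)))))) (mul (pow s3 3) (k (.negSucc (nat_lit 20809))))))) (add (mul s2 (add (mul s2 (add (mul s2 (add (mul s2 (k (.ofNat (nat_lit 84180)))) (mul s3 (k (.ofNat (nat_lit 589078)))))) (mul (pow s3 2) (k (.negSucc (nat_lit 774799)))))) (mul (pow s3 3) (k (.ofNat (nat_lit 2210688)))))) (mul (pow s3 4) (k (.negSucc (nat_lit 436791))))))))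 (add (mul s1 (add (mul s1 (add (mul s1 (add (mul s1 (add (mul s1 (k (.negSucc (nat_lit 162855)))) (add (mul s2 (k (.ofNat (nat_lit 85490)))) (mul s3 (k (.ofNat (nat_lit 1004130))))))) (add (mul s2 (add (mul s2 (k (.ofNat (nat_lit 1172184)))) (mul s3 (k (.ofNat (nat_lit 590038)))))) (mul (pow s3 2) (k (.negSucc (nat_lit 2165303))))))) (add (mul s2 (add (mul s2 (add (mul s2 (k (.negSucc (nat_lit 1612883)))) (mul s3 (k (.negSucc (nat_lit 1196751)))))) (mul (pow s3 2) (k (.ofNat (nat_lit 90034)))))) (mul (pow s3 3) (k (.ofNat (nat_lit 2030976))))))) (add (mul s2 (add (mul s2 (add (mul s2 (add (mul s2 (k (.ofNat (nat_lit 377650)))) (mul s3 (k (.negSucc (nat_lit 223871)))))) (mul (pow s3 2) (k (.ofNat (nat_lit 2200456)))))) (mul (pow s3 3) (k (.negSucc (nat_lit 985891)))))) (mul (pow s3 4) (k (.negSucc (nat_lit 509659))))))) (add (mul s2 (add (mul s2 (add (mul s2 (add (mul s2 (add (mul s2 (k (.ofNat (nat_lit 12686)))) (mul s3 (k (.negSucc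 (nat_lit 515387)))))) (mul (pow s3 2) (k (.ofNat (nat_lit 1381968)))))) (mul (pow s3 3) (k (.negSucc (nat_lit 1612883)))))) (mul (pow s3 4) (k (.negSucc (nat_lit 171619)))))) (mul (pow s3 5) (k (.ofNat (nat_lit 152170)))))))) (add (mul s1 (add (mul s1 (add (mul s1 (add (mul s1 (add (mul s1 (add (mul s1 (k (.ofNat (nat_lit 10836)))) (add (mul s2 (k (.negSucc (nat_lit 28009)))) (mul s3 (k (.negSucc (nat_lit 75581))))))) (add (mul s2 (add (mul s2 (k (.ofNat (nat_lit 166214)))) (mul s3 (k (.negSucc (nat_lit 244513)))))) (mul (pow s3 2) (k (.ofNat (nat_lit 102302))))))) (add (mul s2 (add (mul s2 (add (mul s2 (k (.negSucc (nat_lit 240581)))) (mul s3 (k (.negSucc (nat_lit 1476847)))))) (mul (pow s3 2) (k (.ofNat (nat_lit 1730576)))))) (mul (pow s3 3) (k (.ofNat (nat_lit 145386))))))) (add (mul s2 (add (mul s2 (add (mul s2 (add (mul s2 (k (.ofNat (nat_lit 81228)))) (mul s3 (k (.ofNat (nat_lit 2210688)))))) (mul (pow s3 2) (k (.negSucc (nat_lit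 89533)))))) (mul (pow s3 3) (k (.negSucc (nat_lit 1718075)))))) (mul (pow s3 4) (k (.negSucc (nat_lit 218831))))))) (add (mul s2 (add (mul s2 (add (mul s2 (add (mul s2 (add (mul s2 (k (.ofNat (nat_lit 19402)))) (mul s3 (k (.negSucc (nat_lit 279931)))))) (mul (pow s3 2) (k (.negSucc (nat_lit 1394593)))))) (mul (pow s3 3) (k (.ofNat (nat_lit 779604)))))) (mul (pow s3 4) (k (.ofNat (nat_lit 392832)))))) (mul (pow s3 5) (k (.ofNat (nat_lit 37368))))))) (add (mul s2 (add (mul s2 (add (mul s2 (add (mul s2 (add (mul s2 (add (mul s2 (k (.negSucc (nat_lit 6683)))) (mul s3 (k (.ofNat (nat_lit 13380)))))) (mul (pow s3 2) (k (.ofNat (nat_lit 70040)))))) (mul (pow s3 3) (k (.negSucc (nat_lit 188215)))))) (mul (pow s3 4) (k (.ofNat (nat_lit 345402)))))) (mul (pow s3 5) (k (.negSucc (nat_lit 112807)))))) (mul (pow s3 6) (k (.ofNat (nat_lit 2232))))))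
def kr1311 : PExp := add (mul s0 (add (mul s0 (add (mul s0 (add (mul s0 (add (mul s0 (add (mul s0 (k (.negSucc (nat_lit 595)))) (add (mul s1 (k (.negSucc (nat_lit 24103)))) (add (mul s2 (k (.ofNat (nat_lit 15314)))) (mul s3 (k (.ofNat (nat_lit 15314)))))))) (add (mul s1 (add (mul s1 (k (.ofNat (nat_lit 40676)))) (add (mul s2 (k (.negSucc (nat_lit 180055)))) (mul s3 (k (.negSucc (nat_lit 180055))))))) (add (mul s2 (add (mul s2 (k (.ofNat (nat_lit 131604)))) (mul s3 (k (.ofNat (nat_lit 436)))))) (mul (pow s3 2) (k (.ofNat (nat_lit 131604)))))))) (add (mul s1 (add (mul s1 (add (mul s1 (k (.ofNat (nat_lit 371904)))) (add (mul s2 (k (.negSucc (nat_lit 985891)))) (mul s3 (k (.negSucc (nat_lit 985891))))))) (add (mul s2 (add (mul s2 (k (.ofNat (nat_lit 708250)))) (mul s3 (k (.ofNat (nat_lit 1566784)))))) (mul (pow s3 2) (k (.ofNat (nat_lit 708250))))))) (add (mul s2 (add (mul s2 (add (mul s2 (k (.negSucc (nat_lit 368679)))) (mul s3 (k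 (.negSucc (nat_lit 223871)))))) (mul (pow s3 2) (k (.negSucc (nat_lit 223871)))))) (mul (pow s3 3) (k (.negSucc (nat_lit 368679)))))))) (add (mul s1 (add (mul s1 (add (mul s1 (add (mul s1 (k (.negSucc (nat_lit 405655)))) (add (mul s2 (k (.ofNat (nat_lit 590038)))) (mul s3 (k (.ofNat (nat_lit 590038))))))) (add (mul s2 (add (mul s2 (k (.negSucc (nat_lit 846223)))) (mul s3 (k (.ofNat (nat_lit 3132240)))))) (mul (pow s3 2) (k (.negSucc (nat_lit 846223))))))) (add (mul s2 (add (mul s2 (add (mul s2 (k (.ofNat (nat_lit 708250)))) (mul s3 (k (.negSucc (nat_lit 3069375)))))) (mul (pow s3 2) (k (.negSucc (nat_lit 3069375)))))) (mul (pow s3 3) (k (.ofNat (nat_lit 708250))))))) (add (mul s2 (add (mul s2 (add (mul s2 (add (mul s2 (k (.ofNat (nat_lit 131604)))) (mul s3 (k (.negSucc (nat_lit 223871)))))) (mul (pow s3 2) (k (.ofNat (nat_lit 1919244)))))) (mul (pow s3 3) (k (.negSucc (nat_lit 223871)))))) (mul (pow s3 4) (k (.ofNat (nat_lit 131604))))))))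 (add (mul s1 (add (mul s1 (add (mul s1 (add (mul s1 (add (mul s1 (k (.ofNat (nat_lit 24872)))) (add (mul s2 (k (.ofNat (nat_lit 349768)))) (mul s3 (k (.ofNat (nat_lit 349768))))))) (add (mul s2 (add (mul s2 (k (.ofNat (nat_lit 590038)))) (mul s3 (k (.negSucc (nat_lit 4805687)))))) (mul (pow s3 2) (k (.ofNat (nat_lit 590038))))))) (add (mul s2 (add (mul s2 (add (mul s2 (k (.negSucc (nat_lit 985891)))) (mul s3 (k (.ofNat (nat_lit 3132240)))))) (mul (pow s3 2) (k (.ofNat (nat_lit 3132240)))))) (mul (pow s3 3) (k (.negSucc (nat_lit 985891))))))) (add (mul s2 (add (mul s2 (add (mul s2 (add (mul s2 (k (.negSucc (nat_lit 180055)))) (mul s3 (k (.ofNat (nat_lit 1566784)))))) (mul (pow s3 2) (k (.negSucc (nat_lit 3069375)))))) (mul (pow s3 3) (k (.ofNat (nat_lit 1566784)))))) (mul (pow s3 4) (k (.negSucc (nat_lit 180055))))))) (add (mul s2 (add (mul s2 (add (mul s2 (add (mul s2 (add (mul s2 (k (.ofNat (nat_lit 15314)))) (mul s3 (k (.ofNat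 (nat_lit 436)))))) (mul (pow s3 2) (k (.negSucc (nat_lit 223871)))))) (mul (pow s3 3) (k (.negSucc (nat_lit 223871)))))) (mul (pow s3 4) (k (.ofNat (nat_lit 436)))))) (mul (pow s3 5) (k (.ofNat (nat_lit 15314)))))))) (add (mul s1 (add (mul s1 (add (mul s1 (add (mul s1 (add (mul s1 (add (mul s1 (k (.ofNat (nat_lit 4716)))) (add (mul s2 (k (.ofNat (nat_lit 24872)))) (mul s3 (k (.ofNat (nat_lit 24872))))))) (add (mul s2 (add (mul s2 (k (.negSucc (nat_lit 405655)))) (mul s3 (k (.ofNat (nat_lit 349768)))))) (mul (pow s3 2) (k (.negSucc (nat_lit 405655))))))) (add (mul s2 (add (mul s2 (add (mul s2 (k (.ofNat (nat_lit 371904)))) (mul s3 (k (.ofNat (nat_lit 590038)))))) (mul (pow s3 2) (k (.ofNat (nat_lit 590038)))))) (mul (pow s3 3) (k (.ofNat (nat_lit 371904))))))) (add (mul s2 (add (mul s2 (add (mul s2 (add (mul s2 (k (.ofNat (nat_lit 40676)))) (mul s3 (k (.negSucc (nat_lit 985891)))))) (mul (pow s3 2) (k (.negSucc (nat_lit 846223))))))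 (mul (pow s3 3) (k (.negSucc (nat_lit 985891)))))) (mul (pow s3 4) (k (.ofNat (nat_lit 40676))))))) (add (mul s2 (add (mul s2 (add (mul s2 (add (mul s2 (add (mul s2 (k (.negSucc (nat_lit 24103)))) (mul s3 (k (.negSucc (nat_lit 180055)))))) (mul (pow s3 2) (k (.ofNat (nat_lit 708250)))))) (mul (pow s3 3) (k (.ofNat (nat_lit 708250)))))) (mul (pow s3 4) (k (.negSucc (nat_lit 180055)))))) (mul (pow s3 5) (k (.negSucc (nat_lit 24103))))))) (add (mul s2 (add (mul s2 (add (mul s2 (add (mul s2 (add (mul s2 (add (mul s2 (k (.negSucc (nat_lit 595)))) (mul s3 (k (.ofNat (nat_lit 15314)))))) (mul (pow s3 2) (k (.ofNat (nat_lit 131604)))))) (mul (pow s3 3) (k (.negSucc (nat_lit 368679)))))) (mul (pow s3 4) (k (.ofNat (nat_lit 131604)))))) (mul (pow s3 5) (k (.ofNat (nat_lit 15314)))))) (mul (pow s3 6) (k (.negSucc (nat_lit 595))))))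
def kr1320 : PExp := add (mul s0 (add (mul s0 (add (mul s0 (add (mul s0 (add (mul s0 (add (mul s0 (k (.negSucc (nat_lit 7007)))) (add (mul s1 (k (.ofNat (nat_lit 143646)))) (add (mul s2 (k (.negSucc (nat_lit 104501)))) (mul s3 (k (.ofNat (nat_lit 8716)))))))) (add (mul s1 (add (mul s1 (k (.negSucc (nat_lit 580169)))) (add (mul s2 (k (.ofNat (nat_lit 202882)))) (mul s3 (k (.negSucc (nat_lit 363083))))))) (add (mul s2 (add (mul s2 (k (.ofNat (nat_lit 162340)))) (mul s3 (k (.ofNat (nat_lit 74158)))))) (mul (pow s3 2) (k (.ofNat (nat_lit 244430)))))))) (add (mul s1 (add (mul s1 (add (mul s1 (k (.ofNat (nat_lit 538020)))) (add (mul s2 (k (.negSucc (nat_lit 20809)))) (mul s3 (k (.ofNat (nat_lit 779604))))))) (add (mul s2 (add (mul s2 (k (.ofNat (nat_lit 80396)))) (mul s3 (k (.ofNat (nat_lit 708250)))))) (mul (pow s3 2) (k (.negSucc (nat_lit 257311))))))) (add (mul s2 (add (mul s2 (add (mul s2 (k (.ofNat (nat_lit 147062)))) (mul s3 (k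 (.negSucc (nat_lit 1394593)))))) (mul (pow s3 2) (k (.ofNat (nat_lit 239942)))))) (mul (pow s3 3) (k (.negSucc (nat_lit 409991)))))))) (add (mul s1 (add (mul s1 (add (mul s1 (add (mul s1 (k (.ofNat (nat_lit 179086)))) (add (mul s2 (k (.negSucc (nat_lit 800143)))) (mul s3 (k (.negSucc (nat_lit 1476847))))))) (add (mul s2 (add (mul s2 (k (.ofNat (nat_lit 294672)))) (mul s3 (k (.negSucc (nat_lit 109261)))))) (mul (pow s3 2) (k (.ofNat (nat_lit 1088034))))))) (add (mul s2 (add (mul s2 (add (mul s2 (k (.negSucc (nat_lit 20809)))) (mul s3 (k (.negSucc (nat_lit 156185)))))) (mul (pow s3 2) (k (.negSucc (nat_lit 1001959)))))) (mul (pow s3 3) (k (.ofNat (nat_lit 239942))))))) (add (mul s2 (add (mul s2 (add (mul s2 (add (mul s2 (k (.negSucc (nat_lit 436791)))) (mul s3 (k (.ofNat (nat_lit 2210688)))))) (mul (pow s3 2) (k (.negSucc (nat_lit 774799)))))) (mul (pow s3 3) (k (.ofNat (nat_lit 589078)))))) (mul (pow s3 4) (k (.ofNat (nat_lit 84180))))))))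 (add (mul s1 (add (mul s1 (add (mul s1 (add (mul s1 (add (mul s1 (k (.negSucc (nat_lit 162855)))) (add (mul s2 (k (.ofNat (nat_lit 1004130)))) (mul s3 (k (.ofNat (nat_lit 85490))))))) (add (mul s2 (add (mul s2 (k (.negSucc (nat_lit 2165303)))) (mul s3 (k (.ofNat (nat_lit 590038)))))) (mul (pow s3 2) (k (.ofNat (nat_lit 1172184))))))) (add (mul s2 (add (mul s2 (add (mul s2 (k (.ofNat (nat_lit 2030976)))) (mul s3 (k (.ofNat (nat_lit 90034)))))) (mul (pow s3 2) (k (.negSucc (nat_lit 1196751)))))) (mul (pow s3 3) (k (.negSucc (nat_lit 1612883))))))) (add (mul s2 (add (mul s2 (add (mul s2 (add (mul s2 (k (.negSucc (nat_lit 509659)))) (mul s3 (k (.negSucc (nat_lit 985891)))))) (mul (pow s3 2) (k (.ofNat (nat_lit 2200456)))))) (mul (pow s3 3) (k (.negSucc (nat_lit 223871)))))) (mul (pow s3 4) (k (.ofNat (nat_lit 377650))))))) (add (mul s2 (add (mul s2 (add (mul s2 (add (mul s2 (add (mul s2 (k (.ofNat (nat_lit 152170)))) (mul s3 (k (.negSucc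 (nat_lit 171619)))))) (mul (pow s3 2) (k (.negSucc (nat_lit 1612883)))))) (mul (pow s3 3) (k (.ofNat (nat_lit 1381968)))))) (mul (pow s3 4) (k (.negSucc (nat_lit 515387)))))) (mul (pow s3 5) (k (.ofNat (nat_lit 12686)))))))) (add (mul s1 (add (mul s1 (add (mul s1 (add (mul s1 (add (mul s1 (add (mul s1 (k (.ofNat (nat_lit 10836)))) (add (mul s2 (k (.negSucc (nat_lit 75581)))) (mul s3 (k (.negSucc (nat_lit 28009))))))) (add (mul s2 (add (mul s2 (k (.ofNat (nat_lit 102302)))) (mul s3 (k (.negSucc (nat_lit 244513)))))) (mul (pow s3 2) (k (.ofNat (nat_lit 166214))))))) (add (mul s2 (add (mul s2 (add (mul s2 (k (.ofNat (nat_lit 145386)))) (mul s3 (k (.ofNat (nat_lit 1730576)))))) (mul (pow s3 2) (k (.negSucc (nat_lit 1476847)))))) (mul (pow s3 3) (k (.negSucc (nat_lit 240581))))))) (add (mul s2 (add (mul s2 (add (mul s2 (add (mul s2 (k (.negSucc (nat_lit 218831)))) (mul s3 (k (.negSucc (nat_lit 1718075)))))) (mul (pow s3 2) (k (.negSucc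 (nat_lit 89533)))))) (mul (pow s3 3) (k (.ofNat (nat_lit 2210688)))))) (mul (pow s3 4) (k (.ofNat (nat_lit 81228))))))) (add (mul s2 (add (mul s2 (add (mul s2 (add (mul s2 (add (mul s2 (k (.ofNat (nat_lit 37368)))) (mul s3 (k (.ofNat (nat_lit 392832)))))) (mul (pow s3 2) (k (.ofNat (nat_lit 779604)))))) (mul (pow s3 3) (k (.negSucc (nat_lit 1394593)))))) (mul (pow s3 4) (k (.negSucc (nat_lit 279931)))))) (mul (pow s3 5) (k (.ofNat (nat_lit 19402))))))) (add (mul s2 (add (mul s2 (add (mul s2 (add (mul s2 (add (mul s2 (add (mul s2 (k (.ofNat (nat_lit 2232)))) (mul s3 (k (.negSucc (nat_lit 112807)))))) (mul (pow s3 2) (k (.ofNat (nat_lit 345402)))))) (mul (pow s3 3) (k (.negSucc (nat_lit 188215)))))) (mul (pow s3 4) (k (.ofNat (nat_lit 70040)))))) (mul (pow s3 5) (k (.ofNat (nat_lit 13380)))))) (mul (pow s3 6) (k (.negSucc (nat_lit 6683))))))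
def kr1401 : PExp := add (mul s0 (add (mul s0 (add (mul s0 (add (mul s0 (add (mul s0 (add (mul s0 (k (.ofNat (nat_lit 924)))) (add (mul s1 (k (.negSucc (nat_lit 60119)))) (add (mul s2 (k (.ofNat (nat_lit 38288)))) (mul s3 (k (.negSucc (nat_lit 14673)))))))) (add (mul s1 (add (mul s1 (k (.ofNat (nat_lit 236966)))) (add (mul s2 (k (.ofNat (nat_lit 41104)))) (mul s3 (k (.ofNat (nat_lit 101284))))))) (add (mul s2 (add (mul s2 (k (.negSucc (nat_lit 235585)))) (mul s3 (k (.ofNat (nat_lit 79606)))))) (mul (pow s3 2) (k (.ofNat (nat_lit 38808)))))))) (add (mul s1 (add (mul s1 (add (mul s1 (k (.negSucc (nat_lit 282561)))) (add (mul s2 (k (.ofNat (nat_lit 392832)))) (mul s3 (k (.negSucc (nat_lit 509659))))))) (add (mul s2 (add (mul s2 (k (.negSucc (nat_lit 363083)))) (mul s3 (k (.negSucc (nat_lit 180055)))))) (mul (pow s3 2) (k (.ofNat (nat_lit 202882))))))) (add (mul s2 (add (mul s2 (add (mul s2 (k (.ofNat (nat_lit 279272)))) (mul s3 (k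 (.ofNat (nat_lit 377650)))))) (mul (pow s3 2) (k (.negSucc (nat_lit 279931)))))) (mul (pow s3 3) (k (.negSucc (nat_lit 72735)))))))) (add (mul s1 (add (mul s1 (add (mul s1 (add (mul s1 (k (.ofNat (nat_lit 4436)))) (add (mul s2 (k (.negSucc (nat_lit 244513)))) (mul s3 (k (.ofNat (nat_lit 1004130))))))) (add (mul s2 (add (mul s2 (k (.ofNat (nat_lit 207398)))) (mul s3 (k (.negSucc (nat_lit 458507)))))) (mul (pow s3 2) (k (.negSucc (nat_lit 789247))))))) (add (mul s2 (add (mul s2 (add (mul s2 (k (.ofNat (nat_lit 74158)))) (mul s3 (k (.ofNat (nat_lit 162200)))))) (mul (pow s3 2) (k (.ofNat (nat_lit 659104)))))) (mul (pow s3 3) (k (.ofNat (nat_lit 202882))))))) (add (mul s2 (add (mul s2 (add (mul s2 (add (mul s2 (k (.negSucc (nat_lit 63247)))) (mul s3 (k (.negSucc (nat_lit 515387)))))) (mul (pow s3 2) (k (.ofNat (nat_lit 308164)))))) (mul (pow s3 3) (k (.negSucc (nat_lit 279931)))))) (mul (pow s3 4) (k (.ofNat (nat_lit 38808)))))))) (add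 (mul s1 (add (mul s1 (add (mul s1 (add (mul s1 (add (mul s1 (k (.ofNat (nat_lit 37660)))) (add (mul s2 (k (.negSucc (nat_lit 12207)))) (mul s3 (k (.negSucc (nat_lit 631871))))))) (add (mul s2 (add (mul s2 (k (.ofNat (nat_lit 85490)))) (mul s3 (k (.ofNat (nat_lit 349768)))))) (mul (pow s3 2) (k (.ofNat (nat_lit 1004130))))))) (add (mul s2 (add (mul s2 (add (mul s2 (k (.negSucc (nat_lit 171619)))) (mul s3 (k (.negSucc (nat_lit 38315)))))) (mul (pow s3 2) (k (.negSucc (nat_lit 458507)))))) (mul (pow s3 3) (k (.negSucc (nat_lit 509659))))))) (add (mul s2 (add (mul s2 (add (mul s2 (add (mul s2 (k (.ofNat (nat_lit 79606)))) (mul s3 (k (.ofNat (nat_lit 436)))))) (mul (pow s3 2) (k (.ofNat (nat_lit 162200)))))) (mul (pow s3 3) (k (.negSucc (nat_lit 180055)))))) (mul (pow s3 4) (k (.ofNat (nat_lit 101284))))))) (add (mul s2 (add (mul s2 (add (mul s2 (add (mul s2 (add (mul s2 (k (.negSucc (nat_lit 11759)))) (mul s3 (k (.ofNat (nat_lit 229388))))))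 (mul (pow s3 2) (k (.negSucc (nat_lit 515387)))))) (mul (pow s3 3) (k (.ofNat (nat_lit 377650)))))) (mul (pow s3 4) (k (.ofNat (nat_lit 79606)))))) (mul (pow s3 5) (k (.negSucc (nat_lit 14673)))))))) (add (mul s1 (add (mul s1 (add (mul s1 (add (mul s1 (add (mul s1 (add (mul s1 (k (.negSucc (nat_lit 1267)))) (add (mul s2 (k (.ofNat (nat_lit 37872)))) (mul s3 (k (.ofNat (nat_lit 37660))))))) (add (mul s2 (add (mul s2 (k (.negSucc (nat_lit 124143)))) (mul s3 (k (.negSucc (nat_lit 12207)))))) (mul (pow s3 2) (k (.ofNat (nat_lit 4436))))))) (add (mul s2 (add (mul s2 (add (mul s2 (k (.ofNat (nat_lit 150436)))) (mul s3 (k (.ofNat (nat_lit 85490)))))) (mul (pow s3 2) (k (.negSucc (nat_lit 244513)))))) (mul (pow s3 3) (k (.negSucc (nat_lit 282561))))))) (add (mul s2 (add (mul s2 (add (mul s2 (add (mul s2 (k (.negSucc (nat_lit 90007)))) (mul s3 (k (.negSucc (nat_lit 171619)))))) (mul (pow s3 2) (k (.ofNat (nat_lit 207398)))))) (mul (pow s3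 3) (k (.ofNat (nat_lit 392832)))))) (mul (pow s3 4) (k (.ofNat (nat_lit 236966))))))) (add (mul s2 (add (mul s2 (add (mul s2 (add (mul s2 (add (mul s2 (k (.negSucc (nat_lit 3163)))) (mul s3 (k (.ofNat (nat_lit 79606)))))) (mul (pow s3 2) (k (.ofNat (nat_lit 74158)))))) (mul (pow s3 3) (k (.negSucc (nat_lit 363083)))))) (mul (pow s3 4) (k (.ofNat (nat_lit 41104)))))) (mul (pow s3 5) (k (.negSucc (nat_lit 60119))))))) (add (mul s2 (add (mul s2 (add (mul s2 (add (mul s2 (add (mul s2 (add (mul s2 (k (.ofNat (nat_lit 6840)))) (mul s3 (k (.negSucc (nat_lit 11759)))))) (mul (pow s3 2) (k (.negSucc (nat_lit 63247)))))) (mul (pow s3 3) (k (.ofNat (nat_lit 279272)))))) (mul (pow s3 4) (k (.negSucc (nat_lit 235585)))))) (mul (pow s3 5) (k (.ofNat (nat_lit 38288)))))) (mul (pow s3 6) (k (.ofNat (nat_lit 924))))))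
def kr1410 : PExp := add (mul s0 (add (mul s0 (add (mul s0 (add (mul s0 (add (mul s0 (add (mul s0 (k (.ofNat (nat_lit 924)))) (add (mul s1 (k (.negSucc (nat_lit 60119)))) (add (mul s2 (k (.negSucc (nat_lit 14673)))) (mul s3 (k (.ofNat (nat_lit 38288)))))))) (add (mul s1 (add (mul s1 (k (.ofNat (nat_lit 236966)))) (add (mul s2 (k (.ofNat (nat_lit 101284)))) (mul s3 (k (.ofNat (nat_lit 41104))))))) (add (mul s2 (add (mul s2 (k (.ofNat (nat_lit 38808)))) (mul s3 (k (.ofNat (nat_lit 79606)))))) (mul (pow s3 2) (k (.negSucc (nat_lit 235585)))))))) (add (mul s1 (add (mul s1 (add (mul s1 (k (.negSucc (nat_lit 282561)))) (add (mul s2 (k (.negSucc (nat_lit 509659)))) (mul s3 (k (.ofNat (nat_lit 392832))))))) (add (mul s2 (add (mul s2 (k (.ofNat (nat_lit 202882)))) (mul s3 (k (.negSucc (nat_lit 180055)))))) (mul (pow s3 2) (k (.negSucc (nat_lit 363083))))))) (add (mul s2 (add (mul s2 (add (mul s2 (k (.negSucc (nat_lit 72735)))) (mul s3 (k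 (.negSucc (nat_lit 279931)))))) (mul (pow s3 2) (k (.ofNat (nat_lit 377650)))))) (mul (pow s3 3) (k (.ofNat (nat_lit 279272)))))))) (add (mul s1 (add (mul s1 (add (mul s1 (add (mul s1 (k (.ofNat (nat_lit 4436)))) (add (mul s2 (k (.ofNat (nat_lit 1004130)))) (mul s3 (k (.negSucc (nat_lit 244513))))))) (add (mul s2 (add (mul s2 (k (.negSucc (nat_lit 789247)))) (mul s3 (k (.negSucc (nat_lit 458507)))))) (mul (pow s3 2) (k (.ofNat (nat_lit 207398))))))) (add (mul s2 (add (mul s2 (add (mul s2 (k (.ofNat (nat_lit 202882)))) (mul s3 (k (.ofNat (nat_lit 659104)))))) (mul (pow s3 2) (k (.ofNat (nat_lit 162200)))))) (mul (pow s3 3) (k (.ofNat (nat_lit 74158))))))) (add (mul s2 (add (mul s2 (add (mul s2 (add (mul s2 (k (.ofNat (nat_lit 38808)))) (mul s3 (k (.negSucc (nat_lit 279931)))))) (mul (pow s3 2) (k (.ofNat (nat_lit 308164)))))) (mul (pow s3 3) (k (.negSucc (nat_lit 515387)))))) (mul (pow s3 4) (k (.negSucc (nat_lit 63247)))))))) (add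 (mul s1 (add (mul s1 (add (mul s1 (add (mul s1 (add (mul s1 (k (.ofNat (nat_lit 37660)))) (add (mul s2 (k (.negSucc (nat_lit 631871)))) (mul s3 (k (.negSucc (nat_lit 12207))))))) (add (mul s2 (add (mul s2 (k (.ofNat (nat_lit 1004130)))) (mul s3 (k (.ofNat (nat_lit 349768)))))) (mul (pow s3 2) (k (.ofNat (nat_lit 85490))))))) (add (mul s2 (add (mul s2 (add (mul s2 (k (.negSucc (nat_lit 509659)))) (mul s3 (k (.negSucc (nat_lit 458507)))))) (mul (pow s3 2) (k (.negSucc (nat_lit 38315)))))) (mul (pow s3 3) (k (.negSucc (nat_lit 171619))))))) (add (mul s2 (add (mul s2 (add (mul s2 (add (mul s2 (k (.ofNat (nat_lit 101284)))) (mul s3 (k (.negSucc (nat_lit 180055)))))) (mul (pow s3 2) (k (.ofNat (nat_lit 162200)))))) (mul (pow s3 3) (k (.ofNat (nat_lit 436)))))) (mul (pow s3 4) (k (.ofNat (nat_lit 79606))))))) (add (mul s2 (add (mul s2 (add (mul s2 (add (mul s2 (add (mul s2 (k (.negSucc (nat_lit 14673)))) (mul s3 (k (.ofNat (nat_lit 79606))))))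 (mul (pow s3 2) (k (.ofNat (nat_lit 377650)))))) (mul (pow s3 3) (k (.negSucc (nat_lit 515387)))))) (mul (pow s3 4) (k (.ofNat (nat_lit 229388)))))) (mul (pow s3 5) (k (.negSucc (nat_lit 11759)))))))) (add (mul s1 (add (mul s1 (add (mul s1 (add (mul s1 (add (mul s1 (add (mul s1 (k (.negSucc (nat_lit 1267)))) (add (mul s2 (k (.ofNat (nat_lit 37660)))) (mul s3 (k (.ofNat (nat_lit 37872))))))) (add (mul s2 (add (mul s2 (k (.ofNat (nat_lit 4436)))) (mul s3 (k (.negSucc (nat_lit 12207)))))) (mul (pow s3 2) (k (.negSucc (nat_lit 124143))))))) (add (mul s2 (add (mul s2 (add (mul s2 (k (.negSucc (nat_lit 282561)))) (mul s3 (k (.negSucc (nat_lit 244513)))))) (mul (pow s3 2) (k (.ofNat (nat_lit 85490)))))) (mul (pow s3 3) (k (.ofNat (nat_lit 150436))))))) (add (mul s2 (add (mul s2 (add (mul s2 (add (mul s2 (k (.ofNat (nat_lit 236966)))) (mul s3 (k (.ofNat (nat_lit 392832)))))) (mul (pow s3 2) (k (.ofNat (nat_lit 207398)))))) (mul (pow s3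 3) (k (.negSucc (nat_lit 171619)))))) (mul (pow s3 4) (k (.negSucc (nat_lit 90007))))))) (add (mul s2 (add (mul s2 (add (mul s2 (add (mul s2 (add (mul s2 (k (.negSucc (nat_lit 60119)))) (mul s3 (k (.ofNat (nat_lit 41104)))))) (mul (pow s3 2) (k (.negSucc (nat_lit 363083)))))) (mul (pow s3 3) (k (.ofNat (nat_lit 74158)))))) (mul (pow s3 4) (k (.ofNat (nat_lit 79606)))))) (mul (pow s3 5) (k (.negSucc (nat_lit 3163))))))) (add (mul s2 (add (mul s2 (add (mul s2 (add (mul s2 (add (mul s2 (add (mul s2 (k (.ofNat (nat_lit 924)))) (mul s3 (k (.ofNat (nat_lit 38288)))))) (mul (pow s3 2) (k (.negSucc (nat_lit 235585)))))) (mul (pow s3 3) (k (.ofNat (nat_lit 279272)))))) (mul (pow s3 4) (k (.negSucc (nat_lit 63247)))))) (mul (pow s3 5) (k (.negSucc (nat_lit 11759)))))) (mul (pow s3 6) (k (.ofNat (nat_lit 6840))))))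
def kr1500 : PExp := add (mul s0 (add (mul s0 (add (mul s0 (add (mul s0 (add (mul s0 (add (mul s0 (k (.ofNat (nat_lit 676)))) (add (mul s1 (k (.negSucc (nat_lit 67135)))) (add (mul s2 (k (.ofNat (nat_lit 7220)))) (mul s3 (k (.ofNat (nat_lit 7220)))))))) (add (mul s1 (add (mul s1 (k (.ofNat (nat_lit 268260)))) (add (mul s2 (k (.negSucc (nat_lit 60119)))) (mul s3 (k (.negSucc (nat_lit 60119))))))) (add (mul s2 (add (mul s2 (k (.negSucc (nat_lit 40259)))) (mul s3 (k (.negSucc (nat_lit 3163)))))) (mul (pow s3 2) (k (.negSucc (nat_lit 40259)))))))) (add (mul s1 (add (mul s1 (add (mul s1 (k (.negSucc (nat_lit 341423)))) (add (mul s2 (k (.ofNat (nat_lit 37368)))) (mul s3 (k (.ofNat (nat_lit 37368))))))) (add (mul s2 (add (mul s2 (k (.ofNat (nat_lit 143646)))) (mul s3 (k (.negSucc (nat_lit 24103)))))) (mul (pow s3 2) (k (.ofNat (nat_lit 143646))))))) (add (mul s2 (add (mul s2 (add (mul s2 (k (.ofNat (nat_lit 18528)))) (mul s3 (k (.ofNat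 (nat_lit 19402)))))) (mul (pow s3 2) (k (.ofNat (nat_lit 19402)))))) (mul (pow s3 3) (k (.ofNat (nat_lit 18528)))))))) (add (mul s1 (add (mul s1 (add (mul s1 (add (mul s1 (k (.ofNat (nat_lit 197172)))) (add (mul s2 (k (.negSucc (nat_lit 75581)))) (mul s3 (k (.negSucc (nat_lit 75581))))))) (add (mul s2 (add (mul s2 (k (.ofNat (nat_lit 18210)))) (mul s3 (k (.ofNat (nat_lit 115408)))))) (mul (pow s3 2) (k (.ofNat (nat_lit 18210))))))) (add (mul s2 (add (mul s2 (add (mul s2 (k (.negSucc (nat_lit 104501)))) (mul s3 (k (.negSucc (nat_lit 80517)))))) (mul (pow s3 2) (k (.negSucc (nat_lit 80517)))))) (mul (pow s3 3) (k (.negSucc (nat_lit 104501))))))) (add (mul s2 (add (mul s2 (add (mul s2 (add (mul s2 (k (.ofNat (nat_lit 1638)))) (mul s3 (k (.ofNat (nat_lit 13380)))))) (mul (pow s3 2) (k (.ofNat (nat_lit 17020)))))) (mul (pow s3 3) (k (.ofNat (nat_lit 13380)))))) (mul (pow s3 4) (k (.ofNat (nat_lit 1638)))))))) (add (mul s1 (add (mul s1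 (add (mul s1 (add (mul s1 (add (mul s1 (k (.negSucc (nat_lit 22535)))) (add (mul s2 (k (.ofNat (nat_lit 37660)))) (mul s3 (k (.ofNat (nat_lit 37660))))))) (add (mul s2 (add (mul s2 (k (.negSucc (nat_lit 162855)))) (mul s3 (k (.ofNat (nat_lit 24872)))))) (mul (pow s3 2) (k (.negSucc (nat_lit 162855))))))) (add (mul s2 (add (mul s2 (add (mul s2 (k (.ofNat (nat_lit 152170)))) (mul s3 (k (.ofNat (nat_lit 40932)))))) (mul (pow s3 2) (k (.ofNat (nat_lit 40932)))))) (mul (pow s3 3) (k (.ofNat (nat_lit 152170))))))) (add (mul s2 (add (mul s2 (add (mul s2 (add (mul s2 (k (.negSucc (nat_lit 14673)))) (mul s3 (k (.ofNat (nat_lit 15314)))))) (mul (pow s3 2) (k (.negSucc (nat_lit 101143)))))) (mul (pow s3 3) (k (.ofNat (nat_lit 15314)))))) (mul (pow s3 4) (k (.negSucc (nat_lit 14673))))))) (add (mul s2 (add (mul s2 (add (mul s2 (add (mul s2 (add (mul s2 (k (.negSucc (nat_lit 2419)))) (mul s3 (k (.negSucc (nat_lit 11759)))))) (mul (pow s3 2)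 (k (.ofNat (nat_lit 12686)))))) (mul (pow s3 3) (k (.ofNat (nat_lit 12686)))))) (mul (pow s3 4) (k (.negSucc (nat_lit 11759)))))) (mul (pow s3 5) (k (.negSucc (nat_lit 2419)))))))) (add (mul s1 (add (mul s1 (add (mul s1 (add (mul s1 (add (mul s1 (add (mul s1 (k (.ofNat (nat_lit 52)))) (add (mul s2 (k (.negSucc (nat_lit 4139)))) (mul s3 (k (.negSucc (nat_lit 4139))))))) (add (mul s2 (add (mul s2 (k (.negSucc (nat_lit 8559)))) (mul s3 (k (.ofNat (nat_lit 37872)))))) (mul (pow s3 2) (k (.negSucc (nat_lit 8559))))))) (add (mul s2 (add (mul s2 (add (mul s2 (k (.ofNat (nat_lit 74462)))) (mul s3 (k (.negSucc (nat_lit 28009)))))) (mul (pow s3 2) (k (.negSucc (nat_lit 28009)))))) (mul (pow s3 3) (k (.ofNat (nat_lit 74462))))))) (add (mul s2 (add (mul s2 (add (mul s2 (add (mul s2 (k (.negSucc (nat_lit 51005)))) (mul s3 (k (.negSucc (nat_lit 112807)))))) (mul (pow s3 2) (k (.ofNat (nat_lit 130604)))))) (mul (pow s3 3) (k (.negSucc (nat_lit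 112807)))))) (mul (pow s3 4) (k (.negSucc (nat_lit 51005))))))) (add (mul s2 (add (mul s2 (add (mul s2 (add (mul s2 (add (mul s2 (k (.ofNat (nat_lit 7220)))) (mul s3 (k (.ofNat (nat_lit 38288)))))) (mul (pow s3 2) (k (.ofNat (nat_lit 8716)))))) (mul (pow s3 3) (k (.ofNat (nat_lit 8716)))))) (mul (pow s3 4) (k (.ofNat (nat_lit 38288)))))) (mul (pow s3 5) (k (.ofNat (nat_lit 7220))))))) (add (mul s2 (add (mul s2 (add (mul s2 (add (mul s2 (add (mul s2 (add (mul s2 (k (.negSucc (nat_lit 517)))) (mul s3 (k (.ofNat (nat_lit 18240)))))) (mul (pow s3 2) (k (.negSucc (nat_lit 97829)))))) (mul (pow s3 3) (k (.ofNat (nat_lit 148540)))))) (mul (pow s3 4) (k (.negSucc (nat_lit 97829)))))) (mul (pow s3 5) (k (.ofNat (nat_lit 18240)))))) (mul (pow s3 6) (k (.negSucc (nat_lit 517))))))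
def kr2004 : PExp := add (mul s0 (add (mul s0 (add (mul s0 (add (mul s0 (add (mul s0 (add (mul s0 (k (.ofNat (nat_lit 14156)))) (add (mul s1 (k (.negSucc (nat_lit 51005)))) (add (mul s2 (k (.negSucc (nat_lit 51005)))) (mul s3 (k (.ofNat (nat_lit 268260)))))))) (add (mul s1 (add (mul s1 (k (.ofNat (nat_lit 305860)))) (add (mul s2 (k (.negSucc (nat_lit 90007)))) (mul s3 (k (.ofNat (nat_lit 236966))))))) (add (mul s2 (add (mul s2 (k (.ofNat (nat_lit 305860)))) (mul s3 (k (.ofNat (nat_lit 236966)))))) (mul (pow s3 2) (k (.negSucc (nat_lit 1547831)))))))) (add (mul s1 (add (mul s1 (add (mul s1 (k (.negSucc (nat_lit 304563)))) (add (mul s2 (k (.ofNat (nat_lit 81228)))) (mul s3 (k (.negSucc (nat_lit 580169))))))) (add (mul s2 (add (mul s2 (k (.ofNat (nat_lit 81228)))) (mul s3 (k (.ofNat (nat_lit 40676)))))) (mul (pow s3 2) (k (.negSucc (nat_lit 218831))))))) (add (mul s2 (add (mul s2 (add (mul s2 (k (.negSucc (nat_lit 304563)))) (mul s3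 (k (.negSucc (nat_lit 580169)))))) (mul (pow s3 2) (k (.negSucc (nat_lit 218831)))))) (mul (pow s3 3) (k (.ofNat (nat_lit 2290584)))))))) (add (mul s1 (add (mul s1 (add (mul s1 (add (mul s1 (k (.ofNat (nat_lit 136520)))) (add (mul s2 (k (.ofNat (nat_lit 70040)))) (mul s3 (k (.ofNat (nat_lit 162340))))))) (add (mul s2 (add (mul s2 (k (.negSucc (nat_lit 343231)))) (mul s3 (k (.negSucc (nat_lit 37241)))))) (mul (pow s3 2) (k (.ofNat (nat_lit 444912))))))) (add (mul s2 (add (mul s2 (add (mul s2 (k (.ofNat (nat_lit 70040)))) (mul s3 (k (.negSucc (nat_lit 37241)))))) (mul (pow s3 2) (k (.negSucc (nat_lit 74083)))))) (mul (pow s3 3) (k (.ofNat (nat_lit 102302))))))) (add (mul s2 (add (mul s2 (add (mul s2 (add (mul s2 (k (.ofNat (nat_lit 136520)))) (mul s3 (k (.ofNat (nat_lit 162340)))))) (mul (pow s3 2) (k (.ofNat (nat_lit 444912)))))) (mul (pow s3 3) (k (.ofNat (nat_lit 102302)))))) (mul (pow s3 4) (k (.negSucc (nat_lit 1242039))))))))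 (add (mul s1 (add (mul s1 (add (mul s1 (add (mul s1 (add (mul s1 (k (.ofNat (nat_lit 1638)))) (add (mul s2 (k (.negSucc (nat_lit 63247)))) (mul s3 (k (.ofNat (nat_lit 38808))))))) (add (mul s2 (add (mul s2 (k (.ofNat (nat_lit 84180)))) (mul s3 (k (.ofNat (nat_lit 131604)))))) (mul (pow s3 2) (k (.negSucc (nat_lit 436791))))))) (add (mul s2 (add (mul s2 (add (mul s2 (k (.ofNat (nat_lit 84180)))) (mul s3 (k (.negSucc (nat_lit 256599)))))) (mul (pow s3 2) (k (.ofNat (nat_lit 281134)))))) (mul (pow s3 3) (k (.ofNat (nat_lit 179086))))))) (add (mul s2 (add (mul s2 (add (mul s2 (add (mul s2 (k (.negSucc (nat_lit 63247)))) (mul s3 (k (.ofNat (nat_lit 131604)))))) (mul (pow s3 2) (k (.ofNat (nat_lit 281134)))))) (mul (pow s3 3) (k (.negSucc (nat_lit 405655)))))) (mul (pow s3 4) (k (.ofNat (nat_lit 4436))))))) (add (mul s2 (add (mul s2 (add (mul s2 (add (mul s2 (add (mul s2 (k (.ofNat (nat_lit 1638)))) (mul s3 (k (.ofNat (nat_lit 38808))))))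 (mul (pow s3 2) (k (.negSucc (nat_lit 436791)))))) (mul (pow s3 3) (k (.ofNat (nat_lit 179086)))))) (mul (pow s3 4) (k (.ofNat (nat_lit 4436)))))) (mul (pow s3 5) (k (.ofNat (nat_lit 197172)))))))) (add (mul s1 (add (mul s1 (add (mul s1 (add (mul s1 (add (mul s1 (add (mul s1 (k (.negSucc (nat_lit 287)))) (add (mul s2 (k (.negSucc (nat_lit 97829)))) (mul s3 (k (.negSucc (nat_lit 40259))))))) (add (mul s2 (add (mul s2 (k (.ofNat (nat_lit 597708)))) (mul s3 (k (.negSucc (nat_lit 235585)))))) (mul (pow s3 2) (k (.ofNat (nat_lit 305860))))))) (add (mul s2 (add (mul s2 (add (mul s2 (k (.negSucc (nat_lit 1008699)))) (mul s3 (k (.ofNat (nat_lit 244430)))))) (mul (pow s3 2) (k (.ofNat (nat_lit 345402)))))) (mul (pow s3 3) (k (.negSucc (nat_lit 379129))))))) (add (mul s2 (add (mul s2 (add (mul s2 (add (mul s2 (k (.ofNat (nat_lit 597708)))) (mul s3 (k (.ofNat (nat_lit 244430)))))) (mul (pow s3 2) (k (.negSucc (nat_lit 874175)))))) (mul (pow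 s3 3) (k (.ofNat (nat_lit 166214)))))) (mul (pow s3 4) (k (.ofNat (nat_lit 228140))))))) (add (mul s2 (add (mul s2 (add (mul s2 (add (mul s2 (add (mul s2 (k (.negSucc (nat_lit 97829)))) (mul s3 (k (.negSucc (nat_lit 235585)))))) (mul (pow s3 2) (k (.ofNat (nat_lit 345402)))))) (mul (pow s3 3) (k (.ofNat (nat_lit 166214)))))) (mul (pow s3 4) (k (.negSucc (nat_lit 124143)))))) (mul (pow s3 5) (k (.negSucc (nat_lit 8559))))))) (add (mul s2 (add (mul s2 (add (mul s2 (add (mul s2 (add (mul s2 (add (mul s2 (k (.negSucc (nat_lit 287)))) (mul s3 (k (.negSucc (nat_lit 40259)))))) (mul (pow s3 2) (k (.ofNat (nat_lit 305860)))))) (mul (pow s3 3) (k (.negSucc (nat_lit 379129)))))) (mul (pow s3 4) (k (.ofNat (nat_lit 228140)))))) (mul (pow s3 5) (k (.negSucc (nat_lit 8559)))))) (mul (pow s3 6) (k (.ofNat (nat_lit 24464))))))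
def kr2013 : PExp := add (mul s0 (add (mul s0 (add (mul s0 (add (mul s0 (add (mul s0 (add (mul s0 (k (.ofNat (nat_lit 2232)))) (add (mul s1 (k (.negSucc (nat_lit 112807)))) (add (mul s2 (k (.ofNat (nat_lit 152170)))) (mul s3 (k (.ofNat (nat_lit 37368)))))))) (add (mul s1 (add (mul s1 (k (.ofNat (nat_lit 345402)))) (add (mul s2 (k (.negSucc (nat_lit 171619)))) (mul s3 (k (.ofNat (nat_lit 392832))))))) (add (mul s2 (add (mul s2 (k (.negSucc (nat_lit 436791)))) (mul s3 (k (.negSucc (nat_lit 509659)))))) (mul (pow s3 2) (k (.negSucc (nat_lit 218831)))))))) (add (mul s1 (add (mul s1 (add (mul s1 (k (.negSucc (nat_lit 188215)))) (add (mul s2 (k (.negSucc (nat_lit 1612883)))) (mul s3 (k (.ofNat (nat_lit 779604))))))) (add (mul s2 (add (mul s2 (k (.ofNat (nat_lit 2210688)))) (mul s3 (k (.negSucc (nat_lit 985891)))))) (mul (pow s3 2) (k (.negSucc (nat_lit 1718075))))))) (add (mul s2 (add (mul s2 (add (mul s2 (k (.ofNat (nat_lit 147062))))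 (mul s3 (k (.negSucc (nat_lit 20809)))))) (mul (pow s3 2) (k (.ofNat (nat_lit 2030976)))))) (mul (pow s3 3) (k (.ofNat (nat_lit 145386)))))))) (add (mul s1 (add (mul s1 (add (mul s1 (add (mul s1 (k (.ofNat (nat_lit 70040)))) (add (mul s2 (k (.ofNat (nat_lit 1381968)))) (mul s3 (k (.negSucc (nat_lit 1394593))))))) (add (mul s2 (add (mul s2 (k (.negSucc (nat_lit 774799)))) (mul s3 (k (.ofNat (nat_lit 2200456)))))) (mul (pow s3 2) (k (.negSucc (nat_lit 89533))))))) (add (mul s2 (add (mul s2 (add (mul s2 (k (.negSucc (nat_lit 1394593)))) (mul s3 (k (.negSucc (nat_lit 156185)))))) (mul (pow s3 2) (k (.ofNat (nat_lit 90034)))))) (mul (pow s3 3) (k (.ofNat (nat_lit 1730576))))))) (add (mul s2 (add (mul s2 (add (mul s2 (add (mul s2 (k (.ofNat (nat_lit 162340)))) (mul s3 (k (.ofNat (nat_lit 80396)))))) (mul (pow s3 2) (k (.ofNat (nat_lit 294672)))))) (mul (pow s3 3) (k (.negSucc (nat_lit 2165303)))))) (mul (pow s3 4) (k (.ofNat (nat_lit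 102302)))))))) (add (mul s1 (add (mul s1 (add (mul s1 (add (mul s1 (add (mul s1 (k (.ofNat (nat_lit 13380)))) (add (mul s2 (k (.negSucc (nat_lit 515387)))) (mul s3 (k (.negSucc (nat_lit 279931))))))) (add (mul s2 (add (mul s2 (k (.ofNat (nat_lit 589078)))) (mul s3 (k (.negSucc (nat_lit 223871)))))) (mul (pow s3 2) (k (.ofNat (nat_lit 2210688))))))) (add (mul s2 (add (mul s2 (add (mul s2 (k (.ofNat (nat_lit 239942)))) (mul s3 (k (.negSucc (nat_lit 1001959)))))) (mul (pow s3 2) (k (.negSucc (nat_lit 1196751)))))) (mul (pow s3 3) (k (.negSucc (nat_lit 1476847))))))) (add (mul s2 (add (mul s2 (add (mul s2 (add (mul s2 (k (.ofNat (nat_lit 74158)))) (mul s3 (k (.ofNat (nat_lit 708250)))))) (mul (pow s3 2) (k (.negSucc (nat_lit 109261)))))) (mul (pow s3 3) (k (.ofNat (nat_lit 590038)))))) (mul (pow s3 4) (k (.negSucc (nat_lit 244513))))))) (add (mul s2 (add (mul s2 (add (mul s2 (add (mul s2 (add (mul s2 (k (.negSucc (nat_lit 104501))))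 (mul s3 (k (.ofNat (nat_lit 202882)))))) (mul (pow s3 2) (k (.negSucc (nat_lit 20809)))))) (mul (pow s3 3) (k (.negSucc (nat_lit 800143)))))) (mul (pow s3 4) (k (.ofNat (nat_lit 1004130)))))) (mul (pow s3 5) (k (.negSucc (nat_lit 75581)))))))) (add (mul s1 (add (mul s1 (add (mul s1 (add (mul s1 (add (mul s1 (add (mul s1 (k (.negSucc (nat_lit 6683)))) (add (mul s2 (k (.ofNat (nat_lit 12686)))) (mul s3 (k (.ofNat (nat_lit 19402))))))) (add (mul s2 (add (mul s2 (k (.ofNat (nat_lit 84180)))) (mul s3 (k (.ofNat (nat_lit 377650)))))) (mul (pow s3 2) (k (.ofNat (nat_lit 81228))))))) (add (mul s2 (add (mul s2 (add (mul s2 (k (.negSucc (nat_lit 409991)))) (mul s3 (k (.ofNat (nat_lit 239942)))))) (mul (pow s3 2) (k (.negSucc (nat_lit 1612883)))))) (mul (pow s3 3) (k (.negSucc (nat_lit 240581))))))) (add (mul s2 (add (mul s2 (add (mul s2 (add (mul s2 (k (.ofNat (nat_lit 244430)))) (mul s3 (k (.negSucc (nat_lit 257311)))))) (mul (pow s3 2)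 (k (.ofNat (nat_lit 1088034)))))) (mul (pow s3 3) (k (.ofNat (nat_lit 1172184)))))) (mul (pow s3 4) (k (.ofNat (nat_lit 166214))))))) (add (mul s2 (add (mul s2 (add (mul s2 (add (mul s2 (add (mul s2 (k (.ofNat (nat_lit 8716)))) (mul s3 (k (.negSucc (nat_lit 363083)))))) (mul (pow s3 2) (k (.ofNat (nat_lit 779604)))))) (mul (pow s3 3) (k (.negSucc (nat_lit 1476847)))))) (mul (pow s3 4) (k (.ofNat (nat_lit 85490)))))) (mul (pow s3 5) (k (.negSucc (nat_lit 28009))))))) (add (mul s2 (add (mul s2 (add (mul s2 (add (mul s2 (add (mul s2 (add (mul s2 (k (.negSucc (nat_lit 7007)))) (mul s3 (k (.ofNat (nat_lit 143646)))))) (mul (pow s3 2) (k (.negSucc (nat_lit 580169)))))) (mul (pow s3 3) (k (.ofNat (nat_lit 538020)))))) (mul (pow s3 4) (k (.ofNat (nat_lit 179086)))))) (mul (pow s3 5) (k (.negSucc (nat_lit 162855)))))) (mul (pow s3 6) (k (.ofNat (nat_lit 10836))))))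
def kr2022 : PExp := add (mul s0 (add (mul s0 (add (mul s0 (add (mul s0 (add (mul s0 (add (mul s0 (k (.ofNat (nat_lit 33412)))) (add (mul s1 (k (.ofNat (nat_lit 130604)))) (add (mul s2 (k (.ofNat (nat_lit 18210)))) (mul s3 (k (.ofNat (nat_lit 18210)))))))) (add (mul s1 (add (mul s1 (k (.negSucc (nat_lit 874175)))) (add (mul s2 (k (.ofNat (nat_lit 207398)))) (mul s3 (k (.ofNat (nat_lit 207398))))))) (add (mul s2 (add (mul s2 (k (.ofNat (nat_lit 444912)))) (mul s3 (k (.negSucc (nat_lit 789247)))))) (mul (pow s3 2) (k (.ofNat (nat_lit 444912)))))))) (add (mul s1 (add (mul s1 (add (mul s1 (k (.ofNat (nat_lit 1026424)))) (add (mul s2 (k (.ofNat (nat_lit 1088034)))) (mul s3 (k (.ofNat (nat_lit 1088034))))))) (add (mul s2 (add (mul s2 (k (.negSucc (nat_lit 89533)))) (mul s3 (k (.negSucc (nat_lit 846223)))))) (mul (pow s3 2) (k (.negSucc (nat_lit 89533))))))) (add (mul s2 (add (mul s2 (add (mul s2 (k (.negSucc (nat_lit 1010959)))) (mul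 s3 (k (.ofNat (nat_lit 294672)))))) (mul (pow s3 2) (k (.ofNat (nat_lit 294672)))))) (mul (pow s3 3) (k (.negSucc (nat_lit 1010959)))))))) (add (mul s1 (add (mul s1 (add (mul s1 (add (mul s1 (k (.negSucc (nat_lit 343231)))) (add (mul s2 (k (.negSucc (nat_lit 774799)))) (mul s3 (k (.negSucc (nat_lit 774799))))))) (add (mul s2 (add (mul s2 (k (.negSucc (nat_lit 1183023)))) (mul s3 (k (.negSucc (nat_lit 426863)))))) (mul (pow s3 2) (k (.negSucc (nat_lit 1183023))))))) (add (mul s2 (add (mul s2 (add (mul s2 (k (.negSucc (nat_lit 89533)))) (mul s3 (k (.ofNat (nat_lit 794428)))))) (mul (pow s3 2) (k (.ofNat (nat_lit 794428)))))) (mul (pow s3 3) (k (.negSucc (nat_lit 89533))))))) (add (mul s2 (add (mul s2 (add (mul s2 (add (mul s2 (k (.ofNat (nat_lit 444912)))) (mul s3 (k (.ofNat (nat_lit 294672)))))) (mul (pow s3 2) (k (.ofNat (nat_lit 434976)))))) (mul (pow s3 3) (k (.ofNat (nat_lit 294672)))))) (mul (pow s3 4) (k (.ofNat (nat_lit 444912))))))))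 (add (mul s1 (add (mul s1 (add (mul s1 (add (mul s1 (add (mul s1 (k (.ofNat (nat_lit 17020)))) (add (mul s2 (k (.ofNat (nat_lit 308164)))) (mul s3 (k (.ofNat (nat_lit 308164))))))) (add (mul s2 (add (mul s2 (k (.negSucc (nat_lit 774799)))) (mul s3 (k (.ofNat (nat_lit 1919244)))))) (mul (pow s3 2) (k (.negSucc (nat_lit 774799))))))) (add (mul s2 (add (mul s2 (add (mul s2 (k (.ofNat (nat_lit 1088034)))) (mul s3 (k (.negSucc (nat_lit 426863)))))) (mul (pow s3 2) (k (.negSucc (nat_lit 426863)))))) (mul (pow s3 3) (k (.ofNat (nat_lit 1088034))))))) (add (mul s2 (add (mul s2 (add (mul s2 (add (mul s2 (k (.ofNat (nat_lit 207398)))) (mul s3 (k (.negSucc (nat_lit 846223)))))) (mul (pow s3 2) (k (.ofNat (nat_lit 794428)))))) (mul (pow s3 3) (k (.negSucc (nat_lit 846223)))))) (mul (pow s3 4) (k (.ofNat (nat_lit 207398))))))) (add (mul s2 (add (mul s2 (add (mul s2 (add (mul s2 (add (mul s2 (k (.ofNat (nat_lit 18210)))) (mul s3 (k (.negSucc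 (nat_lit 789247)))))) (mul (pow s3 2) (k (.ofNat (nat_lit 294672)))))) (mul (pow s3 3) (k (.ofNat (nat_lit 294672)))))) (mul (pow s3 4) (k (.negSucc (nat_lit 789247)))))) (mul (pow s3 5) (k (.ofNat (nat_lit 18210)))))))) (add (mul s1 (add (mul s1 (add (mul s1 (add (mul s1 (add (mul s1 (add (mul s1 (k (.ofNat (nat_lit 3456)))) (add (mul s2 (k (.ofNat (nat_lit 17020)))) (mul s3 (k (.ofNat (nat_lit 17020))))))) (add (mul s2 (add (mul s2 (k (.negSucc (nat_lit 343231)))) (mul s3 (k (.ofNat (nat_lit 308164)))))) (mul (pow s3 2) (k (.negSucc (nat_lit 343231))))))) (add (mul s2 (add (mul s2 (add (mul s2 (k (.ofNat (nat_lit 1026424)))) (mul s3 (k (.negSucc (nat_lit 774799)))))) (mul (pow s3 2) (k (.negSucc (nat_lit 774799)))))) (mul (pow s3 3) (k (.ofNat (nat_lit 1026424))))))) (add (mul s2 (add (mul s2 (add (mul s2 (add (mul s2 (k (.negSucc (nat_lit 874175)))) (mul s3 (k (.ofNat (nat_lit 1088034)))))) (mul (pow s3 2) (k (.negSucc (nat_lit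 1183023)))))) (mul (pow s3 3) (k (.ofNat (nat_lit 1088034)))))) (mul (pow s3 4) (k (.negSucc (nat_lit 874175))))))) (add (mul s2 (add (mul s2 (add (mul s2 (add (mul s2 (add (mul s2 (k (.ofNat (nat_lit 130604)))) (mul s3 (k (.ofNat (nat_lit 207398)))))) (mul (pow s3 2) (k (.negSucc (nat_lit 89533)))))) (mul (pow s3 3) (k (.negSucc (nat_lit 89533)))))) (mul (pow s3 4) (k (.ofNat (nat_lit 207398)))))) (mul (pow s3 5) (k (.ofNat (nat_lit 130604))))))) (add (mul s2 (add (mul s2 (add (mul s2 (add (mul s2 (add (mul s2 (add (mul s2 (k (.ofNat (nat_lit 33412)))) (mul s3 (k (.ofNat (nat_lit 18210)))))) (mul (pow s3 2) (k (.ofNat (nat_lit 444912)))))) (mul (pow s3 3) (k (.negSucc (nat_lit 1010959)))))) (mul (pow s3 4) (k (.ofNat (nat_lit 444912)))))) (mul (pow s3 5) (k (.ofNat (nat_lit 18210)))))) (mul (pow s3 6) (k (.ofNat (nat_lit 33412))))))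
def kr2031 : PExp := add (mul s0 (add (mul s0 (add (mul s0 (add (mul s0 (add (mul s0 (add (mul s0 (k (.ofNat (nat_lit 2232)))) (add (mul s1 (k (.negSucc (nat_lit 112807)))) (add (mul s2 (k (.ofNat (nat_lit 37368)))) (mul s3 (k (.ofNat (nat_lit 152170)))))))) (add (mul s1 (add (mul s1 (k (.ofNat (nat_lit 345402)))) (add (mul s2 (k (.ofNat (nat_lit 392832)))) (mul s3 (k (.negSucc (nat_lit 171619))))))) (add (mul s2 (add (mul s2 (k (.negSucc (nat_lit 218831)))) (mul s3 (k (.negSucc (nat_lit 509659)))))) (mul (pow s3 2) (k (.negSucc (nat_lit 436791)))))))) (add (mul s1 (add (mul s1 (add (mul s1 (k (.negSucc (nat_lit 188215)))) (add (mul s2 (k (.ofNat (nat_lit 779604)))) (mul s3 (k (.negSucc (nat_lit 1612883))))))) (add (mul s2 (add (mul s2 (k (.negSucc (nat_lit 1718075)))) (mul s3 (k (.negSucc (nat_lit 985891)))))) (mul (pow s3 2) (k (.ofNat (nat_lit 2210688))))))) (add (mul s2 (add (mul s2 (add (mul s2 (k (.ofNat (nat_lit 145386))))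 (mul s3 (k (.ofNat (nat_lit 2030976)))))) (mul (pow s3 2) (k (.negSucc (nat_lit 20809)))))) (mul (pow s3 3) (k (.ofNat (nat_lit 147062)))))))) (add (mul s1 (add (mul s1 (add (mul s1 (add (mul s1 (k (.ofNat (nat_lit 70040)))) (add (mul s2 (k (.negSucc (nat_lit 1394593)))) (mul s3 (k (.ofNat (nat_lit 1381968))))))) (add (mul s2 (add (mul s2 (k (.negSucc (nat_lit 89533)))) (mul s3 (k (.ofNat (nat_lit 2200456)))))) (mul (pow s3 2) (k (.negSucc (nat_lit 774799))))))) (add (mul s2 (add (mul s2 (add (mul s2 (k (.ofNat (nat_lit 1730576)))) (mul s3 (k (.ofNat (nat_lit 90034)))))) (mul (pow s3 2) (k (.negSucc (nat_lit 156185)))))) (mul (pow s3 3) (k (.negSucc (nat_lit 1394593))))))) (add (mul s2 (add (mul s2 (add (mul s2 (add (mul s2 (k (.ofNat (nat_lit 102302)))) (mul s3 (k (.negSucc (nat_lit 2165303)))))) (mul (pow s3 2) (k (.ofNat (nat_lit 294672)))))) (mul (pow s3 3) (k (.ofNat (nat_lit 80396)))))) (mul (pow s3 4) (k (.ofNat (nat_lit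 162340)))))))) (add (mul s1 (add (mul s1 (add (mul s1 (add (mul s1 (add (mul s1 (k (.ofNat (nat_lit 13380)))) (add (mul s2 (k (.negSucc (nat_lit 279931)))) (mul s3 (k (.negSucc (nat_lit 515387))))))) (add (mul s2 (add (mul s2 (k (.ofNat (nat_lit 2210688)))) (mul s3 (k (.negSucc (nat_lit 223871)))))) (mul (pow s3 2) (k (.ofNat (nat_lit 589078))))))) (add (mul s2 (add (mul s2 (add (mul s2 (k (.negSucc (nat_lit 1476847)))) (mul s3 (k (.negSucc (nat_lit 1196751)))))) (mul (pow s3 2) (k (.negSucc (nat_lit 1001959)))))) (mul (pow s3 3) (k (.ofNat (nat_lit 239942))))))) (add (mul s2 (add (mul s2 (add (mul s2 (add (mul s2 (k (.negSucc (nat_lit 244513)))) (mul s3 (k (.ofNat (nat_lit 590038)))))) (mul (pow s3 2) (k (.negSucc (nat_lit 109261)))))) (mul (pow s3 3) (k (.ofNat (nat_lit 708250)))))) (mul (pow s3 4) (k (.ofNat (nat_lit 74158))))))) (add (mul s2 (add (mul s2 (add (mul s2 (add (mul s2 (add (mul s2 (k (.negSucc (nat_lit 75581))))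 (mul s3 (k (.ofNat (nat_lit 1004130)))))) (mul (pow s3 2) (k (.negSucc (nat_lit 800143)))))) (mul (pow s3 3) (k (.negSucc (nat_lit 20809)))))) (mul (pow s3 4) (k (.ofNat (nat_lit 202882)))))) (mul (pow s3 5) (k (.negSucc (nat_lit 104501)))))))) (add (mul s1 (add (mul s1 (add (mul s1 (add (mul s1 (add (mul s1 (add (mul s1 (k (.negSucc (nat_lit 6683)))) (add (mul s2 (k (.ofNat (nat_lit 19402)))) (mul s3 (k (.ofNat (nat_lit 12686))))))) (add (mul s2 (add (mul s2 (k (.ofNat (nat_lit 81228)))) (mul s3 (k (.ofNat (nat_lit 377650)))))) (mul (pow s3 2) (k (.ofNat (nat_lit 84180))))))) (add (mul s2 (add (mul s2 (add (mul s2 (k (.negSucc (nat_lit 240581)))) (mul s3 (k (.negSucc (nat_lit 1612883)))))) (mul (pow s3 2) (k (.ofNat (nat_lit 239942)))))) (mul (pow s3 3) (k (.negSucc (nat_lit 409991))))))) (add (mul s2 (add (mul s2 (add (mul s2 (add (mul s2 (k (.ofNat (nat_lit 166214)))) (mul s3 (k (.ofNat (nat_lit 1172184)))))) (mul (pow s3 2)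 (k (.ofNat (nat_lit 1088034)))))) (mul (pow s3 3) (k (.negSucc (nat_lit 257311)))))) (mul (pow s3 4) (k (.ofNat (nat_lit 244430))))))) (add (mul s2 (add (mul s2 (add (mul s2 (add (mul s2 (add (mul s2 (k (.negSucc (nat_lit 28009)))) (mul s3 (k (.ofNat (nat_lit 85490)))))) (mul (pow s3 2) (k (.negSucc (nat_lit 1476847)))))) (mul (pow s3 3) (k (.ofNat (nat_lit 779604)))))) (mul (pow s3 4) (k (.negSucc (nat_lit 363083)))))) (mul (pow s3 5) (k (.ofNat (nat_lit 8716))))))) (add (mul s2 (add (mul s2 (add (mul s2 (add (mul s2 (add (mul s2 (add (mul s2 (k (.ofNat (nat_lit 10836)))) (mul s3 (k (.negSucc (nat_lit 162855)))))) (mul (pow s3 2) (k (.ofNat (nat_lit 179086)))))) (mul (pow s3 3) (k (.ofNat (nat_lit 538020)))))) (mul (pow s3 4) (k (.negSucc (nat_lit 580169)))))) (mul (pow s3 5) (k (.ofNat (nat_lit 143646)))))) (mul (pow s3 6) (k (.negSucc (nat_lit 7007))))))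
def kr2040 : PExp := add (mul s0 (add (mul s0 (add (mul s0 (add (mul s0 (add (mul s0 (add (mul s0 (k (.ofNat (nat_lit 14156)))) (add (mul s1 (k (.negSucc (nat_lit 51005)))) (add (mul s2 (k (.ofNat (nat_lit 268260)))) (mul s3 (k (.negSucc (nat_lit 51005)))))))) (add (mul s1 (add (mul s1 (k (.ofNat (nat_lit 305860)))) (add (mul s2 (k (.ofNat (nat_lit 236966)))) (mul s3 (k (.negSucc (nat_lit 90007))))))) (add (mul s2 (add (mul s2 (k (.negSucc (nat_lit 1547831)))) (mul s3 (k (.ofNat (nat_lit 236966)))))) (mul (pow s3 2) (k (.ofNat (nat_lit 305860)))))))) (add (mul s1 (add (mul s1 (add (mul s1 (k (.negSucc (nat_lit 304563)))) (add (mul s2 (k (.negSucc (nat_lit 580169)))) (mul s3 (k (.ofNat (nat_lit 81228))))))) (add (mul s2 (add (mul s2 (k (.negSucc (nat_lit 218831)))) (mul s3 (k (.ofNat (nat_lit 40676)))))) (mul (pow s3 2) (k (.ofNat (nat_lit 81228))))))) (add (mul s2 (add (mul s2 (add (mul s2 (k (.ofNat (nat_lit 2290584)))) (mul s3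 (k (.negSucc (nat_lit 218831)))))) (mul (pow s3 2) (k (.negSucc (nat_lit 580169)))))) (mul (pow s3 3) (k (.negSucc (nat_lit 304563)))))))) (add (mul s1 (add (mul s1 (add (mul s1 (add (mul s1 (k (.ofNat (nat_lit 136520)))) (add (mul s2 (k (.ofNat (nat_lit 162340)))) (mul s3 (k (.ofNat (nat_lit 70040))))))) (add (mul s2 (add (mul s2 (k (.ofNat (nat_lit 444912)))) (mul s3 (k (.negSucc (nat_lit 37241)))))) (mul (pow s3 2) (k (.negSucc (nat_lit 343231))))))) (add (mul s2 (add (mul s2 (add (mul s2 (k (.ofNat (nat_lit 102302)))) (mul s3 (k (.negSucc (nat_lit 74083)))))) (mul (pow s3 2) (k (.negSucc (nat_lit 37241)))))) (mul (pow s3 3) (k (.ofNat (nat_lit 70040))))))) (add (mul s2 (add (mul s2 (add (mul s2 (add (mul s2 (k (.negSucc (nat_lit 1242039)))) (mul s3 (k (.ofNat (nat_lit 102302)))))) (mul (pow s3 2) (k (.ofNat (nat_lit 444912)))))) (mul (pow s3 3) (k (.ofNat (nat_lit 162340)))))) (mul (pow s3 4) (k (.ofNat (nat_lit 136520))))))))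 (add (mul s1 (add (mul s1 (add (mul s1 (add (mul s1 (add (mul s1 (k (.ofNat (nat_lit 1638)))) (add (mul s2 (k (.ofNat (nat_lit 38808)))) (mul s3 (k (.negSucc (nat_lit 63247))))))) (add (mul s2 (add (mul s2 (k (.negSucc (nat_lit 436791)))) (mul s3 (k (.ofNat (nat_lit 131604)))))) (mul (pow s3 2) (k (.ofNat (nat_lit 84180))))))) (add (mul s2 (add (mul s2 (add (mul s2 (k (.ofNat (nat_lit 179086)))) (mul s3 (k (.ofNat (nat_lit 281134)))))) (mul (pow s3 2) (k (.negSucc (nat_lit 256599)))))) (mul (pow s3 3) (k (.ofNat (nat_lit 84180))))))) (add (mul s2 (add (mul s2 (add (mul s2 (add (mul s2 (k (.ofNat (nat_lit 4436)))) (mul s3 (k (.negSucc (nat_lit 405655)))))) (mul (pow s3 2) (k (.ofNat (nat_lit 281134)))))) (mul (pow s3 3) (k (.ofNat (nat_lit 131604)))))) (mul (pow s3 4) (k (.negSucc (nat_lit 63247))))))) (add (mul s2 (add (mul s2 (add (mul s2 (add (mul s2 (add (mul s2 (k (.ofNat (nat_lit 197172)))) (mul s3 (k (.ofNat (nat_lit 4436))))))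 (mul (pow s3 2) (k (.ofNat (nat_lit 179086)))))) (mul (pow s3 3) (k (.negSucc (nat_lit 436791)))))) (mul (pow s3 4) (k (.ofNat (nat_lit 38808)))))) (mul (pow s3 5) (k (.ofNat (nat_lit 1638)))))))) (add (mul s1 (add (mul s1 (add (mul s1 (add (mul s1 (add (mul s1 (add (mul s1 (k (.negSucc (nat_lit 287)))) (add (mul s2 (k (.negSucc (nat_lit 40259)))) (mul s3 (k (.negSucc (nat_lit 97829))))))) (add (mul s2 (add (mul s2 (k (.ofNat (nat_lit 305860)))) (mul s3 (k (.negSucc (nat_lit 235585)))))) (mul (pow s3 2) (k (.ofNat (nat_lit 597708))))))) (add (mul s2 (add (mul s2 (add (mul s2 (k (.negSucc (nat_lit 379129)))) (mul s3 (k (.ofNat (nat_lit 345402)))))) (mul (pow s3 2) (k (.ofNat (nat_lit 244430)))))) (mul (pow s3 3) (k (.negSucc (nat_lit 1008699))))))) (add (mul s2 (add (mul s2 (add (mul s2 (add (mul s2 (k (.ofNat (nat_lit 228140)))) (mul s3 (k (.ofNat (nat_lit 166214)))))) (mul (pow s3 2) (k (.negSucc (nat_lit 874175)))))) (mul (pow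 s3 3) (k (.ofNat (nat_lit 244430)))))) (mul (pow s3 4) (k (.ofNat (nat_lit 597708))))))) (add (mul s2 (add (mul s2 (add (mul s2 (add (mul s2 (add (mul s2 (k (.negSucc (nat_lit 8559)))) (mul s3 (k (.negSucc (nat_lit 124143)))))) (mul (pow s3 2) (k (.ofNat (nat_lit 166214)))))) (mul (pow s3 3) (k (.ofNat (nat_lit 345402)))))) (mul (pow s3 4) (k (.negSucc (nat_lit 235585)))))) (mul (pow s3 5) (k (.negSucc (nat_lit 97829))))))) (add (mul s2 (add (mul s2 (add (mul s2 (add (mul s2 (add (mul s2 (add (mul s2 (k (.ofNat (nat_lit 24464)))) (mul s3 (k (.negSucc (nat_lit 8559)))))) (mul (pow s3 2) (k (.ofNat (nat_lit 228140)))))) (mul (pow s3 3) (k (.negSucc (nat_lit 379129)))))) (mul (pow s3 4) (k (.ofNat (nat_lit 305860)))))) (mul (pow s3 5) (k (.negSucc (nat_lit 40259)))))) (mul (pow s3 6) (k (.negSucc (nat_lit 287))))))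
def kr2103 : PExp := add (mul s0 (add (mul s0 (add (mul s0 (add (mul s0 (add (mul s0 (add (mul s0 (k (.ofNat (nat_lit 2232)))) (add (mul s1 (k (.ofNat (nat_lit 152170)))) (add (mul s2 (k (.negSucc (nat_lit 112807)))) (mul s3 (k (.ofNat (nat_lit 37368)))))))) (add (mul s1 (add (mul s1 (k (.negSucc (nat_lit 436791)))) (add (mul s2 (k (.negSucc (nat_lit 171619)))) (mul s3 (k (.negSucc (nat_lit 509659))))))) (add (mul s2 (add (mul s2 (k (.ofNat (nat_lit 345402)))) (mul s3 (k (.ofNat (nat_lit 392832)))))) (mul (pow s3 2) (k (.negSucc (nat_lit 218831)))))))) (add (mul s1 (add (mul s1 (add (mul s1 (k (.ofNat (nat_lit 147062)))) (add (mul s2 (k (.ofNat (nat_lit 2210688)))) (mul s3 (k (.negSucc (nat_lit 20809))))))) (add (mul s2 (add (mul s2 (k (.negSucc (nat_lit 1612883)))) (mul s3 (k (.negSucc (nat_lit 985891)))))) (mul (pow s3 2) (k (.ofNat (nat_lit 2030976))))))) (add (mul s2 (add (mul s2 (add (mul s2 (k (.negSucc (nat_lit 188215))))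 (mul s3 (k (.ofNat (nat_lit 779604)))))) (mul (pow s3 2) (k (.negSucc (nat_lit 1718075)))))) (mul (pow s3 3) (k (.ofNat (nat_lit 145386)))))))) (add (mul s1 (add (mul s1 (add (mul s1 (add (mul s1 (k (.ofNat (nat_lit 162340)))) (add (mul s2 (k (.negSucc (nat_lit 1394593)))) (mul s3 (k (.ofNat (nat_lit 80396))))))) (add (mul s2 (add (mul s2 (k (.negSucc (nat_lit 774799)))) (mul s3 (k (.negSucc (nat_lit 156185)))))) (mul (pow s3 2) (k (.ofNat (nat_lit 294672))))))) (add (mul s2 (add (mul s2 (add (mul s2 (k (.ofNat (nat_lit 1381968)))) (mul s3 (k (.ofNat (nat_lit 2200456)))))) (mul (pow s3 2) (k (.ofNat (nat_lit 90034)))))) (mul (pow s3 3) (k (.negSucc (nat_lit 2165303))))))) (add (mul s2 (add (mul s2 (add (mul s2 (add (mul s2 (k (.ofNat (nat_lit 70040)))) (mul s3 (k (.negSucc (nat_lit 1394593)))))) (mul (pow s3 2) (k (.negSucc (nat_lit 89533)))))) (mul (pow s3 3) (k (.ofNat (nat_lit 1730576)))))) (mul (pow s3 4) (k (.ofNat (nat_lit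 102302)))))))) (add (mul s1 (add (mul s1 (add (mul s1 (add (mul s1 (add (mul s1 (k (.negSucc (nat_lit 104501)))) (add (mul s2 (k (.ofNat (nat_lit 74158)))) (mul s3 (k (.ofNat (nat_lit 202882))))))) (add (mul s2 (add (mul s2 (k (.ofNat (nat_lit 239942)))) (mul s3 (k (.ofNat (nat_lit 708250)))))) (mul (pow s3 2) (k (.negSucc (nat_lit 20809))))))) (add (mul s2 (add (mul s2 (add (mul s2 (k (.ofNat (nat_lit 589078)))) (mul s3 (k (.negSucc (nat_lit 1001959)))))) (mul (pow s3 2) (k (.negSucc (nat_lit 109261)))))) (mul (pow s3 3) (k (.negSucc (nat_lit 800143))))))) (add (mul s2 (add (mul s2 (add (mul s2 (add (mul s2 (k (.negSucc (nat_lit 515387)))) (mul s3 (k (.negSucc (nat_lit 223871)))))) (mul (pow s3 2) (k (.negSucc (nat_lit 1196751)))))) (mul (pow s3 3) (k (.ofNat (nat_lit 590038)))))) (mul (pow s3 4) (k (.ofNat (nat_lit 1004130))))))) (add (mul s2 (add (mul s2 (add (mul s2 (add (mul s2 (add (mul s2 (k (.ofNat (nat_lit 13380)))) (mul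 s3 (k (.negSucc (nat_lit 279931)))))) (mul (pow s3 2) (k (.ofNat (nat_lit 2210688)))))) (mul (pow s3 3) (k (.negSucc (nat_lit 1476847)))))) (mul (pow s3 4) (k (.negSucc (nat_lit 244513)))))) (mul (pow s3 5) (k (.negSucc (nat_lit 75581)))))))) (add (mul s1 (add (mul s1 (add (mul s1 (add (mul s1 (add (mul s1 (add (mul s1 (k (.negSucc (nat_lit 7007)))) (add (mul s2 (k (.ofNat (nat_lit 8716)))) (mul s3 (k (.ofNat (nat_lit 143646))))))) (add (mul s2 (add (mul s2 (k (.ofNat (nat_lit 244430)))) (mul s3 (k (.negSucc (nat_lit 363083)))))) (mul (pow s3 2) (k (.negSucc (nat_lit 580169))))))) (add (mul s2 (add (mul s2 (add (mul s2 (k (.negSucc (nat_lit 409991)))) (mul s3 (k (.negSucc (nat_lit 257311)))))) (mul (pow s3 2) (k (.ofNat (nat_lit 779604)))))) (mul (pow s3 3) (k (.ofNat (nat_lit 538020))))))) (add (mul s2 (add (mul s2 (add (mul s2 (add (mul s2 (k (.ofNat (nat_lit 84180)))) (mul s3 (k (.ofNat (nat_lit 239942)))))) (mul (pow s3 2) (k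 (.ofNat (nat_lit 1088034)))))) (mul (pow s3 3) (k (.negSucc (nat_lit 1476847)))))) (mul (pow s3 4) (k (.ofNat (nat_lit 179086))))))) (add (mul s2 (add (mul s2 (add (mul s2 (add (mul s2 (add (mul s2 (k (.ofNat (nat_lit 12686)))) (mul s3 (k (.ofNat (nat_lit 377650)))))) (mul (pow s3 2) (k (.negSucc (nat_lit 1612883)))))) (mul (pow s3 3) (k (.ofNat (nat_lit 1172184)))))) (mul (pow s3 4) (k (.ofNat (nat_lit 85490)))))) (mul (pow s3 5) (k (.negSucc (nat_lit 162855))))))) (add (mul s2 (add (mul s2 (add (mul s2 (add (mul s2 (add (mul s2 (add (mul s2 (k (.negSucc (nat_lit 6683)))) (mul s3 (k (.ofNat (nat_lit 19402)))))) (mul (pow s3 2) (k (.ofNat (nat_lit 81228)))))) (mul (pow s3 3) (k (.negSucc (nat_lit 240581)))))) (mul (pow s3 4) (k (.ofNat (nat_lit 166214)))))) (mul (pow s3 5) (k (.negSucc (nat_lit 28009)))))) (mul (pow s3 6) (k (.ofNat (nat_lit 10836))))))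
def kr2112 : PExp := add (mul s0 (add (mul s0 (add (mul s0 (add (mul s0 (add (mul s0 (add (mul s0 (k (.negSucc (nat_lit 28991)))) (add (mul s1 (k (.ofNat (nat_lit 40932)))) (add (mul s2 (k (.ofNat (nat_lit 40932)))) (mul s3 (k (.ofNat (nat_lit 115408)))))))) (add (mul s1 (add (mul s1 (k (.ofNat (nat_lit 281134)))) (add (mul s2 (k (.negSucc (nat_lit 38315)))) (mul s3 (k (.negSucc (nat_lit 458507))))))) (add (mul s2 (add (mul s2 (k (.ofNat (nat_lit 281134)))) (mul s3 (k (.negSucc (nat_lit 458507)))))) (mul (pow s3 2) (k (.negSucc (nat_lit 74083)))))))) (add (mul s1 (add (mul s1 (add (mul s1 (k (.negSucc (nat_lit 367665)))) (add (mul s2 (k (.negSucc (nat_lit 1196751)))) (mul s3 (k (.negSucc (nat_lit 109261))))))) (add (mul s2 (add (mul s2 (k (.negSucc (nat_lit 1196751)))) (mul s3 (k (.ofNat (nat_lit 3132240)))))) (mul (pow s3 2) (k (.ofNat (nat_lit 90034))))))) (add (mul s2 (add (mul s2 (add (mul s2 (k (.negSucc (nat_lit 367665))))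 (mul s3 (k (.negSucc (nat_lit 109261)))))) (mul (pow s3 2) (k (.ofNat (nat_lit 90034)))))) (mul (pow s3 3) (k (.ofNat (nat_lit 270184)))))))) (add (mul s1 (add (mul s1 (add (mul s1 (add (mul s1 (k (.negSucc (nat_lit 37241)))) (add (mul s2 (k (.ofNat (nat_lit 2200456)))) (mul s3 (k (.negSucc (nat_lit 156185))))))) (add (mul s2 (add (mul s2 (k (.negSucc (nat_lit 426863)))) (mul s3 (k (.negSucc (nat_lit 235171)))))) (mul (pow s3 2) (k (.ofNat (nat_lit 794428))))))) (add (mul s2 (add (mul s2 (add (mul s2 (k (.ofNat (nat_lit 2200456)))) (mul s3 (k (.negSucc (nat_lit 235171)))))) (mul (pow s3 2) (k (.negSucc (nat_lit 4491279)))))) (mul (pow s3 3) (k (.ofNat (nat_lit 90034))))))) (add (mul s2 (add (mul s2 (add (mul s2 (add (mul s2 (k (.negSucc (nat_lit 37241)))) (mul s3 (k (.negSucc (nat_lit 156185)))))) (mul (pow s3 2) (k (.ofNat (nat_lit 794428)))))) (mul (pow s3 3) (k (.ofNat (nat_lit 90034)))))) (mul (pow s3 4) (k (.negSucc (nat_lit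 74083)))))))) (add (mul s1 (add (mul s1 (add (mul s1 (add (mul s1 (add (mul s1 (k (.negSucc (nat_lit 80517)))) (add (mul s2 (k (.ofNat (nat_lit 162200)))) (mul s3 (k (.ofNat (nat_lit 659104))))))) (add (mul s2 (add (mul s2 (k (.negSucc (nat_lit 1001959)))) (mul s3 (k (.negSucc (nat_lit 3069375)))))) (mul (pow s3 2) (k (.negSucc (nat_lit 156185))))))) (add (mul s2 (add (mul s2 (add (mul s2 (k (.negSucc (nat_lit 1001959)))) (mul s3 (k (.ofNat (nat_lit 5191280)))))) (mul (pow s3 2) (k (.negSucc (nat_lit 235171)))))) (mul (pow s3 3) (k (.negSucc (nat_lit 109261))))))) (add (mul s2 (add (mul s2 (add (mul s2 (add (mul s2 (k (.ofNat (nat_lit 162200)))) (mul s3 (k (.negSucc (nat_lit 3069375)))))) (mul (pow s3 2) (k (.negSucc (nat_lit 235171)))))) (mul (pow s3 3) (k (.ofNat (nat_lit 3132240)))))) (mul (pow s3 4) (k (.negSucc (nat_lit 458507))))))) (add (mul s2 (add (mul s2 (add (mul s2 (add (mul s2 (add (mul s2 (k (.negSucc (nat_lit 80517))))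 (mul s3 (k (.ofNat (nat_lit 659104)))))) (mul (pow s3 2) (k (.negSucc (nat_lit 156185)))))) (mul (pow s3 3) (k (.negSucc (nat_lit 109261)))))) (mul (pow s3 4) (k (.negSucc (nat_lit 458507)))))) (mul (pow s3 5) (k (.ofNat (nat_lit 115408)))))))) (add (mul s1 (add (mul s1 (add (mul s1 (add (mul s1 (add (mul s1 (add (mul s1 (k (.ofNat (nat_lit 27980)))) (add (mul s2 (k (.negSucc (nat_lit 101143)))) (mul s3 (k (.negSucc (nat_lit 80517))))))) (add (mul s2 (add (mul s2 (k (.negSucc (nat_lit 256599)))) (mul s3 (k (.ofNat (nat_lit 162200)))))) (mul (pow s3 2) (k (.negSucc (nat_lit 37241))))))) (add (mul s2 (add (mul s2 (add (mul s2 (k (.ofNat (nat_lit 1185888)))) (mul s3 (k (.negSucc (nat_lit 1001959)))))) (mul (pow s3 2) (k (.ofNat (nat_lit 2200456)))))) (mul (pow s3 3) (k (.negSucc (nat_lit 367665))))))) (add (mul s2 (add (mul s2 (add (mul s2 (add (mul s2 (k (.negSucc (nat_lit 256599)))) (mul s3 (k (.negSucc (nat_lit 1001959)))))) (mul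 (pow s3 2) (k (.negSucc (nat_lit 426863)))))) (mul (pow s3 3) (k (.negSucc (nat_lit 1196751)))))) (mul (pow s3 4) (k (.ofNat (nat_lit 281134))))))) (add (mul s2 (add (mul s2 (add (mul s2 (add (mul s2 (add (mul s2 (k (.negSucc (nat_lit 101143)))) (mul s3 (k (.ofNat (nat_lit 162200)))))) (mul (pow s3 2) (k (.ofNat (nat_lit 2200456)))))) (mul (pow s3 3) (k (.negSucc (nat_lit 1196751)))))) (mul (pow s3 4) (k (.negSucc (nat_lit 38315)))))) (mul (pow s3 5) (k (.ofNat (nat_lit 40932))))))) (add (mul s2 (add (mul s2 (add (mul s2 (add (mul s2 (add (mul s2 (add (mul s2 (k (.ofNat (nat_lit 27980)))) (mul s3 (k (.negSucc (nat_lit 80517)))))) (mul (pow s3 2) (k (.negSucc (nat_lit 37241)))))) (mul (pow s3 3) (k (.negSucc (nat_lit 367665)))))) (mul (pow s3 4) (k (.ofNat (nat_lit 281134)))))) (mul (pow s3 5) (k (.ofNat (nat_lit 40932)))))) (mul (pow s3 6) (k (.negSucc (nat_lit 28991))))))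
def kr2121 : PExp := add (mul s0 (add (mul s0 (add (mul s0 (add (mul s0 (add (mul s0 (add (mul s0 (k (.negSucc (nat_lit 28991)))) (add (mul s1 (k (.ofNat (nat_lit 40932)))) (add (mul s2 (k (.ofNat (nat_lit 115408)))) (mul s3 (k (.ofNat (nat_lit 40932)))))))) (add (mul s1 (add (mul s1 (k (.ofNat (nat_lit 281134)))) (add (mul s2 (k (.negSucc (nat_lit 458507)))) (mul s3 (k (.negSucc (nat_lit 38315))))))) (add (mul s2 (add (mul s2 (k (.negSucc (nat_lit 74083)))) (mul s3 (k (.negSucc (nat_lit 458507)))))) (mul (pow s3 2) (k (.ofNat (nat_lit 281134)))))))) (add (mul s1 (add (mul s1 (add (mul s1 (k (.negSucc (nat_lit 367665)))) (add (mul s2 (k (.negSucc (nat_lit 109261)))) (mul s3 (k (.negSucc (nat_lit 1196751))))))) (add (mul s2 (add (mul s2 (k (.ofNat (nat_lit 90034)))) (mul s3 (k (.ofNat (nat_lit 3132240)))))) (mul (pow s3 2) (k (.negSucc (nat_lit 1196751))))))) (add (mul s2 (add (mul s2 (add (mul s2 (k (.ofNat (nat_lit 270184)))) (mul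 s3 (k (.ofNat (nat_lit 90034)))))) (mul (pow s3 2) (k (.negSucc (nat_lit 109261)))))) (mul (pow s3 3) (k (.negSucc (nat_lit 367665)))))))) (add (mul s1 (add (mul s1 (add (mul s1 (add (mul s1 (k (.negSucc (nat_lit 37241)))) (add (mul s2 (k (.negSucc (nat_lit 156185)))) (mul s3 (k (.ofNat (nat_lit 2200456))))))) (add (mul s2 (add (mul s2 (k (.ofNat (nat_lit 794428)))) (mul s3 (k (.negSucc (nat_lit 235171)))))) (mul (pow s3 2) (k (.negSucc (nat_lit 426863))))))) (add (mul s2 (add (mul s2 (add (mul s2 (k (.ofNat (nat_lit 90034)))) (mul s3 (k (.negSucc (nat_lit 4491279)))))) (mul (pow s3 2) (k (.negSucc (nat_lit 235171)))))) (mul (pow s3 3) (k (.ofNat (nat_lit 2200456))))))) (add (mul s2 (add (mul s2 (add (mul s2 (add (mul s2 (k (.negSucc (nat_lit 74083)))) (mul s3 (k (.ofNat (nat_lit 90034)))))) (mul (pow s3 2) (k (.ofNat (nat_lit 794428)))))) (mul (pow s3 3) (k (.negSucc (nat_lit 156185)))))) (mul (pow s3 4) (k (.negSucc (nat_lit 37241))))))))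 (add (mul s1 (add (mul s1 (add (mul s1 (add (mul s1 (add (mul s1 (k (.negSucc (nat_lit 80517)))) (add (mul s2 (k (.ofNat (nat_lit 659104)))) (mul s3 (k (.ofNat (nat_lit 162200))))))) (add (mul s2 (add (mul s2 (k (.negSucc (nat_lit 156185)))) (mul s3 (k (.negSucc (nat_lit 3069375)))))) (mul (pow s3 2) (k (.negSucc (nat_lit 1001959))))))) (add (mul s2 (add (mul s2 (add (mul s2 (k (.negSucc (nat_lit 109261)))) (mul s3 (k (.negSucc (nat_lit 235171)))))) (mul (pow s3 2) (k (.ofNat (nat_lit 5191280)))))) (mul (pow s3 3) (k (.negSucc (nat_lit 1001959))))))) (add (mul s2 (add (mul s2 (add (mul s2 (add (mul s2 (k (.negSucc (nat_lit 458507)))) (mul s3 (k (.ofNat (nat_lit 3132240)))))) (mul (pow s3 2) (k (.negSucc (nat_lit 235171)))))) (mul (pow s3 3) (k (.negSucc (nat_lit 3069375)))))) (mul (pow s3 4) (k (.ofNat (nat_lit 162200))))))) (add (mul s2 (add (mul s2 (add (mul s2 (add (mul s2 (add (mul s2 (k (.ofNat (nat_lit 115408)))) (mul s3 (k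 (.negSucc (nat_lit 458507)))))) (mul (pow s3 2) (k (.negSucc (nat_lit 109261)))))) (mul (pow s3 3) (k (.negSucc (nat_lit 156185)))))) (mul (pow s3 4) (k (.ofNat (nat_lit 659104)))))) (mul (pow s3 5) (k (.negSucc (nat_lit 80517)))))))) (add (mul s1 (add (mul s1 (add (mul s1 (add (mul s1 (add (mul s1 (add (mul s1 (k (.ofNat (nat_lit 27980)))) (add (mul s2 (k (.negSucc (nat_lit 80517)))) (mul s3 (k (.negSucc (nat_lit 101143))))))) (add (mul s2 (add (mul s2 (k (.negSucc (nat_lit 37241)))) (mul s3 (k (.ofNat (nat_lit 162200)))))) (mul (pow s3 2) (k (.negSucc (nat_lit 256599))))))) (add (mul s2 (add (mul s2 (add (mul s2 (k (.negSucc (nat_lit 367665)))) (mul s3 (k (.ofNat (nat_lit 2200456)))))) (mul (pow s3 2) (k (.negSucc (nat_lit 1001959)))))) (mul (pow s3 3) (k (.ofNat (nat_lit 1185888))))))) (add (mul s2 (add (mul s2 (add (mul s2 (add (mul s2 (k (.ofNat (nat_lit 281134)))) (mul s3 (k (.negSucc (nat_lit 1196751)))))) (mul (pow s3 2)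 (k (.negSucc (nat_lit 426863)))))) (mul (pow s3 3) (k (.negSucc (nat_lit 1001959)))))) (mul (pow s3 4) (k (.negSucc (nat_lit 256599))))))) (add (mul s2 (add (mul s2 (add (mul s2 (add (mul s2 (add (mul s2 (k (.ofNat (nat_lit 40932)))) (mul s3 (k (.negSucc (nat_lit 38315)))))) (mul (pow s3 2) (k (.negSucc (nat_lit 1196751)))))) (mul (pow s3 3) (k (.ofNat (nat_lit 2200456)))))) (mul (pow s3 4) (k (.ofNat (nat_lit 162200)))))) (mul (pow s3 5) (k (.negSucc (nat_lit 101143))))))) (add (mul s2 (add (mul s2 (add (mul s2 (add (mul s2 (add (mul s2 (add (mul s2 (k (.negSucc (nat_lit 28991)))) (mul s3 (k (.ofNat (nat_lit 40932)))))) (mul (pow s3 2) (k (.ofNat (nat_lit 281134)))))) (mul (pow s3 3) (k (.negSucc (nat_lit 367665)))))) (mul (pow s3 4) (k (.negSucc (nat_lit 37241)))))) (mul (pow s3 5) (k (.negSucc (nat_lit 80517)))))) (mul (pow s3 6) (k (.ofNat (nat_lit 27980))))))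
def kr2130 : PExp := add (mul s0 (add (mul s0 (add (mul s0 (add (mul s0 (add (mul s0 (add (mul s0 (k (.ofNat (nat_lit 2232)))) (add (mul s1 (k (.ofNat (nat_lit 152170)))) (add (mul s2 (k (.ofNat (nat_lit 37368)))) (mul s3 (k (.negSucc (nat_lit 112807)))))))) (add (mul s1 (add (mul s1 (k (.negSucc (nat_lit 436791)))) (add (mul s2 (k (.negSucc (nat_lit 509659)))) (mul s3 (k (.negSucc (nat_lit 171619))))))) (add (mul s2 (add (mul s2 (k (.negSucc (nat_lit 218831)))) (mul s3 (k (.ofNat (nat_lit 392832)))))) (mul (pow s3 2) (k (.ofNat (nat_lit 345402)))))))) (add (mul s1 (add (mul s1 (add (mul s1 (k (.ofNat (nat_lit 147062)))) (add (mul s2 (k (.negSucc (nat_lit 20809)))) (mul s3 (k (.ofNat (nat_lit 2210688))))))) (add (mul s2 (add (mul s2 (k (.ofNat (nat_lit 2030976)))) (mul s3 (k (.negSucc (nat_lit 985891)))))) (mul (pow s3 2) (k (.negSucc (nat_lit 1612883))))))) (add (mul s2 (add (mul s2 (add (mul s2 (k (.ofNat (nat_lit 145386)))) (mul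 s3 (k (.negSucc (nat_lit 1718075)))))) (mul (pow s3 2) (k (.ofNat (nat_lit 779604)))))) (mul (pow s3 3) (k (.negSucc (nat_lit 188215)))))))) (add (mul s1 (add (mul s1 (add (mul s1 (add (mul s1 (k (.ofNat (nat_lit 162340)))) (add (mul s2 (k (.ofNat (nat_lit 80396)))) (mul s3 (k (.negSucc (nat_lit 1394593))))))) (add (mul s2 (add (mul s2 (k (.ofNat (nat_lit 294672)))) (mul s3 (k (.negSucc (nat_lit 156185)))))) (mul (pow s3 2) (k (.negSucc (nat_lit 774799))))))) (add (mul s2 (add (mul s2 (add (mul s2 (k (.negSucc (nat_lit 2165303)))) (mul s3 (k (.ofNat (nat_lit 90034)))))) (mul (pow s3 2) (k (.ofNat (nat_lit 2200456)))))) (mul (pow s3 3) (k (.ofNat (nat_lit 1381968))))))) (add (mul s2 (add (mul s2 (add (mul s2 (add (mul s2 (k (.ofNat (nat_lit 102302)))) (mul s3 (k (.ofNat (nat_lit 1730576)))))) (mul (pow s3 2) (k (.negSucc (nat_lit 89533)))))) (mul (pow s3 3) (k (.negSucc (nat_lit 1394593)))))) (mul (pow s3 4) (k (.ofNat (nat_lit 70040))))))))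 (add (mul s1 (add (mul s1 (add (mul s1 (add (mul s1 (add (mul s1 (k (.negSucc (nat_lit 104501)))) (add (mul s2 (k (.ofNat (nat_lit 202882)))) (mul s3 (k (.ofNat (nat_lit 74158))))))) (add (mul s2 (add (mul s2 (k (.negSucc (nat_lit 20809)))) (mul s3 (k (.ofNat (nat_lit 708250)))))) (mul (pow s3 2) (k (.ofNat (nat_lit 239942))))))) (add (mul s2 (add (mul s2 (add (mul s2 (k (.negSucc (nat_lit 800143)))) (mul s3 (k (.negSucc (nat_lit 109261)))))) (mul (pow s3 2) (k (.negSucc (nat_lit 1001959)))))) (mul (pow s3 3) (k (.ofNat (nat_lit 589078))))))) (add (mul s2 (add (mul s2 (add (mul s2 (add (mul s2 (k (.ofNat (nat_lit 1004130)))) (mul s3 (k (.ofNat (nat_lit 590038)))))) (mul (pow s3 2) (k (.negSucc (nat_lit 1196751)))))) (mul (pow s3 3) (k (.negSucc (nat_lit 223871)))))) (mul (pow s3 4) (k (.negSucc (nat_lit 515387))))))) (add (mul s2 (add (mul s2 (add (mul s2 (add (mul s2 (add (mul s2 (k (.negSucc (nat_lit 75581)))) (mul s3 (k (.negSucc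 (nat_lit 244513)))))) (mul (pow s3 2) (k (.negSucc (nat_lit 1476847)))))) (mul (pow s3 3) (k (.ofNat (nat_lit 2210688)))))) (mul (pow s3 4) (k (.negSucc (nat_lit 279931)))))) (mul (pow s3 5) (k (.ofNat (nat_lit 13380)))))))) (add (mul s1 (add (mul s1 (add (mul s1 (add (mul s1 (add (mul s1 (add (mul s1 (k (.negSucc (nat_lit 7007)))) (add (mul s2 (k (.ofNat (nat_lit 143646)))) (mul s3 (k (.ofNat (nat_lit 8716))))))) (add (mul s2 (add (mul s2 (k (.negSucc (nat_lit 580169)))) (mul s3 (k (.negSucc (nat_lit 363083)))))) (mul (pow s3 2) (k (.ofNat (nat_lit 244430))))))) (add (mul s2 (add (mul s2 (add (mul s2 (k (.ofNat (nat_lit 538020)))) (mul s3 (k (.ofNat (nat_lit 779604)))))) (mul (pow s3 2) (k (.negSucc (nat_lit 257311)))))) (mul (pow s3 3) (k (.negSucc (nat_lit 409991))))))) (add (mul s2 (add (mul s2 (add (mul s2 (add (mul s2 (k (.ofNat (nat_lit 179086)))) (mul s3 (k (.negSucc (nat_lit 1476847)))))) (mul (pow s3 2) (k (.ofNat (nat_lit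 1088034)))))) (mul (pow s3 3) (k (.ofNat (nat_lit 239942)))))) (mul (pow s3 4) (k (.ofNat (nat_lit 84180))))))) (add (mul s2 (add (mul s2 (add (mul s2 (add (mul s2 (add (mul s2 (k (.negSucc (nat_lit 162855)))) (mul s3 (k (.ofNat (nat_lit 85490)))))) (mul (pow s3 2) (k (.ofNat (nat_lit 1172184)))))) (mul (pow s3 3) (k (.negSucc (nat_lit 1612883)))))) (mul (pow s3 4) (k (.ofNat (nat_lit 377650)))))) (mul (pow s3 5) (k (.ofNat (nat_lit 12686))))))) (add (mul s2 (add (mul s2 (add (mul s2 (add (mul s2 (add (mul s2 (add (mul s2 (k (.ofNat (nat_lit 10836)))) (mul s3 (k (.negSucc (nat_lit 28009)))))) (mul (pow s3 2) (k (.ofNat (nat_lit 166214)))))) (mul (pow s3 3) (k (.negSucc (nat_lit 240581)))))) (mul (pow s3 4) (k (.ofNat (nat_lit 81228)))))) (mul (pow s3 5) (k (.ofNat (nat_lit 19402)))))) (mul (pow s3 6) (k (.negSucc (nat_lit 6683))))))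
def kr2202 : PExp := add (mul s0 (add (mul s0 (add (mul s0 (add (mul s0 (add (mul s0 (add (mul s0 (k (.ofNat (nat_lit 33412)))) (add (mul s1 (k (.ofNat (nat_lit 18210)))) (add (mul s2 (k (.ofNat (nat_lit 130604)))) (mul s3 (k (.ofNat (nat_lit 18210)))))))) (add (mul s1 (add (mul s1 (k (.ofNat (nat_lit 444912)))) (add (mul s2 (k (.ofNat (nat_lit 207398)))) (mul s3 (k (.negSucc (nat_lit 789247))))))) (add (mul s2 (add (mul s2 (k (.negSucc (nat_lit 874175)))) (mul s3 (k (.ofNat (nat_lit 207398)))))) (mul (pow s3 2) (k (.ofNat (nat_lit 444912)))))))) (add (mul s1 (add (mul s1 (add (mul s1 (k (.negSucc (nat_lit 1010959)))) (add (mul s2 (k (.negSucc (nat_lit 89533)))) (mul s3 (k (.ofNat (nat_lit 294672))))))) (add (mul s2 (add (mul s2 (k (.ofNat (nat_lit 1088034)))) (mul s3 (k (.negSucc (nat_lit 846223)))))) (mul (pow s3 2) (k (.ofNat (nat_lit 294672))))))) (add (mul s2 (add (mul s2 (add (mul s2 (k (.ofNat (nat_lit 1026424)))) (mul s3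 (k (.ofNat (nat_lit 1088034)))))) (mul (pow s3 2) (k (.negSucc (nat_lit 89533)))))) (mul (pow s3 3) (k (.negSucc (nat_lit 1010959)))))))) (add (mul s1 (add (mul s1 (add (mul s1 (add (mul s1 (k (.ofNat (nat_lit 444912)))) (add (mul s2 (k (.negSucc (nat_lit 89533)))) (mul s3 (k (.ofNat (nat_lit 294672))))))) (add (mul s2 (add (mul s2 (k (.negSucc (nat_lit 1183023)))) (mul s3 (k (.ofNat (nat_lit 794428)))))) (mul (pow s3 2) (k (.ofNat (nat_lit 434976))))))) (add (mul s2 (add (mul s2 (add (mul s2 (k (.negSucc (nat_lit 774799)))) (mul s3 (k (.negSucc (nat_lit 426863)))))) (mul (pow s3 2) (k (.ofNat (nat_lit 794428)))))) (mul (pow s3 3) (k (.ofNat (nat_lit 294672))))))) (add (mul s2 (add (mul s2 (add (mul s2 (add (mul s2 (k (.negSucc (nat_lit 343231)))) (mul s3 (k (.negSucc (nat_lit 774799)))))) (mul (pow s3 2) (k (.negSucc (nat_lit 1183023)))))) (mul (pow s3 3) (k (.negSucc (nat_lit 89533)))))) (mul (pow s3 4) (k (.ofNat (nat_lit 444912))))))))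 (add (mul s1 (add (mul s1 (add (mul s1 (add (mul s1 (add (mul s1 (k (.ofNat (nat_lit 18210)))) (add (mul s2 (k (.ofNat (nat_lit 207398)))) (mul s3 (k (.negSucc (nat_lit 789247))))))) (add (mul s2 (add (mul s2 (k (.ofNat (nat_lit 1088034)))) (mul s3 (k (.negSucc (nat_lit 846223)))))) (mul (pow s3 2) (k (.ofNat (nat_lit 294672))))))) (add (mul s2 (add (mul s2 (add (mul s2 (k (.negSucc (nat_lit 774799)))) (mul s3 (k (.negSucc (nat_lit 426863)))))) (mul (pow s3 2) (k (.ofNat (nat_lit 794428)))))) (mul (pow s3 3) (k (.ofNat (nat_lit 294672))))))) (add (mul s2 (add (mul s2 (add (mul s2 (add (mul s2 (k (.ofNat (nat_lit 308164)))) (mul s3 (k (.ofNat (nat_lit 1919244)))))) (mul (pow s3 2) (k (.negSucc (nat_lit 426863)))))) (mul (pow s3 3) (k (.negSucc (nat_lit 846223)))))) (mul (pow s3 4) (k (.negSucc (nat_lit 789247))))))) (add (mul s2 (add (mul s2 (add (mul s2 (add (mul s2 (add (mul s2 (k (.ofNat (nat_lit 17020)))) (mul s3 (k (.ofNat (nat_lit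 308164)))))) (mul (pow s3 2) (k (.negSucc (nat_lit 774799)))))) (mul (pow s3 3) (k (.ofNat (nat_lit 1088034)))))) (mul (pow s3 4) (k (.ofNat (nat_lit 207398)))))) (mul (pow s3 5) (k (.ofNat (nat_lit 18210)))))))) (add (mul s1 (add (mul s1 (add (mul s1 (add (mul s1 (add (mul s1 (add (mul s1 (k (.ofNat (nat_lit 33412)))) (add (mul s2 (k (.ofNat (nat_lit 130604)))) (mul s3 (k (.ofNat (nat_lit 18210))))))) (add (mul s2 (add (mul s2 (k (.negSucc (nat_lit 874175)))) (mul s3 (k (.ofNat (nat_lit 207398)))))) (mul (pow s3 2) (k (.ofNat (nat_lit 444912))))))) (add (mul s2 (add (mul s2 (add (mul s2 (k (.ofNat (nat_lit 1026424)))) (mul s3 (k (.ofNat (nat_lit 1088034)))))) (mul (pow s3 2) (k (.negSucc (nat_lit 89533)))))) (mul (pow s3 3) (k (.negSucc (nat_lit 1010959))))))) (add (mul s2 (add (mul s2 (add (mul s2 (add (mul s2 (k (.negSucc (nat_lit 343231)))) (mul s3 (k (.negSucc (nat_lit 774799)))))) (mul (pow s3 2) (k (.negSucc (nat_lit 1183023))))))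 (mul (pow s3 3) (k (.negSucc (nat_lit 89533)))))) (mul (pow s3 4) (k (.ofNat (nat_lit 444912))))))) (add (mul s2 (add (mul s2 (add (mul s2 (add (mul s2 (add (mul s2 (k (.ofNat (nat_lit 17020)))) (mul s3 (k (.ofNat (nat_lit 308164)))))) (mul (pow s3 2) (k (.negSucc (nat_lit 774799)))))) (mul (pow s3 3) (k (.ofNat (nat_lit 1088034)))))) (mul (pow s3 4) (k (.ofNat (nat_lit 207398)))))) (mul (pow s3 5) (k (.ofNat (nat_lit 18210))))))) (add (mul s2 (add (mul s2 (add (mul s2 (add (mul s2 (add (mul s2 (add (mul s2 (k (.ofNat (nat_lit 3456)))) (mul s3 (k (.ofNat (nat_lit 17020)))))) (mul (pow s3 2) (k (.negSucc (nat_lit 343231)))))) (mul (pow s3 3) (k (.ofNat (nat_lit 1026424)))))) (mul (pow s3 4) (k (.negSucc (nat_lit 874175)))))) (mul (pow s3 5) (k (.ofNat (nat_lit 130604)))))) (mul (pow s3 6) (k (.ofNat (nat_lit 33412))))))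
def kr2211 : PExp := add (mul s0 (add (mul s0 (add (mul s0 (add (mul s0 (add (mul s0 (add (mul s0 (k (.negSucc (nat_lit 28991)))) (add (mul s1 (k (.ofNat (nat_lit 115408)))) (add (mul s2 (k (.ofNat (nat_lit 40932)))) (mul s3 (k (.ofNat (nat_lit 40932)))))))) (add (mul s1 (add (mul s1 (k (.negSucc (nat_lit 74083)))) (add (mul s2 (k (.negSucc (nat_lit 458507)))) (mul s3 (k (.negSucc (nat_lit 458507))))))) (add (mul s2 (add (mul s2 (k (.ofNat (nat_lit 281134)))) (mul s3 (k (.negSucc (nat_lit 38315)))))) (mul (pow s3 2) (k (.ofNat (nat_lit 281134)))))))) (add (mul s1 (add (mul s1 (add (mul s1 (k (.ofNat (nat_lit 270184)))) (add (mul s2 (k (.ofNat (nat_lit 90034)))) (mul s3 (k (.ofNat (nat_lit 90034))))))) (add (mul s2 (add (mul s2 (k (.negSucc (nat_lit 109261)))) (mul s3 (k (.ofNat (nat_lit 3132240)))))) (mul (pow s3 2) (k (.negSucc (nat_lit 109261))))))) (add (mul s2 (add (mul s2 (add (mul s2 (k (.negSucc (nat_lit 367665)))) (mul s3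 (k (.negSucc (nat_lit 1196751)))))) (mul (pow s3 2) (k (.negSucc (nat_lit 1196751)))))) (mul (pow s3 3) (k (.negSucc (nat_lit 367665)))))))) (add (mul s1 (add (mul s1 (add (mul s1 (add (mul s1 (k (.negSucc (nat_lit 74083)))) (add (mul s2 (k (.ofNat (nat_lit 90034)))) (mul s3 (k (.ofNat (nat_lit 90034))))))) (add (mul s2 (add (mul s2 (k (.ofNat (nat_lit 794428)))) (mul s3 (k (.negSucc (nat_lit 4491279)))))) (mul (pow s3 2) (k (.ofNat (nat_lit 794428))))))) (add (mul s2 (add (mul s2 (add (mul s2 (k (.negSucc (nat_lit 156185)))) (mul s3 (k (.negSucc (nat_lit 235171)))))) (mul (pow s3 2) (k (.negSucc (nat_lit 235171)))))) (mul (pow s3 3) (k (.negSucc (nat_lit 156185))))))) (add (mul s2 (add (mul s2 (add (mul s2 (add (mul s2 (k (.negSucc (nat_lit 37241)))) (mul s3 (k (.ofNat (nat_lit 2200456)))))) (mul (pow s3 2) (k (.negSucc (nat_lit 426863)))))) (mul (pow s3 3) (k (.ofNat (nat_lit 2200456)))))) (mul (pow s3 4) (k (.negSucc (nat_lit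 37241)))))))) (add (mul s1 (add (mul s1 (add (mul s1 (add (mul s1 (add (mul s1 (k (.ofNat (nat_lit 115408)))) (add (mul s2 (k (.negSucc (nat_lit 458507)))) (mul s3 (k (.negSucc (nat_lit 458507))))))) (add (mul s2 (add (mul s2 (k (.negSucc (nat_lit 109261)))) (mul s3 (k (.ofNat (nat_lit 3132240)))))) (mul (pow s3 2) (k (.negSucc (nat_lit 109261))))))) (add (mul s2 (add (mul s2 (add (mul s2 (k (.negSucc (nat_lit 156185)))) (mul s3 (k (.negSucc (nat_lit 235171)))))) (mul (pow s3 2) (k (.negSucc (nat_lit 235171)))))) (mul (pow s3 3) (k (.negSucc (nat_lit 156185))))))) (add (mul s2 (add (mul s2 (add (mul s2 (add (mul s2 (k (.ofNat (nat_lit 659104)))) (mul s3 (k (.negSucc (nat_lit 3069375)))))) (mul (pow s3 2) (k (.ofNat (nat_lit 5191280)))))) (mul (pow s3 3) (k (.negSucc (nat_lit 3069375)))))) (mul (pow s3 4) (k (.ofNat (nat_lit 659104))))))) (add (mul s2 (add (mul s2 (add (mul s2 (add (mul s2 (add (mul s2 (k (.negSucc (nat_lit 80517))))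 (mul s3 (k (.ofNat (nat_lit 162200)))))) (mul (pow s3 2) (k (.negSucc (nat_lit 1001959)))))) (mul (pow s3 3) (k (.negSucc (nat_lit 1001959)))))) (mul (pow s3 4) (k (.ofNat (nat_lit 162200)))))) (mul (pow s3 5) (k (.negSucc (nat_lit 80517)))))))) (add (mul s1 (add (mul s1 (add (mul s1 (add (mul s1 (add (mul s1 (add (mul s1 (k (.negSucc (nat_lit 28991)))) (add (mul s2 (k (.ofNat (nat_lit 40932)))) (mul s3 (k (.ofNat (nat_lit 40932))))))) (add (mul s2 (add (mul s2 (k (.ofNat (nat_lit 281134)))) (mul s3 (k (.negSucc (nat_lit 38315)))))) (mul (pow s3 2) (k (.ofNat (nat_lit 281134))))))) (add (mul s2 (add (mul s2 (add (mul s2 (k (.negSucc (nat_lit 367665)))) (mul s3 (k (.negSucc (nat_lit 1196751)))))) (mul (pow s3 2) (k (.negSucc (nat_lit 1196751)))))) (mul (pow s3 3) (k (.negSucc (nat_lit 367665))))))) (add (mul s2 (add (mul s2 (add (mul s2 (add (mul s2 (k (.negSucc (nat_lit 37241)))) (mul s3 (k (.ofNat (nat_lit 2200456)))))) (mul (pow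 s3 2) (k (.negSucc (nat_lit 426863)))))) (mul (pow s3 3) (k (.ofNat (nat_lit 2200456)))))) (mul (pow s3 4) (k (.negSucc (nat_lit 37241))))))) (add (mul s2 (add (mul s2 (add (mul s2 (add (mul s2 (add (mul s2 (k (.negSucc (nat_lit 80517)))) (mul s3 (k (.ofNat (nat_lit 162200)))))) (mul (pow s3 2) (k (.negSucc (nat_lit 1001959)))))) (mul (pow s3 3) (k (.negSucc (nat_lit 1001959)))))) (mul (pow s3 4) (k (.ofNat (nat_lit 162200)))))) (mul (pow s3 5) (k (.negSucc (nat_lit 80517))))))) (add (mul s2 (add (mul s2 (add (mul s2 (add (mul s2 (add (mul s2 (add (mul s2 (k (.ofNat (nat_lit 27980)))) (mul s3 (k (.negSucc (nat_lit 101143)))))) (mul (pow s3 2) (k (.negSucc (nat_lit 256599)))))) (mul (pow s3 3) (k (.ofNat (nat_lit 1185888)))))) (mul (pow s3 4) (k (.negSucc (nat_lit 256599)))))) (mul (pow s3 5) (k (.negSucc (nat_lit 101143)))))) (mul (pow s3 6) (k (.ofNat (nat_lit 27980))))))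
def kr2220 : PExp := add (mul s0 (add (mul s0 (add (mul s0 (add (mul s0 (add (mul s0 (add (mul s0 (k (.ofNat (nat_lit 33412)))) (add (mul s1 (k (.ofNat (nat_lit 18210)))) (add (mul s2 (k (.ofNat (nat_lit 18210)))) (mul s3 (k (.ofNat (nat_lit 130604)))))))) (add (mul s1 (add (mul s1 (k (.ofNat (nat_lit 444912)))) (add (mul s2 (k (.negSucc (nat_lit 789247)))) (mul s3 (k (.ofNat (nat_lit 207398))))))) (add (mul s2 (add (mul s2 (k (.ofNat (nat_lit 444912)))) (mul s3 (k (.ofNat (nat_lit 207398)))))) (mul (pow s3 2) (k (.negSucc (nat_lit 874175)))))))) (add (mul s1 (add (mul s1 (add (mul s1 (k (.negSucc (nat_lit 1010959)))) (add (mul s2 (k (.ofNat (nat_lit 294672)))) (mul s3 (k (.negSucc (nat_lit 89533))))))) (add (mul s2 (add (mul s2 (k (.ofNat (nat_lit 294672)))) (mul s3 (k (.negSucc (nat_lit 846223)))))) (mul (pow s3 2) (k (.ofNat (nat_lit 1088034))))))) (add (mul s2 (add (mul s2 (add (mul s2 (k (.negSucc (nat_lit 1010959)))) (mul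 s3 (k (.negSucc (nat_lit 89533)))))) (mul (pow s3 2) (k (.ofNat (nat_lit 1088034)))))) (mul (pow s3 3) (k (.ofNat (nat_lit 1026424)))))))) (add (mul s1 (add (mul s1 (add (mul s1 (add (mul s1 (k (.ofNat (nat_lit 444912)))) (add (mul s2 (k (.ofNat (nat_lit 294672)))) (mul s3 (k (.negSucc (nat_lit 89533))))))) (add (mul s2 (add (mul s2 (k (.ofNat (nat_lit 434976)))) (mul s3 (k (.ofNat (nat_lit 794428)))))) (mul (pow s3 2) (k (.negSucc (nat_lit 1183023))))))) (add (mul s2 (add (mul s2 (add (mul s2 (k (.ofNat (nat_lit 294672)))) (mul s3 (k (.ofNat (nat_lit 794428)))))) (mul (pow s3 2) (k (.negSucc (nat_lit 426863)))))) (mul (pow s3 3) (k (.negSucc (nat_lit 774799))))))) (add (mul s2 (add (mul s2 (add (mul s2 (add (mul s2 (k (.ofNat (nat_lit 444912)))) (mul s3 (k (.negSucc (nat_lit 89533)))))) (mul (pow s3 2) (k (.negSucc (nat_lit 1183023)))))) (mul (pow s3 3) (k (.negSucc (nat_lit 774799)))))) (mul (pow s3 4) (k (.negSucc (nat_lit 343231))))))))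 (add (mul s1 (add (mul s1 (add (mul s1 (add (mul s1 (add (mul s1 (k (.ofNat (nat_lit 18210)))) (add (mul s2 (k (.negSucc (nat_lit 789247)))) (mul s3 (k (.ofNat (nat_lit 207398))))))) (add (mul s2 (add (mul s2 (k (.ofNat (nat_lit 294672)))) (mul s3 (k (.negSucc (nat_lit 846223)))))) (mul (pow s3 2) (k (.ofNat (nat_lit 1088034))))))) (add (mul s2 (add (mul s2 (add (mul s2 (k (.ofNat (nat_lit 294672)))) (mul s3 (k (.ofNat (nat_lit 794428)))))) (mul (pow s3 2) (k (.negSucc (nat_lit 426863)))))) (mul (pow s3 3) (k (.negSucc (nat_lit 774799))))))) (add (mul s2 (add (mul s2 (add (mul s2 (add (mul s2 (k (.negSucc (nat_lit 789247)))) (mul s3 (k (.negSucc (nat_lit 846223)))))) (mul (pow s3 2) (k (.negSucc (nat_lit 426863)))))) (mul (pow s3 3) (k (.ofNat (nat_lit 1919244)))))) (mul (pow s3 4) (k (.ofNat (nat_lit 308164))))))) (add (mul s2 (add (mul s2 (add (mul s2 (add (mul s2 (add (mul s2 (k (.ofNat (nat_lit 18210)))) (mul s3 (k (.ofNat (nat_lit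 207398)))))) (mul (pow s3 2) (k (.ofNat (nat_lit 1088034)))))) (mul (pow s3 3) (k (.negSucc (nat_lit 774799)))))) (mul (pow s3 4) (k (.ofNat (nat_lit 308164)))))) (mul (pow s3 5) (k (.ofNat (nat_lit 17020)))))))) (add (mul s1 (add (mul s1 (add (mul s1 (add (mul s1 (add (mul s1 (add (mul s1 (k (.ofNat (nat_lit 33412)))) (add (mul s2 (k (.ofNat (nat_lit 18210)))) (mul s3 (k (.ofNat (nat_lit 130604))))))) (add (mul s2 (add (mul s2 (k (.ofNat (nat_lit 444912)))) (mul s3 (k (.ofNat (nat_lit 207398)))))) (mul (pow s3 2) (k (.negSucc (nat_lit 874175))))))) (add (mul s2 (add (mul s2 (add (mul s2 (k (.negSucc (nat_lit 1010959)))) (mul s3 (k (.negSucc (nat_lit 89533)))))) (mul (pow s3 2) (k (.ofNat (nat_lit 1088034)))))) (mul (pow s3 3) (k (.ofNat (nat_lit 1026424))))))) (add (mul s2 (add (mul s2 (add (mul s2 (add (mul s2 (k (.ofNat (nat_lit 444912)))) (mul s3 (k (.negSucc (nat_lit 89533)))))) (mul (pow s3 2) (k (.negSucc (nat_lit 1183023))))))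 (mul (pow s3 3) (k (.negSucc (nat_lit 774799)))))) (mul (pow s3 4) (k (.negSucc (nat_lit 343231))))))) (add (mul s2 (add (mul s2 (add (mul s2 (add (mul s2 (add (mul s2 (k (.ofNat (nat_lit 18210)))) (mul s3 (k (.ofNat (nat_lit 207398)))))) (mul (pow s3 2) (k (.ofNat (nat_lit 1088034)))))) (mul (pow s3 3) (k (.negSucc (nat_lit 774799)))))) (mul (pow s3 4) (k (.ofNat (nat_lit 308164)))))) (mul (pow s3 5) (k (.ofNat (nat_lit 17020))))))) (add (mul s2 (add (mul s2 (add (mul s2 (add (mul s2 (add (mul s2 (add (mul s2 (k (.ofNat (nat_lit 33412)))) (mul s3 (k (.ofNat (nat_lit 130604)))))) (mul (pow s3 2) (k (.negSucc (nat_lit 874175)))))) (mul (pow s3 3) (k (.ofNat (nat_lit 1026424)))))) (mul (pow s3 4) (k (.negSucc (nat_lit 343231)))))) (mul (pow s3 5) (k (.ofNat (nat_lit 17020)))))) (mul (pow s3 6) (k (.ofNat (nat_lit 3456))))))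
def kr2301 : PExp := add (mul s0 (add (mul s0 (add (mul s0 (add (mul s0 (add (mul s0 (add (mul s0 (k (.ofNat (nat_lit 2232)))) (add (mul s1 (k (.ofNat (nat_lit 37368)))) (add (mul s2 (k (.negSucc (nat_lit 112807)))) (mul s3 (k (.ofNat (nat_lit 152170)))))))) (add (mul s1 (add (mul s1 (k (.negSucc (nat_lit 218831)))) (add (mul s2 (k (.ofNat (nat_lit 392832)))) (mul s3 (k (.negSucc (nat_lit 509659))))))) (add (mul s2 (add (mul s2 (k (.ofNat (nat_lit 345402)))) (mul s3 (k (.negSucc (nat_lit 171619)))))) (mul (pow s3 2) (k (.negSucc (nat_lit 436791)))))))) (add (mul s1 (add (mul s1 (add (mul s1 (k (.ofNat (nat_lit 145386)))) (add (mul s2 (k (.negSucc (nat_lit 1718075)))) (mul s3 (k (.ofNat (nat_lit 2030976))))))) (add (mul s2 (add (mul s2 (k (.ofNat (nat_lit 779604)))) (mul s3 (k (.negSucc (nat_lit 985891)))))) (mul (pow s3 2) (k (.negSucc (nat_lit 20809))))))) (add (mul s2 (add (mul s2 (add (mul s2 (k (.negSucc (nat_lit 188215))))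 (mul s3 (k (.negSucc (nat_lit 1612883)))))) (mul (pow s3 2) (k (.ofNat (nat_lit 2210688)))))) (mul (pow s3 3) (k (.ofNat (nat_lit 147062)))))))) (add (mul s1 (add (mul s1 (add (mul s1 (add (mul s1 (k (.ofNat (nat_lit 102302)))) (add (mul s2 (k (.ofNat (nat_lit 1730576)))) (mul s3 (k (.negSucc (nat_lit 2165303))))))) (add (mul s2 (add (mul s2 (k (.negSucc (nat_lit 89533)))) (mul s3 (k (.ofNat (nat_lit 90034)))))) (mul (pow s3 2) (k (.ofNat (nat_lit 294672))))))) (add (mul s2 (add (mul s2 (add (mul s2 (k (.negSucc (nat_lit 1394593)))) (mul s3 (k (.ofNat (nat_lit 2200456)))))) (mul (pow s3 2) (k (.negSucc (nat_lit 156185)))))) (mul (pow s3 3) (k (.ofNat (nat_lit 80396))))))) (add (mul s2 (add (mul s2 (add (mul s2 (add (mul s2 (k (.ofNat (nat_lit 70040)))) (mul s3 (k (.ofNat (nat_lit 1381968)))))) (mul (pow s3 2) (k (.negSucc (nat_lit 774799)))))) (mul (pow s3 3) (k (.negSucc (nat_lit 1394593)))))) (mul (pow s3 4) (k (.ofNat (nat_lit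 162340)))))))) (add (mul s1 (add (mul s1 (add (mul s1 (add (mul s1 (add (mul s1 (k (.negSucc (nat_lit 75581)))) (add (mul s2 (k (.negSucc (nat_lit 244513)))) (mul s3 (k (.ofNat (nat_lit 1004130))))))) (add (mul s2 (add (mul s2 (k (.negSucc (nat_lit 1476847)))) (mul s3 (k (.ofNat (nat_lit 590038)))))) (mul (pow s3 2) (k (.negSucc (nat_lit 800143))))))) (add (mul s2 (add (mul s2 (add (mul s2 (k (.ofNat (nat_lit 2210688)))) (mul s3 (k (.negSucc (nat_lit 1196751)))))) (mul (pow s3 2) (k (.negSucc (nat_lit 109261)))))) (mul (pow s3 3) (k (.negSucc (nat_lit 20809))))))) (add (mul s2 (add (mul s2 (add (mul s2 (add (mul s2 (k (.negSucc (nat_lit 279931)))) (mul s3 (k (.negSucc (nat_lit 223871)))))) (mul (pow s3 2) (k (.negSucc (nat_lit 1001959)))))) (mul (pow s3 3) (k (.ofNat (nat_lit 708250)))))) (mul (pow s3 4) (k (.ofNat (nat_lit 202882))))))) (add (mul s2 (add (mul s2 (add (mul s2 (add (mul s2 (add (mul s2 (k (.ofNat (nat_lit 13380))))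 (mul s3 (k (.negSucc (nat_lit 515387)))))) (mul (pow s3 2) (k (.ofNat (nat_lit 589078)))))) (mul (pow s3 3) (k (.ofNat (nat_lit 239942)))))) (mul (pow s3 4) (k (.ofNat (nat_lit 74158)))))) (mul (pow s3 5) (k (.negSucc (nat_lit 104501)))))))) (add (mul s1 (add (mul s1 (add (mul s1 (add (mul s1 (add (mul s1 (add (mul s1 (k (.ofNat (nat_lit 10836)))) (add (mul s2 (k (.negSucc (nat_lit 28009)))) (mul s3 (k (.negSucc (nat_lit 162855))))))) (add (mul s2 (add (mul s2 (k (.ofNat (nat_lit 166214)))) (mul s3 (k (.ofNat (nat_lit 85490)))))) (mul (pow s3 2) (k (.ofNat (nat_lit 179086))))))) (add (mul s2 (add (mul s2 (add (mul s2 (k (.negSucc (nat_lit 240581)))) (mul s3 (k (.ofNat (nat_lit 1172184)))))) (mul (pow s3 2) (k (.negSucc (nat_lit 1476847)))))) (mul (pow s3 3) (k (.ofNat (nat_lit 538020))))))) (add (mul s2 (add (mul s2 (add (mul s2 (add (mul s2 (k (.ofNat (nat_lit 81228)))) (mul s3 (k (.negSucc (nat_lit 1612883)))))) (mul (pow s3 2)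 (k (.ofNat (nat_lit 1088034)))))) (mul (pow s3 3) (k (.ofNat (nat_lit 779604)))))) (mul (pow s3 4) (k (.negSucc (nat_lit 580169))))))) (add (mul s2 (add (mul s2 (add (mul s2 (add (mul s2 (add (mul s2 (k (.ofNat (nat_lit 19402)))) (mul s3 (k (.ofNat (nat_lit 377650)))))) (mul (pow s3 2) (k (.ofNat (nat_lit 239942)))))) (mul (pow s3 3) (k (.negSucc (nat_lit 257311)))))) (mul (pow s3 4) (k (.negSucc (nat_lit 363083)))))) (mul (pow s3 5) (k (.ofNat (nat_lit 143646))))))) (add (mul s2 (add (mul s2 (add (mul s2 (add (mul s2 (add (mul s2 (add (mul s2 (k (.negSucc (nat_lit 6683)))) (mul s3 (k (.ofNat (nat_lit 12686)))))) (mul (pow s3 2) (k (.ofNat (nat_lit 84180)))))) (mul (pow s3 3) (k (.negSucc (nat_lit 409991)))))) (mul (pow s3 4) (k (.ofNat (nat_lit 244430)))))) (mul (pow s3 5) (k (.ofNat (nat_lit 8716)))))) (mul (pow s3 6) (k (.negSucc (nat_lit 7007))))))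
def kr2310 : PExp := add (mul s0 (add (mul s0 (add (mul s0 (add (mul s0 (add (mul s0 (add (mul s0 (k (.ofNat (nat_lit 2232)))) (add (mul s1 (k (.ofNat (nat_lit 37368)))) (add (mul s2 (k (.ofNat (nat_lit 152170)))) (mul s3 (k (.negSucc (nat_lit 112807)))))))) (add (mul s1 (add (mul s1 (k (.negSucc (nat_lit 218831)))) (add (mul s2 (k (.negSucc (nat_lit 509659)))) (mul s3 (k (.ofNat (nat_lit 392832))))))) (add (mul s2 (add (mul s2 (k (.negSucc (nat_lit 436791)))) (mul s3 (k (.negSucc (nat_lit 171619)))))) (mul (pow s3 2) (k (.ofNat (nat_lit 345402)))))))) (add (mul s1 (add (mul s1 (add (mul s1 (k (.ofNat (nat_lit 145386)))) (add (mul s2 (k (.ofNat (nat_lit 2030976)))) (mul s3 (k (.negSucc (nat_lit 1718075))))))) (add (mul s2 (add (mul s2 (k (.negSucc (nat_lit 20809)))) (mul s3 (k (.negSucc (nat_lit 985891)))))) (mul (pow s3 2) (k (.ofNat (nat_lit 779604))))))) (add (mul s2 (add (mul s2 (add (mul s2 (k (.ofNat (nat_lit 147062)))) (mul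 s3 (k (.ofNat (nat_lit 2210688)))))) (mul (pow s3 2) (k (.negSucc (nat_lit 1612883)))))) (mul (pow s3 3) (k (.negSucc (nat_lit 188215)))))))) (add (mul s1 (add (mul s1 (add (mul s1 (add (mul s1 (k (.ofNat (nat_lit 102302)))) (add (mul s2 (k (.negSucc (nat_lit 2165303)))) (mul s3 (k (.ofNat (nat_lit 1730576))))))) (add (mul s2 (add (mul s2 (k (.ofNat (nat_lit 294672)))) (mul s3 (k (.ofNat (nat_lit 90034)))))) (mul (pow s3 2) (k (.negSucc (nat_lit 89533))))))) (add (mul s2 (add (mul s2 (add (mul s2 (k (.ofNat (nat_lit 80396)))) (mul s3 (k (.negSucc (nat_lit 156185)))))) (mul (pow s3 2) (k (.ofNat (nat_lit 2200456)))))) (mul (pow s3 3) (k (.negSucc (nat_lit 1394593))))))) (add (mul s2 (add (mul s2 (add (mul s2 (add (mul s2 (k (.ofNat (nat_lit 162340)))) (mul s3 (k (.negSucc (nat_lit 1394593)))))) (mul (pow s3 2) (k (.negSucc (nat_lit 774799)))))) (mul (pow s3 3) (k (.ofNat (nat_lit 1381968)))))) (mul (pow s3 4) (k (.ofNat (nat_lit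 70040)))))))) (add (mul s1 (add (mul s1 (add (mul s1 (add (mul s1 (add (mul s1 (k (.negSucc (nat_lit 75581)))) (add (mul s2 (k (.ofNat (nat_lit 1004130)))) (mul s3 (k (.negSucc (nat_lit 244513))))))) (add (mul s2 (add (mul s2 (k (.negSucc (nat_lit 800143)))) (mul s3 (k (.ofNat (nat_lit 590038)))))) (mul (pow s3 2) (k (.negSucc (nat_lit 1476847))))))) (add (mul s2 (add (mul s2 (add (mul s2 (k (.negSucc (nat_lit 20809)))) (mul s3 (k (.negSucc (nat_lit 109261)))))) (mul (pow s3 2) (k (.negSucc (nat_lit 1196751)))))) (mul (pow s3 3) (k (.ofNat (nat_lit 2210688))))))) (add (mul s2 (add (mul s2 (add (mul s2 (add (mul s2 (k (.ofNat (nat_lit 202882)))) (mul s3 (k (.ofNat (nat_lit 708250)))))) (mul (pow s3 2) (k (.negSucc (nat_lit 1001959)))))) (mul (pow s3 3) (k (.negSucc (nat_lit 223871)))))) (mul (pow s3 4) (k (.negSucc (nat_lit 279931))))))) (add (mul s2 (add (mul s2 (add (mul s2 (add (mul s2 (add (mul s2 (k (.negSucc (nat_lit 104501))))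 (mul s3 (k (.ofNat (nat_lit 74158)))))) (mul (pow s3 2) (k (.ofNat (nat_lit 239942)))))) (mul (pow s3 3) (k (.ofNat (nat_lit 589078)))))) (mul (pow s3 4) (k (.negSucc (nat_lit 515387)))))) (mul (pow s3 5) (k (.ofNat (nat_lit 13380)))))))) (add (mul s1 (add (mul s1 (add (mul s1 (add (mul s1 (add (mul s1 (add (mul s1 (k (.ofNat (nat_lit 10836)))) (add (mul s2 (k (.negSucc (nat_lit 162855)))) (mul s3 (k (.negSucc (nat_lit 28009))))))) (add (mul s2 (add (mul s2 (k (.ofNat (nat_lit 179086)))) (mul s3 (k (.ofNat (nat_lit 85490)))))) (mul (pow s3 2) (k (.ofNat (nat_lit 166214))))))) (add (mul s2 (add (mul s2 (add (mul s2 (k (.ofNat (nat_lit 538020)))) (mul s3 (k (.negSucc (nat_lit 1476847)))))) (mul (pow s3 2) (k (.ofNat (nat_lit 1172184)))))) (mul (pow s3 3) (k (.negSucc (nat_lit 240581))))))) (add (mul s2 (add (mul s2 (add (mul s2 (add (mul s2 (k (.negSucc (nat_lit 580169)))) (mul s3 (k (.ofNat (nat_lit 779604)))))) (mul (pow s3 2) (k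 (.ofNat (nat_lit 1088034)))))) (mul (pow s3 3) (k (.negSucc (nat_lit 1612883)))))) (mul (pow s3 4) (k (.ofNat (nat_lit 81228))))))) (add (mul s2 (add (mul s2 (add (mul s2 (add (mul s2 (add (mul s2 (k (.ofNat (nat_lit 143646)))) (mul s3 (k (.negSucc (nat_lit 363083)))))) (mul (pow s3 2) (k (.negSucc (nat_lit 257311)))))) (mul (pow s3 3) (k (.ofNat (nat_lit 239942)))))) (mul (pow s3 4) (k (.ofNat (nat_lit 377650)))))) (mul (pow s3 5) (k (.ofNat (nat_lit 19402))))))) (add (mul s2 (add (mul s2 (add (mul s2 (add (mul s2 (add (mul s2 (add (mul s2 (k (.negSucc (nat_lit 7007)))) (mul s3 (k (.ofNat (nat_lit 8716)))))) (mul (pow s3 2) (k (.ofNat (nat_lit 244430)))))) (mul (pow s3 3) (k (.negSucc (nat_lit 409991)))))) (mul (pow s3 4) (k (.ofNat (nat_lit 84180)))))) (mul (pow s3 5) (k (.ofNat (nat_lit 12686)))))) (mul (pow s3 6) (k (.negSucc (nat_lit 6683))))))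
def kr2400 : PExp := add (mul s0 (add (mul s0 (add (mul s0 (add (mul s0 (add (mul s0 (add (mul s0 (k (.ofNat (nat_lit 14156)))) (add (mul s1 (k (.ofNat (nat_lit 268260)))) (add (mul s2 (k (.negSucc (nat_lit 51005)))) (mul s3 (k (.negSucc (nat_lit 51005)))))))) (add (mul s1 (add (mul s1 (k (.negSucc (nat_lit 1547831)))) (add (mul s2 (k (.ofNat (nat_lit 236966)))) (mul s3 (k (.ofNat (nat_lit 236966))))))) (add (mul s2 (add (mul s2 (k (.ofNat (nat_lit 305860)))) (mul s3 (k (.negSucc (nat_lit 90007)))))) (mul (pow s3 2) (k (.ofNat (nat_lit 305860)))))))) (add (mul s1 (add (mul s1 (add (mul s1 (k (.ofNat (nat_lit 2290584)))) (add (mul s2 (k (.negSucc (nat_lit 218831)))) (mul s3 (k (.negSucc (nat_lit 218831))))))) (add (mul s2 (add (mul s2 (k (.negSucc (nat_lit 580169)))) (mul s3 (k (.ofNat (nat_lit 40676)))))) (mul (pow s3 2) (k (.negSucc (nat_lit 580169))))))) (add (mul s2 (add (mul s2 (add (mul s2 (k (.negSucc (nat_lit 304563)))) (mul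 s3 (k (.ofNat (nat_lit 81228)))))) (mul (pow s3 2) (k (.ofNat (nat_lit 81228)))))) (mul (pow s3 3) (k (.negSucc (nat_lit 304563)))))))) (add (mul s1 (add (mul s1 (add (mul s1 (add (mul s1 (k (.negSucc (nat_lit 1242039)))) (add (mul s2 (k (.ofNat (nat_lit 102302)))) (mul s3 (k (.ofNat (nat_lit 102302))))))) (add (mul s2 (add (mul s2 (k (.ofNat (nat_lit 444912)))) (mul s3 (k (.negSucc (nat_lit 74083)))))) (mul (pow s3 2) (k (.ofNat (nat_lit 444912))))))) (add (mul s2 (add (mul s2 (add (mul s2 (k (.ofNat (nat_lit 162340)))) (mul s3 (k (.negSucc (nat_lit 37241)))))) (mul (pow s3 2) (k (.negSucc (nat_lit 37241)))))) (mul (pow s3 3) (k (.ofNat (nat_lit 162340))))))) (add (mul s2 (add (mul s2 (add (mul s2 (add (mul s2 (k (.ofNat (nat_lit 136520)))) (mul s3 (k (.ofNat (nat_lit 70040)))))) (mul (pow s3 2) (k (.negSucc (nat_lit 343231)))))) (mul (pow s3 3) (k (.ofNat (nat_lit 70040)))))) (mul (pow s3 4) (k (.ofNat (nat_lit 136520))))))))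 (add (mul s1 (add (mul s1 (add (mul s1 (add (mul s1 (add (mul s1 (k (.ofNat (nat_lit 197172)))) (add (mul s2 (k (.ofNat (nat_lit 4436)))) (mul s3 (k (.ofNat (nat_lit 4436))))))) (add (mul s2 (add (mul s2 (k (.ofNat (nat_lit 179086)))) (mul s3 (k (.negSucc (nat_lit 405655)))))) (mul (pow s3 2) (k (.ofNat (nat_lit 179086))))))) (add (mul s2 (add (mul s2 (add (mul s2 (k (.negSucc (nat_lit 436791)))) (mul s3 (k (.ofNat (nat_lit 281134)))))) (mul (pow s3 2) (k (.ofNat (nat_lit 281134)))))) (mul (pow s3 3) (k (.negSucc (nat_lit 436791))))))) (add (mul s2 (add (mul s2 (add (mul s2 (add (mul s2 (k (.ofNat (nat_lit 38808)))) (mul s3 (k (.ofNat (nat_lit 131604)))))) (mul (pow s3 2) (k (.negSucc (nat_lit 256599)))))) (mul (pow s3 3) (k (.ofNat (nat_lit 131604)))))) (mul (pow s3 4) (k (.ofNat (nat_lit 38808))))))) (add (mul s2 (add (mul s2 (add (mul s2 (add (mul s2 (add (mul s2 (k (.ofNat (nat_lit 1638)))) (mul s3 (k (.negSucc (nat_lit 63247))))))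 (mul (pow s3 2) (k (.ofNat (nat_lit 84180)))))) (mul (pow s3 3) (k (.ofNat (nat_lit 84180)))))) (mul (pow s3 4) (k (.negSucc (nat_lit 63247)))))) (mul (pow s3 5) (k (.ofNat (nat_lit 1638)))))))) (add (mul s1 (add (mul s1 (add (mul s1 (add (mul s1 (add (mul s1 (add (mul s1 (k (.ofNat (nat_lit 24464)))) (add (mul s2 (k (.negSucc (nat_lit 8559)))) (mul s3 (k (.negSucc (nat_lit 8559))))))) (add (mul s2 (add (mul s2 (k (.ofNat (nat_lit 228140)))) (mul s3 (k (.negSucc (nat_lit 124143)))))) (mul (pow s3 2) (k (.ofNat (nat_lit 228140))))))) (add (mul s2 (add (mul s2 (add (mul s2 (k (.negSucc (nat_lit 379129)))) (mul s3 (k (.ofNat (nat_lit 166214)))))) (mul (pow s3 2) (k (.ofNat (nat_lit 166214)))))) (mul (pow s3 3) (k (.negSucc (nat_lit 379129))))))) (add (mul s2 (add (mul s2 (add (mul s2 (add (mul s2 (k (.ofNat (nat_lit 305860)))) (mul s3 (k (.ofNat (nat_lit 345402)))))) (mul (pow s3 2) (k (.negSucc (nat_lit 874175)))))) (mul (pow s3 3)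 (k (.ofNat (nat_lit 345402)))))) (mul (pow s3 4) (k (.ofNat (nat_lit 305860))))))) (add (mul s2 (add (mul s2 (add (mul s2 (add (mul s2 (add (mul s2 (k (.negSucc (nat_lit 40259)))) (mul s3 (k (.negSucc (nat_lit 235585)))))) (mul (pow s3 2) (k (.ofNat (nat_lit 244430)))))) (mul (pow s3 3) (k (.ofNat (nat_lit 244430)))))) (mul (pow s3 4) (k (.negSucc (nat_lit 235585)))))) (mul (pow s3 5) (k (.negSucc (nat_lit 40259))))))) (add (mul s2 (add (mul s2 (add (mul s2 (add (mul s2 (add (mul s2 (add (mul s2 (k (.negSucc (nat_lit 287)))) (mul s3 (k (.negSucc (nat_lit 97829)))))) (mul (pow s3 2) (k (.ofNat (nat_lit 597708)))))) (mul (pow s3 3) (k (.negSucc (nat_lit 1008699)))))) (mul (pow s3 4) (k (.ofNat (nat_lit 597708)))))) (mul (pow s3 5) (k (.negSucc (nat_lit 97829)))))) (mul (pow s3 6) (k (.negSucc (nat_lit 287))))))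
def kr3003 : PExp := add (mul s0 (add (mul s0 (add (mul s0 (add (mul s0 (add (mul s0 (add (mul s0 (k (.ofNat (nat_lit 780)))) (add (mul s1 (k (.ofNat (nat_lit 74462)))) (add (mul s2 (k (.ofNat (nat_lit 74462)))) (mul s3 (k (.negSucc (nat_lit 341423)))))))) (add (mul s1 (add (mul s1 (k (.negSucc (nat_lit 379129)))) (add (mul s2 (k (.ofNat (nat_lit 150436)))) (mul s3 (k (.negSucc (nat_lit 282561))))))) (add (mul s2 (add (mul s2 (k (.negSucc (nat_lit 379129)))) (mul s3 (k (.negSucc (nat_lit 282561)))))) (mul (pow s3 2) (k (.ofNat (nat_lit 2290584)))))))) (add (mul s1 (add (mul s1 (add (mul s1 (k (.ofNat (nat_lit 531764)))) (add (mul s2 (k (.negSucc (nat_lit 240581)))) (mul s3 (k (.ofNat (nat_lit 538020))))))) (add (mul s2 (add (mul s2 (k (.negSucc (nat_lit 240581)))) (mul s3 (k (.ofNat (nat_lit 371904)))))) (mul (pow s3 2) (k (.ofNat (nat_lit 145386))))))) (add (mul s2 (add (mul s2 (add (mul s2 (k (.ofNat (nat_lit 531764)))) (mul s3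 (k (.ofNat (nat_lit 538020)))))) (mul (pow s3 2) (k (.ofNat (nat_lit 145386)))))) (mul (pow s3 3) (k (.negSucc (nat_lit 3837791)))))))) (add (mul s1 (add (mul s1 (add (mul s1 (add (mul s1 (k (.negSucc (nat_lit 304563)))) (add (mul s2 (k (.negSucc (nat_lit 188215)))) (mul s3 (k (.ofNat (nat_lit 147062))))))) (add (mul s2 (add (mul s2 (k (.ofNat (nat_lit 1026424)))) (mul s3 (k (.negSucc (nat_lit 367665)))))) (mul (pow s3 2) (k (.negSucc (nat_lit 1010959))))))) (add (mul s2 (add (mul s2 (add (mul s2 (k (.negSucc (nat_lit 188215)))) (mul s3 (k (.negSucc (nat_lit 367665)))))) (mul (pow s3 2) (k (.ofNat (nat_lit 270184)))))) (mul (pow s3 3) (k (.ofNat (nat_lit 145386))))))) (add (mul s2 (add (mul s2 (add (mul s2 (add (mul s2 (k (.negSucc (nat_lit 304563)))) (mul s3 (k (.ofNat (nat_lit 147062)))))) (mul (pow s3 2) (k (.negSucc (nat_lit 1010959)))))) (mul (pow s3 3) (k (.ofNat (nat_lit 145386)))))) (mul (pow s3 4) (k (.ofNat (nat_lit 2290584))))))))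 (add (mul s1 (add (mul s1 (add (mul s1 (add (mul s1 (add (mul s1 (k (.ofNat (nat_lit 18528)))) (add (mul s2 (k (.ofNat (nat_lit 279272)))) (mul s3 (k (.negSucc (nat_lit 72735))))))) (add (mul s2 (add (mul s2 (k (.negSucc (nat_lit 409991)))) (mul s3 (k (.negSucc (nat_lit 368679)))))) (mul (pow s3 2) (k (.ofNat (nat_lit 147062))))))) (add (mul s2 (add (mul s2 (add (mul s2 (k (.negSucc (nat_lit 409991)))) (mul s3 (k (.ofNat (nat_lit 1185888)))))) (mul (pow s3 2) (k (.negSucc (nat_lit 367665)))))) (mul (pow s3 3) (k (.ofNat (nat_lit 538020))))))) (add (mul s2 (add (mul s2 (add (mul s2 (add (mul s2 (k (.ofNat (nat_lit 279272)))) (mul s3 (k (.negSucc (nat_lit 368679)))))) (mul (pow s3 2) (k (.negSucc (nat_lit 367665)))))) (mul (pow s3 3) (k (.ofNat (nat_lit 371904)))))) (mul (pow s3 4) (k (.negSucc (nat_lit 282561))))))) (add (mul s2 (add (mul s2 (add (mul s2 (add (mul s2 (add (mul s2 (k (.ofNat (nat_lit 18528)))) (mul s3 (k (.negSucc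 (nat_lit 72735)))))) (mul (pow s3 2) (k (.ofNat (nat_lit 147062)))))) (mul (pow s3 3) (k (.ofNat (nat_lit 538020)))))) (mul (pow s3 4) (k (.negSucc (nat_lit 282561)))))) (mul (pow s3 5) (k (.negSucc (nat_lit 341423)))))))) (add (mul s1 (add (mul s1 (add (mul s1 (add (mul s1 (add (mul s1 (add (mul s1 (k (.ofNat (nat_lit 2168)))) (add (mul s2 (k (.ofNat (nat_lit 148540)))) (mul s3 (k (.ofNat (nat_lit 18528))))))) (add (mul s2 (add (mul s2 (k (.negSucc (nat_lit 1008699)))) (mul s3 (k (.ofNat (nat_lit 279272)))))) (mul (pow s3 2) (k (.negSucc (nat_lit 304563))))))) (add (mul s2 (add (mul s2 (add (mul s2 (k (.ofNat (nat_lit 1757920)))) (mul s3 (k (.negSucc (nat_lit 409991)))))) (mul (pow s3 2) (k (.negSucc (nat_lit 188215)))))) (mul (pow s3 3) (k (.ofNat (nat_lit 531764))))))) (add (mul s2 (add (mul s2 (add (mul s2 (add (mul s2 (k (.negSucc (nat_lit 1008699)))) (mul s3 (k (.negSucc (nat_lit 409991)))))) (mul (pow s3 2) (k (.ofNat (nat_lit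 1026424)))))) (mul (pow s3 3) (k (.negSucc (nat_lit 240581)))))) (mul (pow s3 4) (k (.negSucc (nat_lit 379129))))))) (add (mul s2 (add (mul s2 (add (mul s2 (add (mul s2 (add (mul s2 (k (.ofNat (nat_lit 148540)))) (mul s3 (k (.ofNat (nat_lit 279272)))))) (mul (pow s3 2) (k (.negSucc (nat_lit 188215)))))) (mul (pow s3 3) (k (.negSucc (nat_lit 240581)))))) (mul (pow s3 4) (k (.ofNat (nat_lit 150436)))))) (mul (pow s3 5) (k (.ofNat (nat_lit 74462))))))) (add (mul s2 (add (mul s2 (add (mul s2 (add (mul s2 (add (mul s2 (add (mul s2 (k (.ofNat (nat_lit 2168)))) (mul s3 (k (.ofNat (nat_lit 18528)))))) (mul (pow s3 2) (k (.negSucc (nat_lit 304563)))))) (mul (pow s3 3) (k (.ofNat (nat_lit 531764)))))) (mul (pow s3 4) (k (.negSucc (nat_lit 379129)))))) (mul (pow s3 5) (k (.ofNat (nat_lit 74462)))))) (mul (pow s3 6) (k (.ofNat (nat_lit 780))))))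
def kr3012 : PExp := add (mul s0 (add (mul s0 (add (mul s0 (add (mul s0 (add (mul s0 (add (mul s0 (k (.ofNat (nat_lit 10836)))) (add (mul s1 (k (.negSucc (nat_lit 28009)))) (add (mul s2 (k (.negSucc (nat_lit 162855)))) (mul s3 (k (.negSucc (nat_lit 75581)))))))) (add (mul s1 (add (mul s1 (k (.ofNat (nat_lit 166214)))) (add (mul s2 (k (.ofNat (nat_lit 85490)))) (mul s3 (k (.negSucc (nat_lit 244513))))))) (add (mul s2 (add (mul s2 (k (.ofNat (nat_lit 179086)))) (mul s3 (k (.ofNat (nat_lit 1004130)))))) (mul (pow s3 2) (k (.ofNat (nat_lit 102302)))))))) (add (mul s1 (add (mul s1 (add (mul s1 (k (.negSucc (nat_lit 240581)))) (add (mul s2 (k (.ofNat (nat_lit 1172184)))) (mul s3 (k (.negSucc (nat_lit 1476847))))))) (add (mul s2 (add (mul s2 (k (.negSucc (nat_lit 1476847)))) (mul s3 (k (.ofNat (nat_lit 590038)))))) (mul (pow s3 2) (k (.ofNat (nat_lit 1730576))))))) (add (mul s2 (add (mul s2 (add (mul s2 (k (.ofNat (nat_lit 538020)))) (mul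 s3 (k (.negSucc (nat_lit 800143)))))) (mul (pow s3 2) (k (.negSucc (nat_lit 2165303)))))) (mul (pow s3 3) (k (.ofNat (nat_lit 145386)))))))) (add (mul s1 (add (mul s1 (add (mul s1 (add (mul s1 (k (.ofNat (nat_lit 81228)))) (add (mul s2 (k (.negSucc (nat_lit 1612883)))) (mul s3 (k (.ofNat (nat_lit 2210688))))))) (add (mul s2 (add (mul s2 (k (.ofNat (nat_lit 1088034)))) (mul s3 (k (.negSucc (nat_lit 1196751)))))) (mul (pow s3 2) (k (.negSucc (nat_lit 89533))))))) (add (mul s2 (add (mul s2 (add (mul s2 (k (.ofNat (nat_lit 779604)))) (mul s3 (k (.negSucc (nat_lit 109261)))))) (mul (pow s3 2) (k (.ofNat (nat_lit 90034)))))) (mul (pow s3 3) (k (.negSucc (nat_lit 1718075))))))) (add (mul s2 (add (mul s2 (add (mul s2 (add (mul s2 (k (.negSucc (nat_lit 580169)))) (mul s3 (k (.negSucc (nat_lit 20809)))))) (mul (pow s3 2) (k (.ofNat (nat_lit 294672)))))) (mul (pow s3 3) (k (.ofNat (nat_lit 2030976)))))) (mul (pow s3 4) (k (.negSucc (nat_lit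 218831)))))))) (add (mul s1 (add (mul s1 (add (mul s1 (add (mul s1 (add (mul s1 (k (.ofNat (nat_lit 19402)))) (add (mul s2 (k (.ofNat (nat_lit 377650)))) (mul s3 (k (.negSucc (nat_lit 279931))))))) (add (mul s2 (add (mul s2 (k (.ofNat (nat_lit 239942)))) (mul s3 (k (.negSucc (nat_lit 223871)))))) (mul (pow s3 2) (k (.negSucc (nat_lit 1394593))))))) (add (mul s2 (add (mul s2 (add (mul s2 (k (.negSucc (nat_lit 257311)))) (mul s3 (k (.negSucc (nat_lit 1001959)))))) (mul (pow s3 2) (k (.ofNat (nat_lit 2200456)))))) (mul (pow s3 3) (k (.ofNat (nat_lit 779604))))))) (add (mul s2 (add (mul s2 (add (mul s2 (add (mul s2 (k (.negSucc (nat_lit 363083)))) (mul s3 (k (.ofNat (nat_lit 708250)))))) (mul (pow s3 2) (k (.negSucc (nat_lit 156185)))))) (mul (pow s3 3) (k (.negSucc (nat_lit 985891)))))) (mul (pow s3 4) (k (.ofNat (nat_lit 392832))))))) (add (mul s2 (add (mul s2 (add (mul s2 (add (mul s2 (add (mul s2 (k (.ofNat (nat_lit 143646)))) (mul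 s3 (k (.ofNat (nat_lit 202882)))))) (mul (pow s3 2) (k (.ofNat (nat_lit 80396)))))) (mul (pow s3 3) (k (.negSucc (nat_lit 20809)))))) (mul (pow s3 4) (k (.negSucc (nat_lit 509659)))))) (mul (pow s3 5) (k (.ofNat (nat_lit 37368)))))))) (add (mul s1 (add (mul s1 (add (mul s1 (add (mul s1 (add (mul s1 (add (mul s1 (k (.negSucc (nat_lit 6683)))) (add (mul s2 (k (.ofNat (nat_lit 12686)))) (mul s3 (k (.ofNat (nat_lit 13380))))))) (add (mul s2 (add (mul s2 (k (.ofNat (nat_lit 84180)))) (mul s3 (k (.negSucc (nat_lit 515387)))))) (mul (pow s3 2) (k (.ofNat (nat_lit 70040))))))) (add (mul s2 (add (mul s2 (add (mul s2 (k (.negSucc (nat_lit 409991)))) (mul s3 (k (.ofNat (nat_lit 589078)))))) (mul (pow s3 2) (k (.ofNat (nat_lit 1381968)))))) (mul (pow s3 3) (k (.negSucc (nat_lit 188215))))))) (add (mul s2 (add (mul s2 (add (mul s2 (add (mul s2 (k (.ofNat (nat_lit 244430)))) (mul s3 (k (.ofNat (nat_lit 239942)))))) (mul (pow s3 2) (k (.negSucc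 (nat_lit 774799)))))) (mul (pow s3 3) (k (.negSucc (nat_lit 1612883)))))) (mul (pow s3 4) (k (.ofNat (nat_lit 345402))))))) (add (mul s2 (add (mul s2 (add (mul s2 (add (mul s2 (add (mul s2 (k (.ofNat (nat_lit 8716)))) (mul s3 (k (.ofNat (nat_lit 74158)))))) (mul (pow s3 2) (k (.negSucc (nat_lit 1394593)))))) (mul (pow s3 3) (k (.ofNat (nat_lit 2210688)))))) (mul (pow s3 4) (k (.negSucc (nat_lit 171619)))))) (mul (pow s3 5) (k (.negSucc (nat_lit 112807))))))) (add (mul s2 (add (mul s2 (add (mul s2 (add (mul s2 (add (mul s2 (add (mul s2 (k (.negSucc (nat_lit 7007)))) (mul s3 (k (.negSucc (nat_lit 104501)))))) (mul (pow s3 2) (k (.ofNat (nat_lit 162340)))))) (mul (pow s3 3) (k (.ofNat (nat_lit 147062)))))) (mul (pow s3 4) (k (.negSucc (nat_lit 436791)))))) (mul (pow s3 5) (k (.ofNat (nat_lit 152170)))))) (mul (pow s3 6) (k (.ofNat (nat_lit 2232))))))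
def kr3021 : PExp := add (mul s0 (add (mul s0 (add (mul s0 (add (mul s0 (add (mul s0 (add (mul s0 (k (.ofNat (nat_lit 10836)))) (add (mul s1 (k (.negSucc (nat_lit 28009)))) (add (mul s2 (k (.negSucc (nat_lit 75581)))) (mul s3 (k (.negSucc (nat_lit 162855)))))))) (add (mul s1 (add (mul s1 (k (.ofNat (nat_lit 166214)))) (add (mul s2 (k (.negSucc (nat_lit 244513)))) (mul s3 (k (.ofNat (nat_lit 85490))))))) (add (mul s2 (add (mul s2 (k (.ofNat (nat_lit 102302)))) (mul s3 (k (.ofNat (nat_lit 1004130)))))) (mul (pow s3 2) (k (.ofNat (nat_lit 179086)))))))) (add (mul s1 (add (mul s1 (add (mul s1 (k (.negSucc (nat_lit 240581)))) (add (mul s2 (k (.negSucc (nat_lit 1476847)))) (mul s3 (k (.ofNat (nat_lit 1172184))))))) (add (mul s2 (add (mul s2 (k (.ofNat (nat_lit 1730576)))) (mul s3 (k (.ofNat (nat_lit 590038)))))) (mul (pow s3 2) (k (.negSucc (nat_lit 1476847))))))) (add (mul s2 (add (mul s2 (add (mul s2 (k (.ofNat (nat_lit 145386)))) (mul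 s3 (k (.negSucc (nat_lit 2165303)))))) (mul (pow s3 2) (k (.negSucc (nat_lit 800143)))))) (mul (pow s3 3) (k (.ofNat (nat_lit 538020)))))))) (add (mul s1 (add (mul s1 (add (mul s1 (add (mul s1 (k (.ofNat (nat_lit 81228)))) (add (mul s2 (k (.ofNat (nat_lit 2210688)))) (mul s3 (k (.negSucc (nat_lit 1612883))))))) (add (mul s2 (add (mul s2 (k (.negSucc (nat_lit 89533)))) (mul s3 (k (.negSucc (nat_lit 1196751)))))) (mul (pow s3 2) (k (.ofNat (nat_lit 1088034))))))) (add (mul s2 (add (mul s2 (add (mul s2 (k (.negSucc (nat_lit 1718075)))) (mul s3 (k (.ofNat (nat_lit 90034)))))) (mul (pow s3 2) (k (.negSucc (nat_lit 109261)))))) (mul (pow s3 3) (k (.ofNat (nat_lit 779604))))))) (add (mul s2 (add (mul s2 (add (mul s2 (add (mul s2 (k (.negSucc (nat_lit 218831)))) (mul s3 (k (.ofNat (nat_lit 2030976)))))) (mul (pow s3 2) (k (.ofNat (nat_lit 294672)))))) (mul (pow s3 3) (k (.negSucc (nat_lit 20809)))))) (mul (pow s3 4) (k (.negSucc (nat_lit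 580169)))))))) (add (mul s1 (add (mul s1 (add (mul s1 (add (mul s1 (add (mul s1 (k (.ofNat (nat_lit 19402)))) (add (mul s2 (k (.negSucc (nat_lit 279931)))) (mul s3 (k (.ofNat (nat_lit 377650))))))) (add (mul s2 (add (mul s2 (k (.negSucc (nat_lit 1394593)))) (mul s3 (k (.negSucc (nat_lit 223871)))))) (mul (pow s3 2) (k (.ofNat (nat_lit 239942))))))) (add (mul s2 (add (mul s2 (add (mul s2 (k (.ofNat (nat_lit 779604)))) (mul s3 (k (.ofNat (nat_lit 2200456)))))) (mul (pow s3 2) (k (.negSucc (nat_lit 1001959)))))) (mul (pow s3 3) (k (.negSucc (nat_lit 257311))))))) (add (mul s2 (add (mul s2 (add (mul s2 (add (mul s2 (k (.ofNat (nat_lit 392832)))) (mul s3 (k (.negSucc (nat_lit 985891)))))) (mul (pow s3 2) (k (.negSucc (nat_lit 156185)))))) (mul (pow s3 3) (k (.ofNat (nat_lit 708250)))))) (mul (pow s3 4) (k (.negSucc (nat_lit 363083))))))) (add (mul s2 (add (mul s2 (add (mul s2 (add (mul s2 (add (mul s2 (k (.ofNat (nat_lit 37368)))) (mul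 s3 (k (.negSucc (nat_lit 509659)))))) (mul (pow s3 2) (k (.negSucc (nat_lit 20809)))))) (mul (pow s3 3) (k (.ofNat (nat_lit 80396)))))) (mul (pow s3 4) (k (.ofNat (nat_lit 202882)))))) (mul (pow s3 5) (k (.ofNat (nat_lit 143646)))))))) (add (mul s1 (add (mul s1 (add (mul s1 (add (mul s1 (add (mul s1 (add (mul s1 (k (.negSucc (nat_lit 6683)))) (add (mul s2 (k (.ofNat (nat_lit 13380)))) (mul s3 (k (.ofNat (nat_lit 12686))))))) (add (mul s2 (add (mul s2 (k (.ofNat (nat_lit 70040)))) (mul s3 (k (.negSucc (nat_lit 515387)))))) (mul (pow s3 2) (k (.ofNat (nat_lit 84180))))))) (add (mul s2 (add (mul s2 (add (mul s2 (k (.negSucc (nat_lit 188215)))) (mul s3 (k (.ofNat (nat_lit 1381968)))))) (mul (pow s3 2) (k (.ofNat (nat_lit 589078)))))) (mul (pow s3 3) (k (.negSucc (nat_lit 409991))))))) (add (mul s2 (add (mul s2 (add (mul s2 (add (mul s2 (k (.ofNat (nat_lit 345402)))) (mul s3 (k (.negSucc (nat_lit 1612883)))))) (mul (pow s3 2) (k (.negSucc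 (nat_lit 774799)))))) (mul (pow s3 3) (k (.ofNat (nat_lit 239942)))))) (mul (pow s3 4) (k (.ofNat (nat_lit 244430))))))) (add (mul s2 (add (mul s2 (add (mul s2 (add (mul s2 (add (mul s2 (k (.negSucc (nat_lit 112807)))) (mul s3 (k (.negSucc (nat_lit 171619)))))) (mul (pow s3 2) (k (.ofNat (nat_lit 2210688)))))) (mul (pow s3 3) (k (.negSucc (nat_lit 1394593)))))) (mul (pow s3 4) (k (.ofNat (nat_lit 74158)))))) (mul (pow s3 5) (k (.ofNat (nat_lit 8716))))))) (add (mul s2 (add (mul s2 (add (mul s2 (add (mul s2 (add (mul s2 (add (mul s2 (k (.ofNat (nat_lit 2232)))) (mul s3 (k (.ofNat (nat_lit 152170)))))) (mul (pow s3 2) (k (.negSucc (nat_lit 436791)))))) (mul (pow s3 3) (k (.ofNat (nat_lit 147062)))))) (mul (pow s3 4) (k (.ofNat (nat_lit 162340)))))) (mul (pow s3 5) (k (.negSucc (nat_lit 104501)))))) (mul (pow s3 6) (k (.negSucc (nat_lit 7007))))))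
def kr3030 : PExp := add (mul s0 (add (mul s0 (add (mul s0 (add (mul s0 (add (mul s0 (add (mul s0 (k (.ofNat (nat_lit 780)))) (add (mul s1 (k (.ofNat (nat_lit 74462)))) (add (mul s2 (k (.negSucc (nat_lit 341423)))) (mul s3 (k (.ofNat (nat_lit 74462)))))))) (add (mul s1 (add (mul s1 (k (.negSucc (nat_lit 379129)))) (add (mul s2 (k (.negSucc (nat_lit 282561)))) (mul s3 (k (.ofNat (nat_lit 150436))))))) (add (mul s2 (add (mul s2 (k (.ofNat (nat_lit 2290584)))) (mul s3 (k (.negSucc (nat_lit 282561)))))) (mul (pow s3 2) (k (.negSucc (nat_lit 379129)))))))) (add (mul s1 (add (mul s1 (add (mul s1 (k (.ofNat (nat_lit 531764)))) (add (mul s2 (k (.ofNat (nat_lit 538020)))) (mul s3 (k (.negSucc (nat_lit 240581))))))) (add (mul s2 (add (mul s2 (k (.ofNat (nat_lit 145386)))) (mul s3 (k (.ofNat (nat_lit 371904)))))) (mul (pow s3 2) (k (.negSucc (nat_lit 240581))))))) (add (mul s2 (add (mul s2 (add (mul s2 (k (.negSucc (nat_lit 3837791)))) (mul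 s3 (k (.ofNat (nat_lit 145386)))))) (mul (pow s3 2) (k (.ofNat (nat_lit 538020)))))) (mul (pow s3 3) (k (.ofNat (nat_lit 531764)))))))) (add (mul s1 (add (mul s1 (add (mul s1 (add (mul s1 (k (.negSucc (nat_lit 304563)))) (add (mul s2 (k (.ofNat (nat_lit 147062)))) (mul s3 (k (.negSucc (nat_lit 188215))))))) (add (mul s2 (add (mul s2 (k (.negSucc (nat_lit 1010959)))) (mul s3 (k (.negSucc (nat_lit 367665)))))) (mul (pow s3 2) (k (.ofNat (nat_lit 1026424))))))) (add (mul s2 (add (mul s2 (add (mul s2 (k (.ofNat (nat_lit 145386)))) (mul s3 (k (.ofNat (nat_lit 270184)))))) (mul (pow s3 2) (k (.negSucc (nat_lit 367665)))))) (mul (pow s3 3) (k (.negSucc (nat_lit 188215))))))) (add (mul s2 (add (mul s2 (add (mul s2 (add (mul s2 (k (.ofNat (nat_lit 2290584)))) (mul s3 (k (.ofNat (nat_lit 145386)))))) (mul (pow s3 2) (k (.negSucc (nat_lit 1010959)))))) (mul (pow s3 3) (k (.ofNat (nat_lit 147062)))))) (mul (pow s3 4) (k (.negSucc (nat_lit 304563))))))))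 (add (mul s1 (add (mul s1 (add (mul s1 (add (mul s1 (add (mul s1 (k (.ofNat (nat_lit 18528)))) (add (mul s2 (k (.negSucc (nat_lit 72735)))) (mul s3 (k (.ofNat (nat_lit 279272))))))) (add (mul s2 (add (mul s2 (k (.ofNat (nat_lit 147062)))) (mul s3 (k (.negSucc (nat_lit 368679)))))) (mul (pow s3 2) (k (.negSucc (nat_lit 409991))))))) (add (mul s2 (add (mul s2 (add (mul s2 (k (.ofNat (nat_lit 538020)))) (mul s3 (k (.negSucc (nat_lit 367665)))))) (mul (pow s3 2) (k (.ofNat (nat_lit 1185888)))))) (mul (pow s3 3) (k (.negSucc (nat_lit 409991))))))) (add (mul s2 (add (mul s2 (add (mul s2 (add (mul s2 (k (.negSucc (nat_lit 282561)))) (mul s3 (k (.ofNat (nat_lit 371904)))))) (mul (pow s3 2) (k (.negSucc (nat_lit 367665)))))) (mul (pow s3 3) (k (.negSucc (nat_lit 368679)))))) (mul (pow s3 4) (k (.ofNat (nat_lit 279272))))))) (add (mul s2 (add (mul s2 (add (mul s2 (add (mul s2 (add (mul s2 (k (.negSucc (nat_lit 341423)))) (mul s3 (k (.negSucc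 (nat_lit 282561)))))) (mul (pow s3 2) (k (.ofNat (nat_lit 538020)))))) (mul (pow s3 3) (k (.ofNat (nat_lit 147062)))))) (mul (pow s3 4) (k (.negSucc (nat_lit 72735)))))) (mul (pow s3 5) (k (.ofNat (nat_lit 18528)))))))) (add (mul s1 (add (mul s1 (add (mul s1 (add (mul s1 (add (mul s1 (add (mul s1 (k (.ofNat (nat_lit 2168)))) (add (mul s2 (k (.ofNat (nat_lit 18528)))) (mul s3 (k (.ofNat (nat_lit 148540))))))) (add (mul s2 (add (mul s2 (k (.negSucc (nat_lit 304563)))) (mul s3 (k (.ofNat (nat_lit 279272)))))) (mul (pow s3 2) (k (.negSucc (nat_lit 1008699))))))) (add (mul s2 (add (mul s2 (add (mul s2 (k (.ofNat (nat_lit 531764)))) (mul s3 (k (.negSucc (nat_lit 188215)))))) (mul (pow s3 2) (k (.negSucc (nat_lit 409991)))))) (mul (pow s3 3) (k (.ofNat (nat_lit 1757920))))))) (add (mul s2 (add (mul s2 (add (mul s2 (add (mul s2 (k (.negSucc (nat_lit 379129)))) (mul s3 (k (.negSucc (nat_lit 240581)))))) (mul (pow s3 2) (k (.ofNat (nat_lit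 1026424)))))) (mul (pow s3 3) (k (.negSucc (nat_lit 409991)))))) (mul (pow s3 4) (k (.negSucc (nat_lit 1008699))))))) (add (mul s2 (add (mul s2 (add (mul s2 (add (mul s2 (add (mul s2 (k (.ofNat (nat_lit 74462)))) (mul s3 (k (.ofNat (nat_lit 150436)))))) (mul (pow s3 2) (k (.negSucc (nat_lit 240581)))))) (mul (pow s3 3) (k (.negSucc (nat_lit 188215)))))) (mul (pow s3 4) (k (.ofNat (nat_lit 279272)))))) (mul (pow s3 5) (k (.ofNat (nat_lit 148540))))))) (add (mul s2 (add (mul s2 (add (mul s2 (add (mul s2 (add (mul s2 (add (mul s2 (k (.ofNat (nat_lit 780)))) (mul s3 (k (.ofNat (nat_lit 74462)))))) (mul (pow s3 2) (k (.negSucc (nat_lit 379129)))))) (mul (pow s3 3) (k (.ofNat (nat_lit 531764)))))) (mul (pow s3 4) (k (.negSucc (nat_lit 304563)))))) (mul (pow s3 5) (k (.ofNat (nat_lit 18528)))))) (mul (pow s3 6) (k (.ofNat (nat_lit 2168))))))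
def kr3102 : PExp := add (mul s0 (add (mul s0 (add (mul s0 (add (mul s0 (add (mul s0 (add (mul s0 (k (.ofNat (nat_lit 10836)))) (add (mul s1 (k (.negSucc (nat_lit 162855)))) (add (mul s2 (k (.negSucc (nat_lit 28009)))) (mul s3 (k (.negSucc (nat_lit 75581)))))))) (add (mul s1 (add (mul s1 (k (.ofNat (nat_lit 179086)))) (add (mul s2 (k (.ofNat (nat_lit 85490)))) (mul s3 (k (.ofNat (nat_lit 1004130))))))) (add (mul s2 (add (mul s2 (k (.ofNat (nat_lit 166214)))) (mul s3 (k (.negSucc (nat_lit 244513)))))) (mul (pow s3 2) (k (.ofNat (nat_lit 102302)))))))) (add (mul s1 (add (mul s1 (add (mul s1 (k (.ofNat (nat_lit 538020)))) (add (mul s2 (k (.negSucc (nat_lit 1476847)))) (mul s3 (k (.negSucc (nat_lit 800143))))))) (add (mul s2 (add (mul s2 (k (.ofNat (nat_lit 1172184)))) (mul s3 (k (.ofNat (nat_lit 590038)))))) (mul (pow s3 2) (k (.negSucc (nat_lit 2165303))))))) (add (mul s2 (add (mul s2 (add (mul s2 (k (.negSucc (nat_lit 240581))))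 (mul s3 (k (.negSucc (nat_lit 1476847)))))) (mul (pow s3 2) (k (.ofNat (nat_lit 1730576)))))) (mul (pow s3 3) (k (.ofNat (nat_lit 145386)))))))) (add (mul s1 (add (mul s1 (add (mul s1 (add (mul s1 (k (.negSucc (nat_lit 580169)))) (add (mul s2 (k (.ofNat (nat_lit 779604)))) (mul s3 (k (.negSucc (nat_lit 20809))))))) (add (mul s2 (add (mul s2 (k (.ofNat (nat_lit 1088034)))) (mul s3 (k (.negSucc (nat_lit 109261)))))) (mul (pow s3 2) (k (.ofNat (nat_lit 294672))))))) (add (mul s2 (add (mul s2 (add (mul s2 (k (.negSucc (nat_lit 1612883)))) (mul s3 (k (.negSucc (nat_lit 1196751)))))) (mul (pow s3 2) (k (.ofNat (nat_lit 90034)))))) (mul (pow s3 3) (k (.ofNat (nat_lit 2030976))))))) (add (mul s2 (add (mul s2 (add (mul s2 (add (mul s2 (k (.ofNat (nat_lit 81228)))) (mul s3 (k (.ofNat (nat_lit 2210688)))))) (mul (pow s3 2) (k (.negSucc (nat_lit 89533)))))) (mul (pow s3 3) (k (.negSucc (nat_lit 1718075)))))) (mul (pow s3 4) (k (.negSucc (nat_lit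 218831)))))))) (add (mul s1 (add (mul s1 (add (mul s1 (add (mul s1 (add (mul s1 (k (.ofNat (nat_lit 143646)))) (add (mul s2 (k (.negSucc (nat_lit 363083)))) (mul s3 (k (.ofNat (nat_lit 202882))))))) (add (mul s2 (add (mul s2 (k (.negSucc (nat_lit 257311)))) (mul s3 (k (.ofNat (nat_lit 708250)))))) (mul (pow s3 2) (k (.ofNat (nat_lit 80396))))))) (add (mul s2 (add (mul s2 (add (mul s2 (k (.ofNat (nat_lit 239942)))) (mul s3 (k (.negSucc (nat_lit 1001959)))))) (mul (pow s3 2) (k (.negSucc (nat_lit 156185)))))) (mul (pow s3 3) (k (.negSucc (nat_lit 20809))))))) (add (mul s2 (add (mul s2 (add (mul s2 (add (mul s2 (k (.ofNat (nat_lit 377650)))) (mul s3 (k (.negSucc (nat_lit 223871)))))) (mul (pow s3 2) (k (.ofNat (nat_lit 2200456)))))) (mul (pow s3 3) (k (.negSucc (nat_lit 985891)))))) (mul (pow s3 4) (k (.negSucc (nat_lit 509659))))))) (add (mul s2 (add (mul s2 (add (mul s2 (add (mul s2 (add (mul s2 (k (.ofNat (nat_lit 19402)))) (mul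 s3 (k (.negSucc (nat_lit 279931)))))) (mul (pow s3 2) (k (.negSucc (nat_lit 1394593)))))) (mul (pow s3 3) (k (.ofNat (nat_lit 779604)))))) (mul (pow s3 4) (k (.ofNat (nat_lit 392832)))))) (mul (pow s3 5) (k (.ofNat (nat_lit 37368)))))))) (add (mul s1 (add (mul s1 (add (mul s1 (add (mul s1 (add (mul s1 (add (mul s1 (k (.negSucc (nat_lit 7007)))) (add (mul s2 (k (.ofNat (nat_lit 8716)))) (mul s3 (k (.negSucc (nat_lit 104501))))))) (add (mul s2 (add (mul s2 (k (.ofNat (nat_lit 244430)))) (mul s3 (k (.ofNat (nat_lit 74158)))))) (mul (pow s3 2) (k (.ofNat (nat_lit 162340))))))) (add (mul s2 (add (mul s2 (add (mul s2 (k (.negSucc (nat_lit 409991)))) (mul s3 (k (.ofNat (nat_lit 239942)))))) (mul (pow s3 2) (k (.negSucc (nat_lit 1394593)))))) (mul (pow s3 3) (k (.ofNat (nat_lit 147062))))))) (add (mul s2 (add (mul s2 (add (mul s2 (add (mul s2 (k (.ofNat (nat_lit 84180)))) (mul s3 (k (.ofNat (nat_lit 589078)))))) (mul (pow s3 2) (k (.negSucc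 (nat_lit 774799)))))) (mul (pow s3 3) (k (.ofNat (nat_lit 2210688)))))) (mul (pow s3 4) (k (.negSucc (nat_lit 436791))))))) (add (mul s2 (add (mul s2 (add (mul s2 (add (mul s2 (add (mul s2 (k (.ofNat (nat_lit 12686)))) (mul s3 (k (.negSucc (nat_lit 515387)))))) (mul (pow s3 2) (k (.ofNat (nat_lit 1381968)))))) (mul (pow s3 3) (k (.negSucc (nat_lit 1612883)))))) (mul (pow s3 4) (k (.negSucc (nat_lit 171619)))))) (mul (pow s3 5) (k (.ofNat (nat_lit 152170))))))) (add (mul s2 (add (mul s2 (add (mul s2 (add (mul s2 (add (mul s2 (add (mul s2 (k (.negSucc (nat_lit 6683)))) (mul s3 (k (.ofNat (nat_lit 13380)))))) (mul (pow s3 2) (k (.ofNat (nat_lit 70040)))))) (mul (pow s3 3) (k (.negSucc (nat_lit 188215)))))) (mul (pow s3 4) (k (.ofNat (nat_lit 345402)))))) (mul (pow s3 5) (k (.negSucc (nat_lit 112807)))))) (mul (pow s3 6) (k (.ofNat (nat_lit 2232))))))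
def kr3111 : PExp := add (mul s0 (add (mul s0 (add (mul s0 (add (mul s0 (add (mul s0 (add (mul s0 (k (.ofNat (nat_lit 4716)))) (add (mul s1 (k (.ofNat (nat_lit 24872)))) (add (mul s2 (k (.ofNat (nat_lit 24872)))) (mul s3 (k (.ofNat (nat_lit 24872)))))))) (add (mul s1 (add (mul s1 (k (.negSucc (nat_lit 405655)))) (add (mul s2 (k (.ofNat (nat_lit 349768)))) (mul s3 (k (.ofNat (nat_lit 349768))))))) (add (mul s2 (add (mul s2 (k (.negSucc (nat_lit 405655)))) (mul s3 (k (.ofNat (nat_lit 349768)))))) (mul (pow s3 2) (k (.negSucc (nat_lit 405655)))))))) (add (mul s1 (add (mul s1 (add (mul s1 (k (.ofNat (nat_lit 371904)))) (add (mul s2 (k (.ofNat (nat_lit 590038)))) (mul s3 (k (.ofNat (nat_lit 590038))))))) (add (mul s2 (add (mul s2 (k (.ofNat (nat_lit 590038)))) (mul s3 (k (.negSucc (nat_lit 4805687)))))) (mul (pow s3 2) (k (.ofNat (nat_lit 590038))))))) (add (mul s2 (add (mul s2 (add (mul s2 (k (.ofNat (nat_lit 371904)))) (mul s3 (k (.ofNat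 (nat_lit 590038)))))) (mul (pow s3 2) (k (.ofNat (nat_lit 590038)))))) (mul (pow s3 3) (k (.ofNat (nat_lit 371904)))))))) (add (mul s1 (add (mul s1 (add (mul s1 (add (mul s1 (k (.ofNat (nat_lit 40676)))) (add (mul s2 (k (.negSucc (nat_lit 985891)))) (mul s3 (k (.negSucc (nat_lit 985891))))))) (add (mul s2 (add (mul s2 (k (.negSucc (nat_lit 846223)))) (mul s3 (k (.ofNat (nat_lit 3132240)))))) (mul (pow s3 2) (k (.negSucc (nat_lit 846223))))))) (add (mul s2 (add (mul s2 (add (mul s2 (k (.negSucc (nat_lit 985891)))) (mul s3 (k (.ofNat (nat_lit 3132240)))))) (mul (pow s3 2) (k (.ofNat (nat_lit 3132240)))))) (mul (pow s3 3) (k (.negSucc (nat_lit 985891))))))) (add (mul s2 (add (mul s2 (add (mul s2 (add (mul s2 (k (.ofNat (nat_lit 40676)))) (mul s3 (k (.negSucc (nat_lit 985891)))))) (mul (pow s3 2) (k (.negSucc (nat_lit 846223)))))) (mul (pow s3 3) (k (.negSucc (nat_lit 985891)))))) (mul (pow s3 4) (k (.ofNat (nat_lit 40676)))))))) (add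 (mul s1 (add (mul s1 (add (mul s1 (add (mul s1 (add (mul s1 (k (.negSucc (nat_lit 24103)))) (add (mul s2 (k (.negSucc (nat_lit 180055)))) (mul s3 (k (.negSucc (nat_lit 180055))))))) (add (mul s2 (add (mul s2 (k (.ofNat (nat_lit 708250)))) (mul s3 (k (.ofNat (nat_lit 1566784)))))) (mul (pow s3 2) (k (.ofNat (nat_lit 708250))))))) (add (mul s2 (add (mul s2 (add (mul s2 (k (.ofNat (nat_lit 708250)))) (mul s3 (k (.negSucc (nat_lit 3069375)))))) (mul (pow s3 2) (k (.negSucc (nat_lit 3069375)))))) (mul (pow s3 3) (k (.ofNat (nat_lit 708250))))))) (add (mul s2 (add (mul s2 (add (mul s2 (add (mul s2 (k (.negSucc (nat_lit 180055)))) (mul s3 (k (.ofNat (nat_lit 1566784)))))) (mul (pow s3 2) (k (.negSucc (nat_lit 3069375)))))) (mul (pow s3 3) (k (.ofNat (nat_lit 1566784)))))) (mul (pow s3 4) (k (.negSucc (nat_lit 180055))))))) (add (mul s2 (add (mul s2 (add (mul s2 (add (mul s2 (add (mul s2 (k (.negSucc (nat_lit 24103)))) (mul s3 (k (.negSucc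 (nat_lit 180055)))))) (mul (pow s3 2) (k (.ofNat (nat_lit 708250)))))) (mul (pow s3 3) (k (.ofNat (nat_lit 708250)))))) (mul (pow s3 4) (k (.negSucc (nat_lit 180055)))))) (mul (pow s3 5) (k (.negSucc (nat_lit 24103)))))))) (add (mul s1 (add (mul s1 (add (mul s1 (add (mul s1 (add (mul s1 (add (mul s1 (k (.negSucc (nat_lit 595)))) (add (mul s2 (k (.ofNat (nat_lit 15314)))) (mul s3 (k (.ofNat (nat_lit 15314))))))) (add (mul s2 (add (mul s2 (k (.ofNat (nat_lit 131604)))) (mul s3 (k (.ofNat (nat_lit 436)))))) (mul (pow s3 2) (k (.ofNat (nat_lit 131604))))))) (add (mul s2 (add (mul s2 (add (mul s2 (k (.negSucc (nat_lit 368679)))) (mul s3 (k (.negSucc (nat_lit 223871)))))) (mul (pow s3 2) (k (.negSucc (nat_lit 223871)))))) (mul (pow s3 3) (k (.negSucc (nat_lit 368679))))))) (add (mul s2 (add (mul s2 (add (mul s2 (add (mul s2 (k (.ofNat (nat_lit 131604)))) (mul s3 (k (.negSucc (nat_lit 223871)))))) (mul (pow s3 2) (k (.ofNat (nat_lit 1919244))))))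 (mul (pow s3 3) (k (.negSucc (nat_lit 223871)))))) (mul (pow s3 4) (k (.ofNat (nat_lit 131604))))))) (add (mul s2 (add (mul s2 (add (mul s2 (add (mul s2 (add (mul s2 (k (.ofNat (nat_lit 15314)))) (mul s3 (k (.ofNat (nat_lit 436)))))) (mul (pow s3 2) (k (.negSucc (nat_lit 223871)))))) (mul (pow s3 3) (k (.negSucc (nat_lit 223871)))))) (mul (pow s3 4) (k (.ofNat (nat_lit 436)))))) (mul (pow s3 5) (k (.ofNat (nat_lit 15314))))))) (add (mul s2 (add (mul s2 (add (mul s2 (add (mul s2 (add (mul s2 (add (mul s2 (k (.negSucc (nat_lit 595)))) (mul s3 (k (.ofNat (nat_lit 15314)))))) (mul (pow s3 2) (k (.ofNat (nat_lit 131604)))))) (mul (pow s3 3) (k (.negSucc (nat_lit 368679)))))) (mul (pow s3 4) (k (.ofNat (nat_lit 131604)))))) (mul (pow s3 5) (k (.ofNat (nat_lit 15314)))))) (mul (pow s3 6) (k (.negSucc (nat_lit 595))))))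
def kr3120 : PExp := add (mul s0 (add (mul s0 (add (mul s0 (add (mul s0 (add (mul s0 (add (mul s0 (k (.ofNat (nat_lit 10836)))) (add (mul s1 (k (.negSucc (nat_lit 162855)))) (add (mul s2 (k (.negSucc (nat_lit 75581)))) (mul s3 (k (.negSucc (nat_lit 28009)))))))) (add (mul s1 (add (mul s1 (k (.ofNat (nat_lit 179086)))) (add (mul s2 (k (.ofNat (nat_lit 1004130)))) (mul s3 (k (.ofNat (nat_lit 85490))))))) (add (mul s2 (add (mul s2 (k (.ofNat (nat_lit 102302)))) (mul s3 (k (.negSucc (nat_lit 244513)))))) (mul (pow s3 2) (k (.ofNat (nat_lit 166214)))))))) (add (mul s1 (add (mul s1 (add (mul s1 (k (.ofNat (nat_lit 538020)))) (add (mul s2 (k (.negSucc (nat_lit 800143)))) (mul s3 (k (.negSucc (nat_lit 1476847))))))) (add (mul s2 (add (mul s2 (k (.negSucc (nat_lit 2165303)))) (mul s3 (k (.ofNat (nat_lit 590038)))))) (mul (pow s3 2) (k (.ofNat (nat_lit 1172184))))))) (add (mul s2 (add (mul s2 (add (mul s2 (k (.ofNat (nat_lit 145386)))) (mul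 s3 (k (.ofNat (nat_lit 1730576)))))) (mul (pow s3 2) (k (.negSucc (nat_lit 1476847)))))) (mul (pow s3 3) (k (.negSucc (nat_lit 240581)))))))) (add (mul s1 (add (mul s1 (add (mul s1 (add (mul s1 (k (.negSucc (nat_lit 580169)))) (add (mul s2 (k (.negSucc (nat_lit 20809)))) (mul s3 (k (.ofNat (nat_lit 779604))))))) (add (mul s2 (add (mul s2 (k (.ofNat (nat_lit 294672)))) (mul s3 (k (.negSucc (nat_lit 109261)))))) (mul (pow s3 2) (k (.ofNat (nat_lit 1088034))))))) (add (mul s2 (add (mul s2 (add (mul s2 (k (.ofNat (nat_lit 2030976)))) (mul s3 (k (.ofNat (nat_lit 90034)))))) (mul (pow s3 2) (k (.negSucc (nat_lit 1196751)))))) (mul (pow s3 3) (k (.negSucc (nat_lit 1612883))))))) (add (mul s2 (add (mul s2 (add (mul s2 (add (mul s2 (k (.negSucc (nat_lit 218831)))) (mul s3 (k (.negSucc (nat_lit 1718075)))))) (mul (pow s3 2) (k (.negSucc (nat_lit 89533)))))) (mul (pow s3 3) (k (.ofNat (nat_lit 2210688)))))) (mul (pow s3 4) (k (.ofNat (nat_lit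 81228)))))))) (add (mul s1 (add (mul s1 (add (mul s1 (add (mul s1 (add (mul s1 (k (.ofNat (nat_lit 143646)))) (add (mul s2 (k (.ofNat (nat_lit 202882)))) (mul s3 (k (.negSucc (nat_lit 363083))))))) (add (mul s2 (add (mul s2 (k (.ofNat (nat_lit 80396)))) (mul s3 (k (.ofNat (nat_lit 708250)))))) (mul (pow s3 2) (k (.negSucc (nat_lit 257311))))))) (add (mul s2 (add (mul s2 (add (mul s2 (k (.negSucc (nat_lit 20809)))) (mul s3 (k (.negSucc (nat_lit 156185)))))) (mul (pow s3 2) (k (.negSucc (nat_lit 1001959)))))) (mul (pow s3 3) (k (.ofNat (nat_lit 239942))))))) (add (mul s2 (add (mul s2 (add (mul s2 (add (mul s2 (k (.negSucc (nat_lit 509659)))) (mul s3 (k (.negSucc (nat_lit 985891)))))) (mul (pow s3 2) (k (.ofNat (nat_lit 2200456)))))) (mul (pow s3 3) (k (.negSucc (nat_lit 223871)))))) (mul (pow s3 4) (k (.ofNat (nat_lit 377650))))))) (add (mul s2 (add (mul s2 (add (mul s2 (add (mul s2 (add (mul s2 (k (.ofNat (nat_lit 37368)))) (mul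 s3 (k (.ofNat (nat_lit 392832)))))) (mul (pow s3 2) (k (.ofNat (nat_lit 779604)))))) (mul (pow s3 3) (k (.negSucc (nat_lit 1394593)))))) (mul (pow s3 4) (k (.negSucc (nat_lit 279931)))))) (mul (pow s3 5) (k (.ofNat (nat_lit 19402)))))))) (add (mul s1 (add (mul s1 (add (mul s1 (add (mul s1 (add (mul s1 (add (mul s1 (k (.negSucc (nat_lit 7007)))) (add (mul s2 (k (.negSucc (nat_lit 104501)))) (mul s3 (k (.ofNat (nat_lit 8716))))))) (add (mul s2 (add (mul s2 (k (.ofNat (nat_lit 162340)))) (mul s3 (k (.ofNat (nat_lit 74158)))))) (mul (pow s3 2) (k (.ofNat (nat_lit 244430))))))) (add (mul s2 (add (mul s2 (add (mul s2 (k (.ofNat (nat_lit 147062)))) (mul s3 (k (.negSucc (nat_lit 1394593)))))) (mul (pow s3 2) (k (.ofNat (nat_lit 239942)))))) (mul (pow s3 3) (k (.negSucc (nat_lit 409991))))))) (add (mul s2 (add (mul s2 (add (mul s2 (add (mul s2 (k (.negSucc (nat_lit 436791)))) (mul s3 (k (.ofNat (nat_lit 2210688)))))) (mul (pow s3 2) (k (.negSucc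 (nat_lit 774799)))))) (mul (pow s3 3) (k (.ofNat (nat_lit 589078)))))) (mul (pow s3 4) (k (.ofNat (nat_lit 84180))))))) (add (mul s2 (add (mul s2 (add (mul s2 (add (mul s2 (add (mul s2 (k (.ofNat (nat_lit 152170)))) (mul s3 (k (.negSucc (nat_lit 171619)))))) (mul (pow s3 2) (k (.negSucc (nat_lit 1612883)))))) (mul (pow s3 3) (k (.ofNat (nat_lit 1381968)))))) (mul (pow s3 4) (k (.negSucc (nat_lit 515387)))))) (mul (pow s3 5) (k (.ofNat (nat_lit 12686))))))) (add (mul s2 (add (mul s2 (add (mul s2 (add (mul s2 (add (mul s2 (add (mul s2 (k (.ofNat (nat_lit 2232)))) (mul s3 (k (.negSucc (nat_lit 112807)))))) (mul (pow s3 2) (k (.ofNat (nat_lit 345402)))))) (mul (pow s3 3) (k (.negSucc (nat_lit 188215)))))) (mul (pow s3 4) (k (.ofNat (nat_lit 70040)))))) (mul (pow s3 5) (k (.ofNat (nat_lit 13380)))))) (mul (pow s3 6) (k (.negSucc (nat_lit 6683))))))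
def kr3201 : PExp := add (mul s0 (add (mul s0 (add (mul s0 (add (mul s0 (add (mul s0 (add (mul s0 (k (.ofNat (nat_lit 10836)))) (add (mul s1 (k (.negSucc (nat_lit 75581)))) (add (mul s2 (k (.negSucc (nat_lit 28009)))) (mul s3 (k (.negSucc (nat_lit 162855)))))))) (add (mul s1 (add (mul s1 (k (.ofNat (nat_lit 102302)))) (add (mul s2 (k (.negSucc (nat_lit 244513)))) (mul s3 (k (.ofNat (nat_lit 1004130))))))) (add (mul s2 (add (mul s2 (k (.ofNat (nat_lit 166214)))) (mul s3 (k (.ofNat (nat_lit 85490)))))) (mul (pow s3 2) (k (.ofNat (nat_lit 179086)))))))) (add (mul s1 (add (mul s1 (add (mul s1 (k (.ofNat (nat_lit 145386)))) (add (mul s2 (k (.ofNat (nat_lit 1730576)))) (mul s3 (k (.negSucc (nat_lit 2165303))))))) (add (mul s2 (add (mul s2 (k (.negSucc (nat_lit 1476847)))) (mul s3 (k (.ofNat (nat_lit 590038)))))) (mul (pow s3 2) (k (.negSucc (nat_lit 800143))))))) (add (mul s2 (add (mul s2 (add (mul s2 (k (.negSucc (nat_lit 240581))))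 (mul s3 (k (.ofNat (nat_lit 1172184)))))) (mul (pow s3 2) (k (.negSucc (nat_lit 1476847)))))) (mul (pow s3 3) (k (.ofNat (nat_lit 538020)))))))) (add (mul s1 (add (mul s1 (add (mul s1 (add (mul s1 (k (.negSucc (nat_lit 218831)))) (add (mul s2 (k (.negSucc (nat_lit 1718075)))) (mul s3 (k (.ofNat (nat_lit 2030976))))))) (add (mul s2 (add (mul s2 (k (.negSucc (nat_lit 89533)))) (mul s3 (k (.ofNat (nat_lit 90034)))))) (mul (pow s3 2) (k (.ofNat (nat_lit 294672))))))) (add (mul s2 (add (mul s2 (add (mul s2 (k (.ofNat (nat_lit 2210688)))) (mul s3 (k (.negSucc (nat_lit 1196751)))))) (mul (pow s3 2) (k (.negSucc (nat_lit 109261)))))) (mul (pow s3 3) (k (.negSucc (nat_lit 20809))))))) (add (mul s2 (add (mul s2 (add (mul s2 (add (mul s2 (k (.ofNat (nat_lit 81228)))) (mul s3 (k (.negSucc (nat_lit 1612883)))))) (mul (pow s3 2) (k (.ofNat (nat_lit 1088034)))))) (mul (pow s3 3) (k (.ofNat (nat_lit 779604)))))) (mul (pow s3 4) (k (.negSucc (nat_lit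 580169)))))))) (add (mul s1 (add (mul s1 (add (mul s1 (add (mul s1 (add (mul s1 (k (.ofNat (nat_lit 37368)))) (add (mul s2 (k (.ofNat (nat_lit 392832)))) (mul s3 (k (.negSucc (nat_lit 509659))))))) (add (mul s2 (add (mul s2 (k (.ofNat (nat_lit 779604)))) (mul s3 (k (.negSucc (nat_lit 985891)))))) (mul (pow s3 2) (k (.negSucc (nat_lit 20809))))))) (add (mul s2 (add (mul s2 (add (mul s2 (k (.negSucc (nat_lit 1394593)))) (mul s3 (k (.ofNat (nat_lit 2200456)))))) (mul (pow s3 2) (k (.negSucc (nat_lit 156185)))))) (mul (pow s3 3) (k (.ofNat (nat_lit 80396))))))) (add (mul s2 (add (mul s2 (add (mul s2 (add (mul s2 (k (.negSucc (nat_lit 279931)))) (mul s3 (k (.negSucc (nat_lit 223871)))))) (mul (pow s3 2) (k (.negSucc (nat_lit 1001959)))))) (mul (pow s3 3) (k (.ofNat (nat_lit 708250)))))) (mul (pow s3 4) (k (.ofNat (nat_lit 202882))))))) (add (mul s2 (add (mul s2 (add (mul s2 (add (mul s2 (add (mul s2 (k (.ofNat (nat_lit 19402)))) (mul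 s3 (k (.ofNat (nat_lit 377650)))))) (mul (pow s3 2) (k (.ofNat (nat_lit 239942)))))) (mul (pow s3 3) (k (.negSucc (nat_lit 257311)))))) (mul (pow s3 4) (k (.negSucc (nat_lit 363083)))))) (mul (pow s3 5) (k (.ofNat (nat_lit 143646)))))))) (add (mul s1 (add (mul s1 (add (mul s1 (add (mul s1 (add (mul s1 (add (mul s1 (k (.ofNat (nat_lit 2232)))) (add (mul s2 (k (.negSucc (nat_lit 112807)))) (mul s3 (k (.ofNat (nat_lit 152170))))))) (add (mul s2 (add (mul s2 (k (.ofNat (nat_lit 345402)))) (mul s3 (k (.negSucc (nat_lit 171619)))))) (mul (pow s3 2) (k (.negSucc (nat_lit 436791))))))) (add (mul s2 (add (mul s2 (add (mul s2 (k (.negSucc (nat_lit 188215)))) (mul s3 (k (.negSucc (nat_lit 1612883)))))) (mul (pow s3 2) (k (.ofNat (nat_lit 2210688)))))) (mul (pow s3 3) (k (.ofNat (nat_lit 147062))))))) (add (mul s2 (add (mul s2 (add (mul s2 (add (mul s2 (k (.ofNat (nat_lit 70040)))) (mul s3 (k (.ofNat (nat_lit 1381968)))))) (mul (pow s3 2) (k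 (.negSucc (nat_lit 774799)))))) (mul (pow s3 3) (k (.negSucc (nat_lit 1394593)))))) (mul (pow s3 4) (k (.ofNat (nat_lit 162340))))))) (add (mul s2 (add (mul s2 (add (mul s2 (add (mul s2 (add (mul s2 (k (.ofNat (nat_lit 13380)))) (mul s3 (k (.negSucc (nat_lit 515387)))))) (mul (pow s3 2) (k (.ofNat (nat_lit 589078)))))) (mul (pow s3 3) (k (.ofNat (nat_lit 239942)))))) (mul (pow s3 4) (k (.ofNat (nat_lit 74158)))))) (mul (pow s3 5) (k (.negSucc (nat_lit 104501))))))) (add (mul s2 (add (mul s2 (add (mul s2 (add (mul s2 (add (mul s2 (add (mul s2 (k (.negSucc (nat_lit 6683)))) (mul s3 (k (.ofNat (nat_lit 12686)))))) (mul (pow s3 2) (k (.ofNat (nat_lit 84180)))))) (mul (pow s3 3) (k (.negSucc (nat_lit 409991)))))) (mul (pow s3 4) (k (.ofNat (nat_lit 244430)))))) (mul (pow s3 5) (k (.ofNat (nat_lit 8716)))))) (mul (pow s3 6) (k (.negSucc (nat_lit 7007))))))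
def kr3210 : PExp := add (mul s0 (add (mul s0 (add (mul s0 (add (mul s0 (add (mul s0 (add (mul s0 (k (.ofNat (nat_lit 10836)))) (add (mul s1 (k (.negSucc (nat_lit 75581)))) (add (mul s2 (k (.negSucc (nat_lit 162855)))) (mul s3 (k (.negSucc (nat_lit 28009)))))))) (add (mul s1 (add (mul s1 (k (.ofNat (nat_lit 102302)))) (add (mul s2 (k (.ofNat (nat_lit 1004130)))) (mul s3 (k (.negSucc (nat_lit 244513))))))) (add (mul s2 (add (mul s2 (k (.ofNat (nat_lit 179086)))) (mul s3 (k (.ofNat (nat_lit 85490)))))) (mul (pow s3 2) (k (.ofNat (nat_lit 166214)))))))) (add (mul s1 (add (mul s1 (add (mul s1 (k (.ofNat (nat_lit 145386)))) (add (mul s2 (k (.negSucc (nat_lit 2165303)))) (mul s3 (k (.ofNat (nat_lit 1730576))))))) (add (mul s2 (add (mul s2 (k (.negSucc (nat_lit 800143)))) (mul s3 (k (.ofNat (nat_lit 590038)))))) (mul (pow s3 2) (k (.negSucc (nat_lit 1476847))))))) (add (mul s2 (add (mul s2 (add (mul s2 (k (.ofNat (nat_lit 538020)))) (mul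 s3 (k (.negSucc (nat_lit 1476847)))))) (mul (pow s3 2) (k (.ofNat (nat_lit 1172184)))))) (mul (pow s3 3) (k (.negSucc (nat_lit 240581)))))))) (add (mul s1 (add (mul s1 (add (mul s1 (add (mul s1 (k (.negSucc (nat_lit 218831)))) (add (mul s2 (k (.ofNat (nat_lit 2030976)))) (mul s3 (k (.negSucc (nat_lit 1718075))))))) (add (mul s2 (add (mul s2 (k (.ofNat (nat_lit 294672)))) (mul s3 (k (.ofNat (nat_lit 90034)))))) (mul (pow s3 2) (k (.negSucc (nat_lit 89533))))))) (add (mul s2 (add (mul s2 (add (mul s2 (k (.negSucc (nat_lit 20809)))) (mul s3 (k (.negSucc (nat_lit 109261)))))) (mul (pow s3 2) (k (.negSucc (nat_lit 1196751)))))) (mul (pow s3 3) (k (.ofNat (nat_lit 2210688))))))) (add (mul s2 (add (mul s2 (add (mul s2 (add (mul s2 (k (.negSucc (nat_lit 580169)))) (mul s3 (k (.ofNat (nat_lit 779604)))))) (mul (pow s3 2) (k (.ofNat (nat_lit 1088034)))))) (mul (pow s3 3) (k (.negSucc (nat_lit 1612883)))))) (mul (pow s3 4) (k (.ofNat (nat_lit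 81228)))))))) (add (mul s1 (add (mul s1 (add (mul s1 (add (mul s1 (add (mul s1 (k (.ofNat (nat_lit 37368)))) (add (mul s2 (k (.negSucc (nat_lit 509659)))) (mul s3 (k (.ofNat (nat_lit 392832))))))) (add (mul s2 (add (mul s2 (k (.negSucc (nat_lit 20809)))) (mul s3 (k (.negSucc (nat_lit 985891)))))) (mul (pow s3 2) (k (.ofNat (nat_lit 779604))))))) (add (mul s2 (add (mul s2 (add (mul s2 (k (.ofNat (nat_lit 80396)))) (mul s3 (k (.negSucc (nat_lit 156185)))))) (mul (pow s3 2) (k (.ofNat (nat_lit 2200456)))))) (mul (pow s3 3) (k (.negSucc (nat_lit 1394593))))))) (add (mul s2 (add (mul s2 (add (mul s2 (add (mul s2 (k (.ofNat (nat_lit 202882)))) (mul s3 (k (.ofNat (nat_lit 708250)))))) (mul (pow s3 2) (k (.negSucc (nat_lit 1001959)))))) (mul (pow s3 3) (k (.negSucc (nat_lit 223871)))))) (mul (pow s3 4) (k (.negSucc (nat_lit 279931))))))) (add (mul s2 (add (mul s2 (add (mul s2 (add (mul s2 (add (mul s2 (k (.ofNat (nat_lit 143646)))) (mul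 s3 (k (.negSucc (nat_lit 363083)))))) (mul (pow s3 2) (k (.negSucc (nat_lit 257311)))))) (mul (pow s3 3) (k (.ofNat (nat_lit 239942)))))) (mul (pow s3 4) (k (.ofNat (nat_lit 377650)))))) (mul (pow s3 5) (k (.ofNat (nat_lit 19402)))))))) (add (mul s1 (add (mul s1 (add (mul s1 (add (mul s1 (add (mul s1 (add (mul s1 (k (.ofNat (nat_lit 2232)))) (add (mul s2 (k (.ofNat (nat_lit 152170)))) (mul s3 (k (.negSucc (nat_lit 112807))))))) (add (mul s2 (add (mul s2 (k (.negSucc (nat_lit 436791)))) (mul s3 (k (.negSucc (nat_lit 171619)))))) (mul (pow s3 2) (k (.ofNat (nat_lit 345402))))))) (add (mul s2 (add (mul s2 (add (mul s2 (k (.ofNat (nat_lit 147062)))) (mul s3 (k (.ofNat (nat_lit 2210688)))))) (mul (pow s3 2) (k (.negSucc (nat_lit 1612883)))))) (mul (pow s3 3) (k (.negSucc (nat_lit 188215))))))) (add (mul s2 (add (mul s2 (add (mul s2 (add (mul s2 (k (.ofNat (nat_lit 162340)))) (mul s3 (k (.negSucc (nat_lit 1394593)))))) (mul (pow s3 2)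 (k (.negSucc (nat_lit 774799)))))) (mul (pow s3 3) (k (.ofNat (nat_lit 1381968)))))) (mul (pow s3 4) (k (.ofNat (nat_lit 70040))))))) (add (mul s2 (add (mul s2 (add (mul s2 (add (mul s2 (add (mul s2 (k (.negSucc (nat_lit 104501)))) (mul s3 (k (.ofNat (nat_lit 74158)))))) (mul (pow s3 2) (k (.ofNat (nat_lit 239942)))))) (mul (pow s3 3) (k (.ofNat (nat_lit 589078)))))) (mul (pow s3 4) (k (.negSucc (nat_lit 515387)))))) (mul (pow s3 5) (k (.ofNat (nat_lit 13380))))))) (add (mul s2 (add (mul s2 (add (mul s2 (add (mul s2 (add (mul s2 (add (mul s2 (k (.negSucc (nat_lit 7007)))) (mul s3 (k (.ofNat (nat_lit 8716)))))) (mul (pow s3 2) (k (.ofNat (nat_lit 244430)))))) (mul (pow s3 3) (k (.negSucc (nat_lit 409991)))))) (mul (pow s3 4) (k (.ofNat (nat_lit 84180)))))) (mul (pow s3 5) (k (.ofNat (nat_lit 12686)))))) (mul (pow s3 6) (k (.negSucc (nat_lit 6683))))))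
def kr3300 : PExp := add (mul s0 (add (mul s0 (add (mul s0 (add (mul s0 (add (mul s0 (add (mul s0 (k (.ofNat (nat_lit 780)))) (add (mul s1 (k (.negSucc (nat_lit 341423)))) (add (mul s2 (k (.ofNat (nat_lit 74462)))) (mul s3 (k (.ofNat (nat_lit 74462)))))))) (add (mul s1 (add (mul s1 (k (.ofNat (nat_lit 2290584)))) (add (mul s2 (k (.negSucc (nat_lit 282561)))) (mul s3 (k (.negSucc (nat_lit 282561))))))) (add (mul s2 (add (mul s2 (k (.negSucc (nat_lit 379129)))) (mul s3 (k (.ofNat (nat_lit 150436)))))) (mul (pow s3 2) (k (.negSucc (nat_lit 379129)))))))) (add (mul s1 (add (mul s1 (add (mul s1 (k (.negSucc (nat_lit 3837791)))) (add (mul s2 (k (.ofNat (nat_lit 145386)))) (mul s3 (k (.ofNat (nat_lit 145386))))))) (add (mul s2 (add (mul s2 (k (.ofNat (nat_lit 538020)))) (mul s3 (k (.ofNat (nat_lit 371904)))))) (mul (pow s3 2) (k (.ofNat (nat_lit 538020))))))) (add (mul s2 (add (mul s2 (add (mul s2 (k (.ofNat (nat_lit 531764)))) (mul s3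 (k (.negSucc (nat_lit 240581)))))) (mul (pow s3 2) (k (.negSucc (nat_lit 240581)))))) (mul (pow s3 3) (k (.ofNat (nat_lit 531764)))))))) (add (mul s1 (add (mul s1 (add (mul s1 (add (mul s1 (k (.ofNat (nat_lit 2290584)))) (add (mul s2 (k (.ofNat (nat_lit 145386)))) (mul s3 (k (.ofNat (nat_lit 145386))))))) (add (mul s2 (add (mul s2 (k (.negSucc (nat_lit 1010959)))) (mul s3 (k (.ofNat (nat_lit 270184)))))) (mul (pow s3 2) (k (.negSucc (nat_lit 1010959))))))) (add (mul s2 (add (mul s2 (add (mul s2 (k (.ofNat (nat_lit 147062)))) (mul s3 (k (.negSucc (nat_lit 367665)))))) (mul (pow s3 2) (k (.negSucc (nat_lit 367665)))))) (mul (pow s3 3) (k (.ofNat (nat_lit 147062))))))) (add (mul s2 (add (mul s2 (add (mul s2 (add (mul s2 (k (.negSucc (nat_lit 304563)))) (mul s3 (k (.negSucc (nat_lit 188215)))))) (mul (pow s3 2) (k (.ofNat (nat_lit 1026424)))))) (mul (pow s3 3) (k (.negSucc (nat_lit 188215)))))) (mul (pow s3 4) (k (.negSucc (nat_lit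 304563)))))))) (add (mul s1 (add (mul s1 (add (mul s1 (add (mul s1 (add (mul s1 (k (.negSucc (nat_lit 341423)))) (add (mul s2 (k (.negSucc (nat_lit 282561)))) (mul s3 (k (.negSucc (nat_lit 282561))))))) (add (mul s2 (add (mul s2 (k (.ofNat (nat_lit 538020)))) (mul s3 (k (.ofNat (nat_lit 371904)))))) (mul (pow s3 2) (k (.ofNat (nat_lit 538020))))))) (add (mul s2 (add (mul s2 (add (mul s2 (k (.ofNat (nat_lit 147062)))) (mul s3 (k (.negSucc (nat_lit 367665)))))) (mul (pow s3 2) (k (.negSucc (nat_lit 367665)))))) (mul (pow s3 3) (k (.ofNat (nat_lit 147062))))))) (add (mul s2 (add (mul s2 (add (mul s2 (add (mul s2 (k (.negSucc (nat_lit 72735)))) (mul s3 (k (.negSucc (nat_lit 368679)))))) (mul (pow s3 2) (k (.ofNat (nat_lit 1185888)))))) (mul (pow s3 3) (k (.negSucc (nat_lit 368679)))))) (mul (pow s3 4) (k (.negSucc (nat_lit 72735))))))) (add (mul s2 (add (mul s2 (add (mul s2 (add (mul s2 (add (mul s2 (k (.ofNat (nat_lit 18528)))) (mul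 s3 (k (.ofNat (nat_lit 279272)))))) (mul (pow s3 2) (k (.negSucc (nat_lit 409991)))))) (mul (pow s3 3) (k (.negSucc (nat_lit 409991)))))) (mul (pow s3 4) (k (.ofNat (nat_lit 279272)))))) (mul (pow s3 5) (k (.ofNat (nat_lit 18528)))))))) (add (mul s1 (add (mul s1 (add (mul s1 (add (mul s1 (add (mul s1 (add (mul s1 (k (.ofNat (nat_lit 780)))) (add (mul s2 (k (.ofNat (nat_lit 74462)))) (mul s3 (k (.ofNat (nat_lit 74462))))))) (add (mul s2 (add (mul s2 (k (.negSucc (nat_lit 379129)))) (mul s3 (k (.ofNat (nat_lit 150436)))))) (mul (pow s3 2) (k (.negSucc (nat_lit 379129))))))) (add (mul s2 (add (mul s2 (add (mul s2 (k (.ofNat (nat_lit 531764)))) (mul s3 (k (.negSucc (nat_lit 240581)))))) (mul (pow s3 2) (k (.negSucc (nat_lit 240581)))))) (mul (pow s3 3) (k (.ofNat (nat_lit 531764))))))) (add (mul s2 (add (mul s2 (add (mul s2 (add (mul s2 (k (.negSucc (nat_lit 304563)))) (mul s3 (k (.negSucc (nat_lit 188215)))))) (mul (pow s3 2) (k (.ofNat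 (nat_lit 1026424)))))) (mul (pow s3 3) (k (.negSucc (nat_lit 188215)))))) (mul (pow s3 4) (k (.negSucc (nat_lit 304563))))))) (add (mul s2 (add (mul s2 (add (mul s2 (add (mul s2 (add (mul s2 (k (.ofNat (nat_lit 18528)))) (mul s3 (k (.ofNat (nat_lit 279272)))))) (mul (pow s3 2) (k (.negSucc (nat_lit 409991)))))) (mul (pow s3 3) (k (.negSucc (nat_lit 409991)))))) (mul (pow s3 4) (k (.ofNat (nat_lit 279272)))))) (mul (pow s3 5) (k (.ofNat (nat_lit 18528))))))) (add (mul s2 (add (mul s2 (add (mul s2 (add (mul s2 (add (mul s2 (add (mul s2 (k (.ofNat (nat_lit 2168)))) (mul s3 (k (.ofNat (nat_lit 148540)))))) (mul (pow s3 2) (k (.negSucc (nat_lit 1008699)))))) (mul (pow s3 3) (k (.ofNat (nat_lit 1757920)))))) (mul (pow s3 4) (k (.negSucc (nat_lit 1008699)))))) (mul (pow s3 5) (k (.ofNat (nat_lit 148540)))))) (mul (pow s3 6) (k (.ofNat (nat_lit 2168))))))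
def kr4002 : PExp := add (mul s0 (add (mul s0 (add (mul s0 (add (mul s0 (add (mul s0 (add (mul s0 (k (.ofNat (nat_lit 24464)))) (add (mul s1 (k (.negSucc (nat_lit 8559)))) (add (mul s2 (k (.negSucc (nat_lit 8559)))) (mul s3 (k (.ofNat (nat_lit 197172)))))))) (add (mul s1 (add (mul s1 (k (.ofNat (nat_lit 228140)))) (add (mul s2 (k (.negSucc (nat_lit 124143)))) (mul s3 (k (.ofNat (nat_lit 4436))))))) (add (mul s2 (add (mul s2 (k (.ofNat (nat_lit 228140)))) (mul s3 (k (.ofNat (nat_lit 4436)))))) (mul (pow s3 2) (k (.negSucc (nat_lit 1242039)))))))) (add (mul s1 (add (mul s1 (add (mul s1 (k (.negSucc (nat_lit 379129)))) (add (mul s2 (k (.ofNat (nat_lit 166214)))) (mul s3 (k (.ofNat (nat_lit 179086))))))) (add (mul s2 (add (mul s2 (k (.ofNat (nat_lit 166214)))) (mul s3 (k (.negSucc (nat_lit 405655)))))) (mul (pow s3 2) (k (.ofNat (nat_lit 102302))))))) (add (mul s2 (add (mul s2 (add (mul s2 (k (.negSucc (nat_lit 379129)))) (mul s3 (k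 (.ofNat (nat_lit 179086)))))) (mul (pow s3 2) (k (.ofNat (nat_lit 102302)))))) (mul (pow s3 3) (k (.ofNat (nat_lit 2290584)))))))) (add (mul s1 (add (mul s1 (add (mul s1 (add (mul s1 (k (.ofNat (nat_lit 305860)))) (add (mul s2 (k (.ofNat (nat_lit 345402)))) (mul s3 (k (.negSucc (nat_lit 436791))))))) (add (mul s2 (add (mul s2 (k (.negSucc (nat_lit 874175)))) (mul s3 (k (.ofNat (nat_lit 281134)))))) (mul (pow s3 2) (k (.ofNat (nat_lit 444912))))))) (add (mul s2 (add (mul s2 (add (mul s2 (k (.ofNat (nat_lit 345402)))) (mul s3 (k (.ofNat (nat_lit 281134)))))) (mul (pow s3 2) (k (.negSucc (nat_lit 74083)))))) (mul (pow s3 3) (k (.negSucc (nat_lit 218831))))))) (add (mul s2 (add (mul s2 (add (mul s2 (add (mul s2 (k (.ofNat (nat_lit 305860)))) (mul s3 (k (.negSucc (nat_lit 436791)))))) (mul (pow s3 2) (k (.ofNat (nat_lit 444912)))))) (mul (pow s3 3) (k (.negSucc (nat_lit 218831)))))) (mul (pow s3 4) (k (.negSucc (nat_lit 1547831))))))))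 (add (mul s1 (add (mul s1 (add (mul s1 (add (mul s1 (add (mul s1 (k (.negSucc (nat_lit 40259)))) (add (mul s2 (k (.negSucc (nat_lit 235585)))) (mul s3 (k (.ofNat (nat_lit 38808))))))) (add (mul s2 (add (mul s2 (k (.ofNat (nat_lit 244430)))) (mul s3 (k (.ofNat (nat_lit 131604)))))) (mul (pow s3 2) (k (.ofNat (nat_lit 162340))))))) (add (mul s2 (add (mul s2 (add (mul s2 (k (.ofNat (nat_lit 244430)))) (mul s3 (k (.negSucc (nat_lit 256599)))))) (mul (pow s3 2) (k (.negSucc (nat_lit 37241)))))) (mul (pow s3 3) (k (.negSucc (nat_lit 580169))))))) (add (mul s2 (add (mul s2 (add (mul s2 (add (mul s2 (k (.negSucc (nat_lit 235585)))) (mul s3 (k (.ofNat (nat_lit 131604)))))) (mul (pow s3 2) (k (.negSucc (nat_lit 37241)))))) (mul (pow s3 3) (k (.ofNat (nat_lit 40676)))))) (mul (pow s3 4) (k (.ofNat (nat_lit 236966))))))) (add (mul s2 (add (mul s2 (add (mul s2 (add (mul s2 (add (mul s2 (k (.negSucc (nat_lit 40259)))) (mul s3 (k (.ofNat (nat_lit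 38808)))))) (mul (pow s3 2) (k (.ofNat (nat_lit 162340)))))) (mul (pow s3 3) (k (.negSucc (nat_lit 580169)))))) (mul (pow s3 4) (k (.ofNat (nat_lit 236966)))))) (mul (pow s3 5) (k (.ofNat (nat_lit 268260)))))))) (add (mul s1 (add (mul s1 (add (mul s1 (add (mul s1 (add (mul s1 (add (mul s1 (k (.negSucc (nat_lit 287)))) (add (mul s2 (k (.negSucc (nat_lit 97829)))) (mul s3 (k (.ofNat (nat_lit 1638))))))) (add (mul s2 (add (mul s2 (k (.ofNat (nat_lit 597708)))) (mul s3 (k (.negSucc (nat_lit 63247)))))) (mul (pow s3 2) (k (.ofNat (nat_lit 136520))))))) (add (mul s2 (add (mul s2 (add (mul s2 (k (.negSucc (nat_lit 1008699)))) (mul s3 (k (.ofNat (nat_lit 84180)))))) (mul (pow s3 2) (k (.ofNat (nat_lit 70040)))))) (mul (pow s3 3) (k (.negSucc (nat_lit 304563))))))) (add (mul s2 (add (mul s2 (add (mul s2 (add (mul s2 (k (.ofNat (nat_lit 597708)))) (mul s3 (k (.ofNat (nat_lit 84180)))))) (mul (pow s3 2) (k (.negSucc (nat_lit 343231)))))) (mul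 (pow s3 3) (k (.ofNat (nat_lit 81228)))))) (mul (pow s3 4) (k (.ofNat (nat_lit 305860))))))) (add (mul s2 (add (mul s2 (add (mul s2 (add (mul s2 (add (mul s2 (k (.negSucc (nat_lit 97829)))) (mul s3 (k (.negSucc (nat_lit 63247)))))) (mul (pow s3 2) (k (.ofNat (nat_lit 70040)))))) (mul (pow s3 3) (k (.ofNat (nat_lit 81228)))))) (mul (pow s3 4) (k (.negSucc (nat_lit 90007)))))) (mul (pow s3 5) (k (.negSucc (nat_lit 51005))))))) (add (mul s2 (add (mul s2 (add (mul s2 (add (mul s2 (add (mul s2 (add (mul s2 (k (.negSucc (nat_lit 287)))) (mul s3 (k (.ofNat (nat_lit 1638)))))) (mul (pow s3 2) (k (.ofNat (nat_lit 136520)))))) (mul (pow s3 3) (k (.negSucc (nat_lit 304563)))))) (mul (pow s3 4) (k (.ofNat (nat_lit 305860)))))) (mul (pow s3 5) (k (.negSucc (nat_lit 51005)))))) (mul (pow s3 6) (k (.ofNat (nat_lit 14156))))))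
def kr4011 : PExp := add (mul s0 (add (mul s0 (add (mul s0 (add (mul s0 (add (mul s0 (add (mul s0 (k (.negSucc (nat_lit 1267)))) (add (mul s1 (k (.ofNat (nat_lit 37872)))) (add (mul s2 (k (.ofNat (nat_lit 37660)))) (mul s3 (k (.ofNat (nat_lit 37660)))))))) (add (mul s1 (add (mul s1 (k (.negSucc (nat_lit 124143)))) (add (mul s2 (k (.negSucc (nat_lit 12207)))) (mul s3 (k (.negSucc (nat_lit 12207))))))) (add (mul s2 (add (mul s2 (k (.ofNat (nat_lit 4436)))) (mul s3 (k (.negSucc (nat_lit 631871)))))) (mul (pow s3 2) (k (.ofNat (nat_lit 4436)))))))) (add (mul s1 (add (mul s1 (add (mul s1 (k (.ofNat (nat_lit 150436)))) (add (mul s2 (k (.ofNat (nat_lit 85490)))) (mul s3 (k (.ofNat (nat_lit 85490))))))) (add (mul s2 (add (mul s2 (k (.negSucc (nat_lit 244513)))) (mul s3 (k (.ofNat (nat_lit 349768)))))) (mul (pow s3 2) (k (.negSucc (nat_lit 244513))))))) (add (mul s2 (add (mul s2 (add (mul s2 (k (.negSucc (nat_lit 282561)))) (mul s3 (k (.ofNat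 (nat_lit 1004130)))))) (mul (pow s3 2) (k (.ofNat (nat_lit 1004130)))))) (mul (pow s3 3) (k (.negSucc (nat_lit 282561)))))))) (add (mul s1 (add (mul s1 (add (mul s1 (add (mul s1 (k (.negSucc (nat_lit 90007)))) (add (mul s2 (k (.negSucc (nat_lit 171619)))) (mul s3 (k (.negSucc (nat_lit 171619))))))) (add (mul s2 (add (mul s2 (k (.ofNat (nat_lit 207398)))) (mul s3 (k (.negSucc (nat_lit 38315)))))) (mul (pow s3 2) (k (.ofNat (nat_lit 207398))))))) (add (mul s2 (add (mul s2 (add (mul s2 (k (.ofNat (nat_lit 392832)))) (mul s3 (k (.negSucc (nat_lit 458507)))))) (mul (pow s3 2) (k (.negSucc (nat_lit 458507)))))) (mul (pow s3 3) (k (.ofNat (nat_lit 392832))))))) (add (mul s2 (add (mul s2 (add (mul s2 (add (mul s2 (k (.ofNat (nat_lit 236966)))) (mul s3 (k (.negSucc (nat_lit 509659)))))) (mul (pow s3 2) (k (.negSucc (nat_lit 789247)))))) (mul (pow s3 3) (k (.negSucc (nat_lit 509659)))))) (mul (pow s3 4) (k (.ofNat (nat_lit 236966))))))))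 (add (mul s1 (add (mul s1 (add (mul s1 (add (mul s1 (add (mul s1 (k (.negSucc (nat_lit 3163)))) (add (mul s2 (k (.ofNat (nat_lit 79606)))) (mul s3 (k (.ofNat (nat_lit 79606))))))) (add (mul s2 (add (mul s2 (k (.ofNat (nat_lit 74158)))) (mul s3 (k (.ofNat (nat_lit 436)))))) (mul (pow s3 2) (k (.ofNat (nat_lit 74158))))))) (add (mul s2 (add (mul s2 (add (mul s2 (k (.negSucc (nat_lit 363083)))) (mul s3 (k (.ofNat (nat_lit 162200)))))) (mul (pow s3 2) (k (.ofNat (nat_lit 162200)))))) (mul (pow s3 3) (k (.negSucc (nat_lit 363083))))))) (add (mul s2 (add (mul s2 (add (mul s2 (add (mul s2 (k (.ofNat (nat_lit 41104)))) (mul s3 (k (.negSucc (nat_lit 180055)))))) (mul (pow s3 2) (k (.ofNat (nat_lit 659104)))))) (mul (pow s3 3) (k (.negSucc (nat_lit 180055)))))) (mul (pow s3 4) (k (.ofNat (nat_lit 41104))))))) (add (mul s2 (add (mul s2 (add (mul s2 (add (mul s2 (add (mul s2 (k (.negSucc (nat_lit 60119)))) (mul s3 (k (.ofNat (nat_lit 101284))))))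 (mul (pow s3 2) (k (.ofNat (nat_lit 202882)))))) (mul (pow s3 3) (k (.ofNat (nat_lit 202882)))))) (mul (pow s3 4) (k (.ofNat (nat_lit 101284)))))) (mul (pow s3 5) (k (.negSucc (nat_lit 60119)))))))) (add (mul s1 (add (mul s1 (add (mul s1 (add (mul s1 (add (mul s1 (add (mul s1 (k (.ofNat (nat_lit 6840)))) (add (mul s2 (k (.negSucc (nat_lit 11759)))) (mul s3 (k (.negSucc (nat_lit 11759))))))) (add (mul s2 (add (mul s2 (k (.negSucc (nat_lit 63247)))) (mul s3 (k (.ofNat (nat_lit 229388)))))) (mul (pow s3 2) (k (.negSucc (nat_lit 63247))))))) (add (mul s2 (add (mul s2 (add (mul s2 (k (.ofNat (nat_lit 279272)))) (mul s3 (k (.negSucc (nat_lit 515387)))))) (mul (pow s3 2) (k (.negSucc (nat_lit 515387)))))) (mul (pow s3 3) (k (.ofNat (nat_lit 279272))))))) (add (mul s2 (add (mul s2 (add (mul s2 (add (mul s2 (k (.negSucc (nat_lit 235585)))) (mul s3 (k (.ofNat (nat_lit 377650)))))) (mul (pow s3 2) (k (.ofNat (nat_lit 308164)))))) (mul (pow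 s3 3) (k (.ofNat (nat_lit 377650)))))) (mul (pow s3 4) (k (.negSucc (nat_lit 235585))))))) (add (mul s2 (add (mul s2 (add (mul s2 (add (mul s2 (add (mul s2 (k (.ofNat (nat_lit 38288)))) (mul s3 (k (.ofNat (nat_lit 79606)))))) (mul (pow s3 2) (k (.negSucc (nat_lit 279931)))))) (mul (pow s3 3) (k (.negSucc (nat_lit 279931)))))) (mul (pow s3 4) (k (.ofNat (nat_lit 79606)))))) (mul (pow s3 5) (k (.ofNat (nat_lit 38288))))))) (add (mul s2 (add (mul s2 (add (mul s2 (add (mul s2 (add (mul s2 (add (mul s2 (k (.ofNat (nat_lit 924)))) (mul s3 (k (.negSucc (nat_lit 14673)))))) (mul (pow s3 2) (k (.ofNat (nat_lit 38808)))))) (mul (pow s3 3) (k (.negSucc (nat_lit 72735)))))) (mul (pow s3 4) (k (.ofNat (nat_lit 38808)))))) (mul (pow s3 5) (k (.negSucc (nat_lit 14673)))))) (mul (pow s3 6) (k (.ofNat (nat_lit 924))))))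
def kr4020 : PExp := add (mul s0 (add (mul s0 (add (mul s0 (add (mul s0 (add (mul s0 (add (mul s0 (k (.ofNat (nat_lit 24464)))) (add (mul s1 (k (.negSucc (nat_lit 8559)))) (add (mul s2 (k (.ofNat (nat_lit 197172)))) (mul s3 (k (.negSucc (nat_lit 8559)))))))) (add (mul s1 (add (mul s1 (k (.ofNat (nat_lit 228140)))) (add (mul s2 (k (.ofNat (nat_lit 4436)))) (mul s3 (k (.negSucc (nat_lit 124143))))))) (add (mul s2 (add (mul s2 (k (.negSucc (nat_lit 1242039)))) (mul s3 (k (.ofNat (nat_lit 4436)))))) (mul (pow s3 2) (k (.ofNat (nat_lit 228140)))))))) (add (mul s1 (add (mul s1 (add (mul s1 (k (.negSucc (nat_lit 379129)))) (add (mul s2 (k (.ofNat (nat_lit 179086)))) (mul s3 (k (.ofNat (nat_lit 166214))))))) (add (mul s2 (add (mul s2 (k (.ofNat (nat_lit 102302)))) (mul s3 (k (.negSucc (nat_lit 405655)))))) (mul (pow s3 2) (k (.ofNat (nat_lit 166214))))))) (add (mul s2 (add (mul s2 (add (mul s2 (k (.ofNat (nat_lit 2290584)))) (mul s3 (k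 (.ofNat (nat_lit 102302)))))) (mul (pow s3 2) (k (.ofNat (nat_lit 179086)))))) (mul (pow s3 3) (k (.negSucc (nat_lit 379129)))))))) (add (mul s1 (add (mul s1 (add (mul s1 (add (mul s1 (k (.ofNat (nat_lit 305860)))) (add (mul s2 (k (.negSucc (nat_lit 436791)))) (mul s3 (k (.ofNat (nat_lit 345402))))))) (add (mul s2 (add (mul s2 (k (.ofNat (nat_lit 444912)))) (mul s3 (k (.ofNat (nat_lit 281134)))))) (mul (pow s3 2) (k (.negSucc (nat_lit 874175))))))) (add (mul s2 (add (mul s2 (add (mul s2 (k (.negSucc (nat_lit 218831)))) (mul s3 (k (.negSucc (nat_lit 74083)))))) (mul (pow s3 2) (k (.ofNat (nat_lit 281134)))))) (mul (pow s3 3) (k (.ofNat (nat_lit 345402))))))) (add (mul s2 (add (mul s2 (add (mul s2 (add (mul s2 (k (.negSucc (nat_lit 1547831)))) (mul s3 (k (.negSucc (nat_lit 218831)))))) (mul (pow s3 2) (k (.ofNat (nat_lit 444912)))))) (mul (pow s3 3) (k (.negSucc (nat_lit 436791)))))) (mul (pow s3 4) (k (.ofNat (nat_lit 305860))))))))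 (add (mul s1 (add (mul s1 (add (mul s1 (add (mul s1 (add (mul s1 (k (.negSucc (nat_lit 40259)))) (add (mul s2 (k (.ofNat (nat_lit 38808)))) (mul s3 (k (.negSucc (nat_lit 235585))))))) (add (mul s2 (add (mul s2 (k (.ofNat (nat_lit 162340)))) (mul s3 (k (.ofNat (nat_lit 131604)))))) (mul (pow s3 2) (k (.ofNat (nat_lit 244430))))))) (add (mul s2 (add (mul s2 (add (mul s2 (k (.negSucc (nat_lit 580169)))) (mul s3 (k (.negSucc (nat_lit 37241)))))) (mul (pow s3 2) (k (.negSucc (nat_lit 256599)))))) (mul (pow s3 3) (k (.ofNat (nat_lit 244430))))))) (add (mul s2 (add (mul s2 (add (mul s2 (add (mul s2 (k (.ofNat (nat_lit 236966)))) (mul s3 (k (.ofNat (nat_lit 40676)))))) (mul (pow s3 2) (k (.negSucc (nat_lit 37241)))))) (mul (pow s3 3) (k (.ofNat (nat_lit 131604)))))) (mul (pow s3 4) (k (.negSucc (nat_lit 235585))))))) (add (mul s2 (add (mul s2 (add (mul s2 (add (mul s2 (add (mul s2 (k (.ofNat (nat_lit 268260)))) (mul s3 (k (.ofNat (nat_lit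 236966)))))) (mul (pow s3 2) (k (.negSucc (nat_lit 580169)))))) (mul (pow s3 3) (k (.ofNat (nat_lit 162340)))))) (mul (pow s3 4) (k (.ofNat (nat_lit 38808)))))) (mul (pow s3 5) (k (.negSucc (nat_lit 40259)))))))) (add (mul s1 (add (mul s1 (add (mul s1 (add (mul s1 (add (mul s1 (add (mul s1 (k (.negSucc (nat_lit 287)))) (add (mul s2 (k (.ofNat (nat_lit 1638)))) (mul s3 (k (.negSucc (nat_lit 97829))))))) (add (mul s2 (add (mul s2 (k (.ofNat (nat_lit 136520)))) (mul s3 (k (.negSucc (nat_lit 63247)))))) (mul (pow s3 2) (k (.ofNat (nat_lit 597708))))))) (add (mul s2 (add (mul s2 (add (mul s2 (k (.negSucc (nat_lit 304563)))) (mul s3 (k (.ofNat (nat_lit 70040)))))) (mul (pow s3 2) (k (.ofNat (nat_lit 84180)))))) (mul (pow s3 3) (k (.negSucc (nat_lit 1008699))))))) (add (mul s2 (add (mul s2 (add (mul s2 (add (mul s2 (k (.ofNat (nat_lit 305860)))) (mul s3 (k (.ofNat (nat_lit 81228)))))) (mul (pow s3 2) (k (.negSucc (nat_lit 343231))))))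 (mul (pow s3 3) (k (.ofNat (nat_lit 84180)))))) (mul (pow s3 4) (k (.ofNat (nat_lit 597708))))))) (add (mul s2 (add (mul s2 (add (mul s2 (add (mul s2 (add (mul s2 (k (.negSucc (nat_lit 51005)))) (mul s3 (k (.negSucc (nat_lit 90007)))))) (mul (pow s3 2) (k (.ofNat (nat_lit 81228)))))) (mul (pow s3 3) (k (.ofNat (nat_lit 70040)))))) (mul (pow s3 4) (k (.negSucc (nat_lit 63247)))))) (mul (pow s3 5) (k (.negSucc (nat_lit 97829))))))) (add (mul s2 (add (mul s2 (add (mul s2 (add (mul s2 (add (mul s2 (add (mul s2 (k (.ofNat (nat_lit 14156)))) (mul s3 (k (.negSucc (nat_lit 51005)))))) (mul (pow s3 2) (k (.ofNat (nat_lit 305860)))))) (mul (pow s3 3) (k (.negSucc (nat_lit 304563)))))) (mul (pow s3 4) (k (.ofNat (nat_lit 136520)))))) (mul (pow s3 5) (k (.ofNat (nat_lit 1638)))))) (mul (pow s3 6) (k (.negSucc (nat_lit 287))))))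
def kr4101 : PExp := add (mul s0 (add (mul s0 (add (mul s0 (add (mul s0 (add (mul s0 (add (mul s0 (k (.negSucc (nat_lit 1267)))) (add (mul s1 (k (.ofNat (nat_lit 37660)))) (add (mul s2 (k (.ofNat (nat_lit 37872)))) (mul s3 (k (.ofNat (nat_lit 37660)))))))) (add (mul s1 (add (mul s1 (k (.ofNat (nat_lit 4436)))) (add (mul s2 (k (.negSucc (nat_lit 12207)))) (mul s3 (k (.negSucc (nat_lit 631871))))))) (add (mul s2 (add (mul s2 (k (.negSucc (nat_lit 124143)))) (mul s3 (k (.negSucc (nat_lit 12207)))))) (mul (pow s3 2) (k (.ofNat (nat_lit 4436)))))))) (add (mul s1 (add (mul s1 (add (mul s1 (k (.negSucc (nat_lit 282561)))) (add (mul s2 (k (.negSucc (nat_lit 244513)))) (mul s3 (k (.ofNat (nat_lit 1004130))))))) (add (mul s2 (add (mul s2 (k (.ofNat (nat_lit 85490)))) (mul s3 (k (.ofNat (nat_lit 349768)))))) (mul (pow s3 2) (k (.ofNat (nat_lit 1004130))))))) (add (mul s2 (add (mul s2 (add (mul s2 (k (.ofNat (nat_lit 150436)))) (mul s3 (k (.ofNat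 (nat_lit 85490)))))) (mul (pow s3 2) (k (.negSucc (nat_lit 244513)))))) (mul (pow s3 3) (k (.negSucc (nat_lit 282561)))))))) (add (mul s1 (add (mul s1 (add (mul s1 (add (mul s1 (k (.ofNat (nat_lit 236966)))) (add (mul s2 (k (.ofNat (nat_lit 392832)))) (mul s3 (k (.negSucc (nat_lit 509659))))))) (add (mul s2 (add (mul s2 (k (.ofNat (nat_lit 207398)))) (mul s3 (k (.negSucc (nat_lit 458507)))))) (mul (pow s3 2) (k (.negSucc (nat_lit 789247))))))) (add (mul s2 (add (mul s2 (add (mul s2 (k (.negSucc (nat_lit 171619)))) (mul s3 (k (.negSucc (nat_lit 38315)))))) (mul (pow s3 2) (k (.negSucc (nat_lit 458507)))))) (mul (pow s3 3) (k (.negSucc (nat_lit 509659))))))) (add (mul s2 (add (mul s2 (add (mul s2 (add (mul s2 (k (.negSucc (nat_lit 90007)))) (mul s3 (k (.negSucc (nat_lit 171619)))))) (mul (pow s3 2) (k (.ofNat (nat_lit 207398)))))) (mul (pow s3 3) (k (.ofNat (nat_lit 392832)))))) (mul (pow s3 4) (k (.ofNat (nat_lit 236966)))))))) (add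 (mul s1 (add (mul s1 (add (mul s1 (add (mul s1 (add (mul s1 (k (.negSucc (nat_lit 60119)))) (add (mul s2 (k (.ofNat (nat_lit 41104)))) (mul s3 (k (.ofNat (nat_lit 101284))))))) (add (mul s2 (add (mul s2 (k (.negSucc (nat_lit 363083)))) (mul s3 (k (.negSucc (nat_lit 180055)))))) (mul (pow s3 2) (k (.ofNat (nat_lit 202882))))))) (add (mul s2 (add (mul s2 (add (mul s2 (k (.ofNat (nat_lit 74158)))) (mul s3 (k (.ofNat (nat_lit 162200)))))) (mul (pow s3 2) (k (.ofNat (nat_lit 659104)))))) (mul (pow s3 3) (k (.ofNat (nat_lit 202882))))))) (add (mul s2 (add (mul s2 (add (mul s2 (add (mul s2 (k (.ofNat (nat_lit 79606)))) (mul s3 (k (.ofNat (nat_lit 436)))))) (mul (pow s3 2) (k (.ofNat (nat_lit 162200)))))) (mul (pow s3 3) (k (.negSucc (nat_lit 180055)))))) (mul (pow s3 4) (k (.ofNat (nat_lit 101284))))))) (add (mul s2 (add (mul s2 (add (mul s2 (add (mul s2 (add (mul s2 (k (.negSucc (nat_lit 3163)))) (mul s3 (k (.ofNat (nat_lit 79606))))))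 (mul (pow s3 2) (k (.ofNat (nat_lit 74158)))))) (mul (pow s3 3) (k (.negSucc (nat_lit 363083)))))) (mul (pow s3 4) (k (.ofNat (nat_lit 41104)))))) (mul (pow s3 5) (k (.negSucc (nat_lit 60119)))))))) (add (mul s1 (add (mul s1 (add (mul s1 (add (mul s1 (add (mul s1 (add (mul s1 (k (.ofNat (nat_lit 924)))) (add (mul s2 (k (.ofNat (nat_lit 38288)))) (mul s3 (k (.negSucc (nat_lit 14673))))))) (add (mul s2 (add (mul s2 (k (.negSucc (nat_lit 235585)))) (mul s3 (k (.ofNat (nat_lit 79606)))))) (mul (pow s3 2) (k (.ofNat (nat_lit 38808))))))) (add (mul s2 (add (mul s2 (add (mul s2 (k (.ofNat (nat_lit 279272)))) (mul s3 (k (.ofNat (nat_lit 377650)))))) (mul (pow s3 2) (k (.negSucc (nat_lit 279931)))))) (mul (pow s3 3) (k (.negSucc (nat_lit 72735))))))) (add (mul s2 (add (mul s2 (add (mul s2 (add (mul s2 (k (.negSucc (nat_lit 63247)))) (mul s3 (k (.negSucc (nat_lit 515387)))))) (mul (pow s3 2) (k (.ofNat (nat_lit 308164)))))) (mul (pow s3 3)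 (k (.negSucc (nat_lit 279931)))))) (mul (pow s3 4) (k (.ofNat (nat_lit 38808))))))) (add (mul s2 (add (mul s2 (add (mul s2 (add (mul s2 (add (mul s2 (k (.negSucc (nat_lit 11759)))) (mul s3 (k (.ofNat (nat_lit 229388)))))) (mul (pow s3 2) (k (.negSucc (nat_lit 515387)))))) (mul (pow s3 3) (k (.ofNat (nat_lit 377650)))))) (mul (pow s3 4) (k (.ofNat (nat_lit 79606)))))) (mul (pow s3 5) (k (.negSucc (nat_lit 14673))))))) (add (mul s2 (add (mul s2 (add (mul s2 (add (mul s2 (add (mul s2 (add (mul s2 (k (.ofNat (nat_lit 6840)))) (mul s3 (k (.negSucc (nat_lit 11759)))))) (mul (pow s3 2) (k (.negSucc (nat_lit 63247)))))) (mul (pow s3 3) (k (.ofNat (nat_lit 279272)))))) (mul (pow s3 4) (k (.negSucc (nat_lit 235585)))))) (mul (pow s3 5) (k (.ofNat (nat_lit 38288)))))) (mul (pow s3 6) (k (.ofNat (nat_lit 924))))))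
def kr4110 : PExp := add (mul s0 (add (mul s0 (add (mul s0 (add (mul s0 (add (mul s0 (add (mul s0 (k (.negSucc (nat_lit 1267)))) (add (mul s1 (k (.ofNat (nat_lit 37660)))) (add (mul s2 (k (.ofNat (nat_lit 37660)))) (mul s3 (k (.ofNat (nat_lit 37872)))))))) (add (mul s1 (add (mul s1 (k (.ofNat (nat_lit 4436)))) (add (mul s2 (k (.negSucc (nat_lit 631871)))) (mul s3 (k (.negSucc (nat_lit 12207))))))) (add (mul s2 (add (mul s2 (k (.ofNat (nat_lit 4436)))) (mul s3 (k (.negSucc (nat_lit 12207)))))) (mul (pow s3 2) (k (.negSucc (nat_lit 124143)))))))) (add (mul s1 (add (mul s1 (add (mul s1 (k (.negSucc (nat_lit 282561)))) (add (mul s2 (k (.ofNat (nat_lit 1004130)))) (mul s3 (k (.negSucc (nat_lit 244513))))))) (add (mul s2 (add (mul s2 (k (.ofNat (nat_lit 1004130)))) (mul s3 (k (.ofNat (nat_lit 349768)))))) (mul (pow s3 2) (k (.ofNat (nat_lit 85490))))))) (add (mul s2 (add (mul s2 (add (mul s2 (k (.negSucc (nat_lit 282561)))) (mul s3 (k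 (.negSucc (nat_lit 244513)))))) (mul (pow s3 2) (k (.ofNat (nat_lit 85490)))))) (mul (pow s3 3) (k (.ofNat (nat_lit 150436)))))))) (add (mul s1 (add (mul s1 (add (mul s1 (add (mul s1 (k (.ofNat (nat_lit 236966)))) (add (mul s2 (k (.negSucc (nat_lit 509659)))) (mul s3 (k (.ofNat (nat_lit 392832))))))) (add (mul s2 (add (mul s2 (k (.negSucc (nat_lit 789247)))) (mul s3 (k (.negSucc (nat_lit 458507)))))) (mul (pow s3 2) (k (.ofNat (nat_lit 207398))))))) (add (mul s2 (add (mul s2 (add (mul s2 (k (.negSucc (nat_lit 509659)))) (mul s3 (k (.negSucc (nat_lit 458507)))))) (mul (pow s3 2) (k (.negSucc (nat_lit 38315)))))) (mul (pow s3 3) (k (.negSucc (nat_lit 171619))))))) (add (mul s2 (add (mul s2 (add (mul s2 (add (mul s2 (k (.ofNat (nat_lit 236966)))) (mul s3 (k (.ofNat (nat_lit 392832)))))) (mul (pow s3 2) (k (.ofNat (nat_lit 207398)))))) (mul (pow s3 3) (k (.negSucc (nat_lit 171619)))))) (mul (pow s3 4) (k (.negSucc (nat_lit 90007))))))))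 (add (mul s1 (add (mul s1 (add (mul s1 (add (mul s1 (add (mul s1 (k (.negSucc (nat_lit 60119)))) (add (mul s2 (k (.ofNat (nat_lit 101284)))) (mul s3 (k (.ofNat (nat_lit 41104))))))) (add (mul s2 (add (mul s2 (k (.ofNat (nat_lit 202882)))) (mul s3 (k (.negSucc (nat_lit 180055)))))) (mul (pow s3 2) (k (.negSucc (nat_lit 363083))))))) (add (mul s2 (add (mul s2 (add (mul s2 (k (.ofNat (nat_lit 202882)))) (mul s3 (k (.ofNat (nat_lit 659104)))))) (mul (pow s3 2) (k (.ofNat (nat_lit 162200)))))) (mul (pow s3 3) (k (.ofNat (nat_lit 74158))))))) (add (mul s2 (add (mul s2 (add (mul s2 (add (mul s2 (k (.ofNat (nat_lit 101284)))) (mul s3 (k (.negSucc (nat_lit 180055)))))) (mul (pow s3 2) (k (.ofNat (nat_lit 162200)))))) (mul (pow s3 3) (k (.ofNat (nat_lit 436)))))) (mul (pow s3 4) (k (.ofNat (nat_lit 79606))))))) (add (mul s2 (add (mul s2 (add (mul s2 (add (mul s2 (add (mul s2 (k (.negSucc (nat_lit 60119)))) (mul s3 (k (.ofNat (nat_lit 41104))))))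 (mul (pow s3 2) (k (.negSucc (nat_lit 363083)))))) (mul (pow s3 3) (k (.ofNat (nat_lit 74158)))))) (mul (pow s3 4) (k (.ofNat (nat_lit 79606)))))) (mul (pow s3 5) (k (.negSucc (nat_lit 3163)))))))) (add (mul s1 (add (mul s1 (add (mul s1 (add (mul s1 (add (mul s1 (add (mul s1 (k (.ofNat (nat_lit 924)))) (add (mul s2 (k (.negSucc (nat_lit 14673)))) (mul s3 (k (.ofNat (nat_lit 38288))))))) (add (mul s2 (add (mul s2 (k (.ofNat (nat_lit 38808)))) (mul s3 (k (.ofNat (nat_lit 79606)))))) (mul (pow s3 2) (k (.negSucc (nat_lit 235585))))))) (add (mul s2 (add (mul s2 (add (mul s2 (k (.negSucc (nat_lit 72735)))) (mul s3 (k (.negSucc (nat_lit 279931)))))) (mul (pow s3 2) (k (.ofNat (nat_lit 377650)))))) (mul (pow s3 3) (k (.ofNat (nat_lit 279272))))))) (add (mul s2 (add (mul s2 (add (mul s2 (add (mul s2 (k (.ofNat (nat_lit 38808)))) (mul s3 (k (.negSucc (nat_lit 279931)))))) (mul (pow s3 2) (k (.ofNat (nat_lit 308164)))))) (mul (pow s3 3) (k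 (.negSucc (nat_lit 515387)))))) (mul (pow s3 4) (k (.negSucc (nat_lit 63247))))))) (add (mul s2 (add (mul s2 (add (mul s2 (add (mul s2 (add (mul s2 (k (.negSucc (nat_lit 14673)))) (mul s3 (k (.ofNat (nat_lit 79606)))))) (mul (pow s3 2) (k (.ofNat (nat_lit 377650)))))) (mul (pow s3 3) (k (.negSucc (nat_lit 515387)))))) (mul (pow s3 4) (k (.ofNat (nat_lit 229388)))))) (mul (pow s3 5) (k (.negSucc (nat_lit 11759))))))) (add (mul s2 (add (mul s2 (add (mul s2 (add (mul s2 (add (mul s2 (add (mul s2 (k (.ofNat (nat_lit 924)))) (mul s3 (k (.ofNat (nat_lit 38288)))))) (mul (pow s3 2) (k (.negSucc (nat_lit 235585)))))) (mul (pow s3 3) (k (.ofNat (nat_lit 279272)))))) (mul (pow s3 4) (k (.negSucc (nat_lit 63247)))))) (mul (pow s3 5) (k (.negSucc (nat_lit 11759)))))) (mul (pow s3 6) (k (.ofNat (nat_lit 6840))))))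
def kr4200 : PExp := add (mul s0 (add (mul s0 (add (mul s0 (add (mul s0 (add (mul s0 (add (mul s0 (k (.ofNat (nat_lit 24464)))) (add (mul s1 (k (.ofNat (nat_lit 197172)))) (add (mul s2 (k (.negSucc (nat_lit 8559)))) (mul s3 (k (.negSucc (nat_lit 8559)))))))) (add (mul s1 (add (mul s1 (k (.negSucc (nat_lit 1242039)))) (add (mul s2 (k (.ofNat (nat_lit 4436)))) (mul s3 (k (.ofNat (nat_lit 4436))))))) (add (mul s2 (add (mul s2 (k (.ofNat (nat_lit 228140)))) (mul s3 (k (.negSucc (nat_lit 124143)))))) (mul (pow s3 2) (k (.ofNat (nat_lit 228140)))))))) (add (mul s1 (add (mul s1 (add (mul s1 (k (.ofNat (nat_lit 2290584)))) (add (mul s2 (k (.ofNat (nat_lit 102302)))) (mul s3 (k (.ofNat (nat_lit 102302))))))) (add (mul s2 (add (mul s2 (k (.ofNat (nat_lit 179086)))) (mul s3 (k (.negSucc (nat_lit 405655)))))) (mul (pow s3 2) (k (.ofNat (nat_lit 179086))))))) (add (mul s2 (add (mul s2 (add (mul s2 (k (.negSucc (nat_lit 379129)))) (mul s3 (k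 (.ofNat (nat_lit 166214)))))) (mul (pow s3 2) (k (.ofNat (nat_lit 166214)))))) (mul (pow s3 3) (k (.negSucc (nat_lit 379129)))))))) (add (mul s1 (add (mul s1 (add (mul s1 (add (mul s1 (k (.negSucc (nat_lit 1547831)))) (add (mul s2 (k (.negSucc (nat_lit 218831)))) (mul s3 (k (.negSucc (nat_lit 218831))))))) (add (mul s2 (add (mul s2 (k (.ofNat (nat_lit 444912)))) (mul s3 (k (.negSucc (nat_lit 74083)))))) (mul (pow s3 2) (k (.ofNat (nat_lit 444912))))))) (add (mul s2 (add (mul s2 (add (mul s2 (k (.negSucc (nat_lit 436791)))) (mul s3 (k (.ofNat (nat_lit 281134)))))) (mul (pow s3 2) (k (.ofNat (nat_lit 281134)))))) (mul (pow s3 3) (k (.negSucc (nat_lit 436791))))))) (add (mul s2 (add (mul s2 (add (mul s2 (add (mul s2 (k (.ofNat (nat_lit 305860)))) (mul s3 (k (.ofNat (nat_lit 345402)))))) (mul (pow s3 2) (k (.negSucc (nat_lit 874175)))))) (mul (pow s3 3) (k (.ofNat (nat_lit 345402)))))) (mul (pow s3 4) (k (.ofNat (nat_lit 305860))))))))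 (add (mul s1 (add (mul s1 (add (mul s1 (add (mul s1 (add (mul s1 (k (.ofNat (nat_lit 268260)))) (add (mul s2 (k (.ofNat (nat_lit 236966)))) (mul s3 (k (.ofNat (nat_lit 236966))))))) (add (mul s2 (add (mul s2 (k (.negSucc (nat_lit 580169)))) (mul s3 (k (.ofNat (nat_lit 40676)))))) (mul (pow s3 2) (k (.negSucc (nat_lit 580169))))))) (add (mul s2 (add (mul s2 (add (mul s2 (k (.ofNat (nat_lit 162340)))) (mul s3 (k (.negSucc (nat_lit 37241)))))) (mul (pow s3 2) (k (.negSucc (nat_lit 37241)))))) (mul (pow s3 3) (k (.ofNat (nat_lit 162340))))))) (add (mul s2 (add (mul s2 (add (mul s2 (add (mul s2 (k (.ofNat (nat_lit 38808)))) (mul s3 (k (.ofNat (nat_lit 131604)))))) (mul (pow s3 2) (k (.negSucc (nat_lit 256599)))))) (mul (pow s3 3) (k (.ofNat (nat_lit 131604)))))) (mul (pow s3 4) (k (.ofNat (nat_lit 38808))))))) (add (mul s2 (add (mul s2 (add (mul s2 (add (mul s2 (add (mul s2 (k (.negSucc (nat_lit 40259)))) (mul s3 (k (.negSucc (nat_lit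 235585)))))) (mul (pow s3 2) (k (.ofNat (nat_lit 244430)))))) (mul (pow s3 3) (k (.ofNat (nat_lit 244430)))))) (mul (pow s3 4) (k (.negSucc (nat_lit 235585)))))) (mul (pow s3 5) (k (.negSucc (nat_lit 40259)))))))) (add (mul s1 (add (mul s1 (add (mul s1 (add (mul s1 (add (mul s1 (add (mul s1 (k (.ofNat (nat_lit 14156)))) (add (mul s2 (k (.negSucc (nat_lit 51005)))) (mul s3 (k (.negSucc (nat_lit 51005))))))) (add (mul s2 (add (mul s2 (k (.ofNat (nat_lit 305860)))) (mul s3 (k (.negSucc (nat_lit 90007)))))) (mul (pow s3 2) (k (.ofNat (nat_lit 305860))))))) (add (mul s2 (add (mul s2 (add (mul s2 (k (.negSucc (nat_lit 304563)))) (mul s3 (k (.ofNat (nat_lit 81228)))))) (mul (pow s3 2) (k (.ofNat (nat_lit 81228)))))) (mul (pow s3 3) (k (.negSucc (nat_lit 304563))))))) (add (mul s2 (add (mul s2 (add (mul s2 (add (mul s2 (k (.ofNat (nat_lit 136520)))) (mul s3 (k (.ofNat (nat_lit 70040)))))) (mul (pow s3 2) (k (.negSucc (nat_lit 343231))))))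 (mul (pow s3 3) (k (.ofNat (nat_lit 70040)))))) (mul (pow s3 4) (k (.ofNat (nat_lit 136520))))))) (add (mul s2 (add (mul s2 (add (mul s2 (add (mul s2 (add (mul s2 (k (.ofNat (nat_lit 1638)))) (mul s3 (k (.negSucc (nat_lit 63247)))))) (mul (pow s3 2) (k (.ofNat (nat_lit 84180)))))) (mul (pow s3 3) (k (.ofNat (nat_lit 84180)))))) (mul (pow s3 4) (k (.negSucc (nat_lit 63247)))))) (mul (pow s3 5) (k (.ofNat (nat_lit 1638))))))) (add (mul s2 (add (mul s2 (add (mul s2 (add (mul s2 (add (mul s2 (add (mul s2 (k (.negSucc (nat_lit 287)))) (mul s3 (k (.negSucc (nat_lit 97829)))))) (mul (pow s3 2) (k (.ofNat (nat_lit 597708)))))) (mul (pow s3 3) (k (.negSucc (nat_lit 1008699)))))) (mul (pow s3 4) (k (.ofNat (nat_lit 597708)))))) (mul (pow s3 5) (k (.negSucc (nat_lit 97829)))))) (mul (pow s3 6) (k (.negSucc (nat_lit 287))))))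
def kr5001 : PExp := add (mul s0 (add (mul s0 (add (mul s0 (add (mul s0 (add (mul s0 (add (mul s0 (k (.ofNat (nat_lit 52)))) (add (mul s1 (k (.negSucc (nat_lit 4139)))) (add (mul s2 (k (.negSucc (nat_lit 4139)))) (mul s3 (k (.negSucc (nat_lit 22535)))))))) (add (mul s1 (add (mul s1 (k (.negSucc (nat_lit 8559)))) (add (mul s2 (k (.ofNat (nat_lit 37872)))) (mul s3 (k (.ofNat (nat_lit 37660))))))) (add (mul s2 (add (mul s2 (k (.negSucc (nat_lit 8559)))) (mul s3 (k (.ofNat (nat_lit 37660)))))) (mul (pow s3 2) (k (.ofNat (nat_lit 197172)))))))) (add (mul s1 (add (mul s1 (add (mul s1 (k (.ofNat (nat_lit 74462)))) (add (mul s2 (k (.negSucc (nat_lit 28009)))) (mul s3 (k (.negSucc (nat_lit 162855))))))) (add (mul s2 (add (mul s2 (k (.negSucc (nat_lit 28009)))) (mul s3 (k (.ofNat (nat_lit 24872)))))) (mul (pow s3 2) (k (.negSucc (nat_lit 75581))))))) (add (mul s2 (add (mul s2 (add (mul s2 (k (.ofNat (nat_lit 74462)))) (mul s3 (k (.negSucc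 (nat_lit 162855)))))) (mul (pow s3 2) (k (.negSucc (nat_lit 75581)))))) (mul (pow s3 3) (k (.negSucc (nat_lit 341423)))))))) (add (mul s1 (add (mul s1 (add (mul s1 (add (mul s1 (k (.negSucc (nat_lit 51005)))) (add (mul s2 (k (.negSucc (nat_lit 112807)))) (mul s3 (k (.ofNat (nat_lit 152170))))))) (add (mul s2 (add (mul s2 (k (.ofNat (nat_lit 130604)))) (mul s3 (k (.ofNat (nat_lit 40932)))))) (mul (pow s3 2) (k (.ofNat (nat_lit 18210))))))) (add (mul s2 (add (mul s2 (add (mul s2 (k (.negSucc (nat_lit 112807)))) (mul s3 (k (.ofNat (nat_lit 40932)))))) (mul (pow s3 2) (k (.ofNat (nat_lit 115408)))))) (mul (pow s3 3) (k (.ofNat (nat_lit 37368))))))) (add (mul s2 (add (mul s2 (add (mul s2 (add (mul s2 (k (.negSucc (nat_lit 51005)))) (mul s3 (k (.ofNat (nat_lit 152170)))))) (mul (pow s3 2) (k (.ofNat (nat_lit 18210)))))) (mul (pow s3 3) (k (.ofNat (nat_lit 37368)))))) (mul (pow s3 4) (k (.ofNat (nat_lit 268260)))))))) (add (mul s1 (add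 (mul s1 (add (mul s1 (add (mul s1 (add (mul s1 (k (.ofNat (nat_lit 7220)))) (add (mul s2 (k (.ofNat (nat_lit 38288)))) (mul s3 (k (.negSucc (nat_lit 14673))))))) (add (mul s2 (add (mul s2 (k (.ofNat (nat_lit 8716)))) (mul s3 (k (.ofNat (nat_lit 15314)))))) (mul (pow s3 2) (k (.negSucc (nat_lit 104501))))))) (add (mul s2 (add (mul s2 (add (mul s2 (k (.ofNat (nat_lit 8716)))) (mul s3 (k (.negSucc (nat_lit 101143)))))) (mul (pow s3 2) (k (.negSucc (nat_lit 80517)))))) (mul (pow s3 3) (k (.ofNat (nat_lit 143646))))))) (add (mul s2 (add (mul s2 (add (mul s2 (add (mul s2 (k (.ofNat (nat_lit 38288)))) (mul s3 (k (.ofNat (nat_lit 15314)))))) (mul (pow s3 2) (k (.negSucc (nat_lit 80517)))))) (mul (pow s3 3) (k (.negSucc (nat_lit 24103)))))) (mul (pow s3 4) (k (.negSucc (nat_lit 60119))))))) (add (mul s2 (add (mul s2 (add (mul s2 (add (mul s2 (add (mul s2 (k (.ofNat (nat_lit 7220)))) (mul s3 (k (.negSucc (nat_lit 14673)))))) (mul (pow s3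 2) (k (.negSucc (nat_lit 104501)))))) (mul (pow s3 3) (k (.ofNat (nat_lit 143646)))))) (mul (pow s3 4) (k (.negSucc (nat_lit 60119)))))) (mul (pow s3 5) (k (.negSucc (nat_lit 67135)))))))) (add (mul s1 (add (mul s1 (add (mul s1 (add (mul s1 (add (mul s1 (add (mul s1 (k (.negSucc (nat_lit 517)))) (add (mul s2 (k (.ofNat (nat_lit 18240)))) (mul s3 (k (.negSucc (nat_lit 2419))))))) (add (mul s2 (add (mul s2 (k (.negSucc (nat_lit 97829)))) (mul s3 (k (.negSucc (nat_lit 11759)))))) (mul (pow s3 2) (k (.ofNat (nat_lit 1638))))))) (add (mul s2 (add (mul s2 (add (mul s2 (k (.ofNat (nat_lit 148540)))) (mul s3 (k (.ofNat (nat_lit 12686)))))) (mul (pow s3 2) (k (.ofNat (nat_lit 13380)))))) (mul (pow s3 3) (k (.ofNat (nat_lit 18528))))))) (add (mul s2 (add (mul s2 (add (mul s2 (add (mul s2 (k (.negSucc (nat_lit 97829)))) (mul s3 (k (.ofNat (nat_lit 12686)))))) (mul (pow s3 2) (k (.ofNat (nat_lit 17020)))))) (mul (pow s3 3) (k (.ofNat (nat_lit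 19402)))))) (mul (pow s3 4) (k (.negSucc (nat_lit 40259))))))) (add (mul s2 (add (mul s2 (add (mul s2 (add (mul s2 (add (mul s2 (k (.ofNat (nat_lit 18240)))) (mul s3 (k (.negSucc (nat_lit 11759)))))) (mul (pow s3 2) (k (.ofNat (nat_lit 13380)))))) (mul (pow s3 3) (k (.ofNat (nat_lit 19402)))))) (mul (pow s3 4) (k (.negSucc (nat_lit 3163)))))) (mul (pow s3 5) (k (.ofNat (nat_lit 7220))))))) (add (mul s2 (add (mul s2 (add (mul s2 (add (mul s2 (add (mul s2 (add (mul s2 (k (.negSucc (nat_lit 517)))) (mul s3 (k (.negSucc (nat_lit 2419)))))) (mul (pow s3 2) (k (.ofNat (nat_lit 1638)))))) (mul (pow s3 3) (k (.ofNat (nat_lit 18528)))))) (mul (pow s3 4) (k (.negSucc (nat_lit 40259)))))) (mul (pow s3 5) (k (.ofNat (nat_lit 7220)))))) (mul (pow s3 6) (k (.ofNat (nat_lit 676))))))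
def kr5010 : PExp := add (mul s0 (add (mul s0 (add (mul s0 (add (mul s0 (add (mul s0 (add (mul s0 (k (.ofNat (nat_lit 52)))) (add (mul s1 (k (.negSucc (nat_lit 4139)))) (add (mul s2 (k (.negSucc (nat_lit 22535)))) (mul s3 (k (.negSucc (nat_lit 4139)))))))) (add (mul s1 (add (mul s1 (k (.negSucc (nat_lit 8559)))) (add (mul s2 (k (.ofNat (nat_lit 37660)))) (mul s3 (k (.ofNat (nat_lit 37872))))))) (add (mul s2 (add (mul s2 (k (.ofNat (nat_lit 197172)))) (mul s3 (k (.ofNat (nat_lit 37660)))))) (mul (pow s3 2) (k (.negSucc (nat_lit 8559)))))))) (add (mul s1 (add (mul s1 (add (mul s1 (k (.ofNat (nat_lit 74462)))) (add (mul s2 (k (.negSucc (nat_lit 162855)))) (mul s3 (k (.negSucc (nat_lit 28009))))))) (add (mul s2 (add (mul s2 (k (.negSucc (nat_lit 75581)))) (mul s3 (k (.ofNat (nat_lit 24872)))))) (mul (pow s3 2) (k (.negSucc (nat_lit 28009))))))) (add (mul s2 (add (mul s2 (add (mul s2 (k (.negSucc (nat_lit 341423)))) (mul s3 (k (.negSucc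 (nat_lit 75581)))))) (mul (pow s3 2) (k (.negSucc (nat_lit 162855)))))) (mul (pow s3 3) (k (.ofNat (nat_lit 74462)))))))) (add (mul s1 (add (mul s1 (add (mul s1 (add (mul s1 (k (.negSucc (nat_lit 51005)))) (add (mul s2 (k (.ofNat (nat_lit 152170)))) (mul s3 (k (.negSucc (nat_lit 112807))))))) (add (mul s2 (add (mul s2 (k (.ofNat (nat_lit 18210)))) (mul s3 (k (.ofNat (nat_lit 40932)))))) (mul (pow s3 2) (k (.ofNat (nat_lit 130604))))))) (add (mul s2 (add (mul s2 (add (mul s2 (k (.ofNat (nat_lit 37368)))) (mul s3 (k (.ofNat (nat_lit 115408)))))) (mul (pow s3 2) (k (.ofNat (nat_lit 40932)))))) (mul (pow s3 3) (k (.negSucc (nat_lit 112807))))))) (add (mul s2 (add (mul s2 (add (mul s2 (add (mul s2 (k (.ofNat (nat_lit 268260)))) (mul s3 (k (.ofNat (nat_lit 37368)))))) (mul (pow s3 2) (k (.ofNat (nat_lit 18210)))))) (mul (pow s3 3) (k (.ofNat (nat_lit 152170)))))) (mul (pow s3 4) (k (.negSucc (nat_lit 51005)))))))) (add (mul s1 (add (mul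 s1 (add (mul s1 (add (mul s1 (add (mul s1 (k (.ofNat (nat_lit 7220)))) (add (mul s2 (k (.negSucc (nat_lit 14673)))) (mul s3 (k (.ofNat (nat_lit 38288))))))) (add (mul s2 (add (mul s2 (k (.negSucc (nat_lit 104501)))) (mul s3 (k (.ofNat (nat_lit 15314)))))) (mul (pow s3 2) (k (.ofNat (nat_lit 8716))))))) (add (mul s2 (add (mul s2 (add (mul s2 (k (.ofNat (nat_lit 143646)))) (mul s3 (k (.negSucc (nat_lit 80517)))))) (mul (pow s3 2) (k (.negSucc (nat_lit 101143)))))) (mul (pow s3 3) (k (.ofNat (nat_lit 8716))))))) (add (mul s2 (add (mul s2 (add (mul s2 (add (mul s2 (k (.negSucc (nat_lit 60119)))) (mul s3 (k (.negSucc (nat_lit 24103)))))) (mul (pow s3 2) (k (.negSucc (nat_lit 80517)))))) (mul (pow s3 3) (k (.ofNat (nat_lit 15314)))))) (mul (pow s3 4) (k (.ofNat (nat_lit 38288))))))) (add (mul s2 (add (mul s2 (add (mul s2 (add (mul s2 (add (mul s2 (k (.negSucc (nat_lit 67135)))) (mul s3 (k (.negSucc (nat_lit 60119)))))) (mul (pow s3 2)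 (k (.ofNat (nat_lit 143646)))))) (mul (pow s3 3) (k (.negSucc (nat_lit 104501)))))) (mul (pow s3 4) (k (.negSucc (nat_lit 14673)))))) (mul (pow s3 5) (k (.ofNat (nat_lit 7220)))))))) (add (mul s1 (add (mul s1 (add (mul s1 (add (mul s1 (add (mul s1 (add (mul s1 (k (.negSucc (nat_lit 517)))) (add (mul s2 (k (.negSucc (nat_lit 2419)))) (mul s3 (k (.ofNat (nat_lit 18240))))))) (add (mul s2 (add (mul s2 (k (.ofNat (nat_lit 1638)))) (mul s3 (k (.negSucc (nat_lit 11759)))))) (mul (pow s3 2) (k (.negSucc (nat_lit 97829))))))) (add (mul s2 (add (mul s2 (add (mul s2 (k (.ofNat (nat_lit 18528)))) (mul s3 (k (.ofNat (nat_lit 13380)))))) (mul (pow s3 2) (k (.ofNat (nat_lit 12686)))))) (mul (pow s3 3) (k (.ofNat (nat_lit 148540))))))) (add (mul s2 (add (mul s2 (add (mul s2 (add (mul s2 (k (.negSucc (nat_lit 40259)))) (mul s3 (k (.ofNat (nat_lit 19402)))))) (mul (pow s3 2) (k (.ofNat (nat_lit 17020)))))) (mul (pow s3 3) (k (.ofNat (nat_lit 12686))))))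 (mul (pow s3 4) (k (.negSucc (nat_lit 97829))))))) (add (mul s2 (add (mul s2 (add (mul s2 (add (mul s2 (add (mul s2 (k (.ofNat (nat_lit 7220)))) (mul s3 (k (.negSucc (nat_lit 3163)))))) (mul (pow s3 2) (k (.ofNat (nat_lit 19402)))))) (mul (pow s3 3) (k (.ofNat (nat_lit 13380)))))) (mul (pow s3 4) (k (.negSucc (nat_lit 11759)))))) (mul (pow s3 5) (k (.ofNat (nat_lit 18240))))))) (add (mul s2 (add (mul s2 (add (mul s2 (add (mul s2 (add (mul s2 (add (mul s2 (k (.ofNat (nat_lit 676)))) (mul s3 (k (.ofNat (nat_lit 7220)))))) (mul (pow s3 2) (k (.negSucc (nat_lit 40259)))))) (mul (pow s3 3) (k (.ofNat (nat_lit 18528)))))) (mul (pow s3 4) (k (.ofNat (nat_lit 1638)))))) (mul (pow s3 5) (k (.negSucc (nat_lit 2419)))))) (mul (pow s3 6) (k (.negSucc (nat_lit 517))))))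
def kr5100 : PExp := add (mul s0 (add (mul s0 (add (mul s0 (add (mul s0 (add (mul s0 (add (mul s0 (k (.ofNat (nat_lit 52)))) (add (mul s1 (k (.negSucc (nat_lit 22535)))) (add (mul s2 (k (.negSucc (nat_lit 4139)))) (mul s3 (k (.negSucc (nat_lit 4139)))))))) (add (mul s1 (add (mul s1 (k (.ofNat (nat_lit 197172)))) (add (mul s2 (k (.ofNat (nat_lit 37660)))) (mul s3 (k (.ofNat (nat_lit 37660))))))) (add (mul s2 (add (mul s2 (k (.negSucc (nat_lit 8559)))) (mul s3 (k (.ofNat (nat_lit 37872)))))) (mul (pow s3 2) (k (.negSucc (nat_lit 8559)))))))) (add (mul s1 (add (mul s1 (add (mul s1 (k (.negSucc (nat_lit 341423)))) (add (mul s2 (k (.negSucc (nat_lit 75581)))) (mul s3 (k (.negSucc (nat_lit 75581))))))) (add (mul s2 (add (mul s2 (k (.negSucc (nat_lit 162855)))) (mul s3 (k (.ofNat (nat_lit 24872)))))) (mul (pow s3 2) (k (.negSucc (nat_lit 162855))))))) (add (mul s2 (add (mul s2 (add (mul s2 (k (.ofNat (nat_lit 74462)))) (mul s3 (k (.negSucc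 (nat_lit 28009)))))) (mul (pow s3 2) (k (.negSucc (nat_lit 28009)))))) (mul (pow s3 3) (k (.ofNat (nat_lit 74462)))))))) (add (mul s1 (add (mul s1 (add (mul s1 (add (mul s1 (k (.ofNat (nat_lit 268260)))) (add (mul s2 (k (.ofNat (nat_lit 37368)))) (mul s3 (k (.ofNat (nat_lit 37368))))))) (add (mul s2 (add (mul s2 (k (.ofNat (nat_lit 18210)))) (mul s3 (k (.ofNat (nat_lit 115408)))))) (mul (pow s3 2) (k (.ofNat (nat_lit 18210))))))) (add (mul s2 (add (mul s2 (add (mul s2 (k (.ofNat (nat_lit 152170)))) (mul s3 (k (.ofNat (nat_lit 40932)))))) (mul (pow s3 2) (k (.ofNat (nat_lit 40932)))))) (mul (pow s3 3) (k (.ofNat (nat_lit 152170))))))) (add (mul s2 (add (mul s2 (add (mul s2 (add (mul s2 (k (.negSucc (nat_lit 51005)))) (mul s3 (k (.negSucc (nat_lit 112807)))))) (mul (pow s3 2) (k (.ofNat (nat_lit 130604)))))) (mul (pow s3 3) (k (.negSucc (nat_lit 112807)))))) (mul (pow s3 4) (k (.negSucc (nat_lit 51005)))))))) (add (mul s1 (add (mul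 s1 (add (mul s1 (add (mul s1 (add (mul s1 (k (.negSucc (nat_lit 67135)))) (add (mul s2 (k (.negSucc (nat_lit 60119)))) (mul s3 (k (.negSucc (nat_lit 60119))))))) (add (mul s2 (add (mul s2 (k (.ofNat (nat_lit 143646)))) (mul s3 (k (.negSucc (nat_lit 24103)))))) (mul (pow s3 2) (k (.ofNat (nat_lit 143646))))))) (add (mul s2 (add (mul s2 (add (mul s2 (k (.negSucc (nat_lit 104501)))) (mul s3 (k (.negSucc (nat_lit 80517)))))) (mul (pow s3 2) (k (.negSucc (nat_lit 80517)))))) (mul (pow s3 3) (k (.negSucc (nat_lit 104501))))))) (add (mul s2 (add (mul s2 (add (mul s2 (add (mul s2 (k (.negSucc (nat_lit 14673)))) (mul s3 (k (.ofNat (nat_lit 15314)))))) (mul (pow s3 2) (k (.negSucc (nat_lit 101143)))))) (mul (pow s3 3) (k (.ofNat (nat_lit 15314)))))) (mul (pow s3 4) (k (.negSucc (nat_lit 14673))))))) (add (mul s2 (add (mul s2 (add (mul s2 (add (mul s2 (add (mul s2 (k (.ofNat (nat_lit 7220)))) (mul s3 (k (.ofNat (nat_lit 38288)))))) (mul (pow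 s3 2) (k (.ofNat (nat_lit 8716)))))) (mul (pow s3 3) (k (.ofNat (nat_lit 8716)))))) (mul (pow s3 4) (k (.ofNat (nat_lit 38288)))))) (mul (pow s3 5) (k (.ofNat (nat_lit 7220)))))))) (add (mul s1 (add (mul s1 (add (mul s1 (add (mul s1 (add (mul s1 (add (mul s1 (k (.ofNat (nat_lit 676)))) (add (mul s2 (k (.ofNat (nat_lit 7220)))) (mul s3 (k (.ofNat (nat_lit 7220))))))) (add (mul s2 (add (mul s2 (k (.negSucc (nat_lit 40259)))) (mul s3 (k (.negSucc (nat_lit 3163)))))) (mul (pow s3 2) (k (.negSucc (nat_lit 40259))))))) (add (mul s2 (add (mul s2 (add (mul s2 (k (.ofNat (nat_lit 18528)))) (mul s3 (k (.ofNat (nat_lit 19402)))))) (mul (pow s3 2) (k (.ofNat (nat_lit 19402)))))) (mul (pow s3 3) (k (.ofNat (nat_lit 18528))))))) (add (mul s2 (add (mul s2 (add (mul s2 (add (mul s2 (k (.ofNat (nat_lit 1638)))) (mul s3 (k (.ofNat (nat_lit 13380)))))) (mul (pow s3 2) (k (.ofNat (nat_lit 17020)))))) (mul (pow s3 3) (k (.ofNat (nat_lit 13380))))))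 (mul (pow s3 4) (k (.ofNat (nat_lit 1638))))))) (add (mul s2 (add (mul s2 (add (mul s2 (add (mul s2 (add (mul s2 (k (.negSucc (nat_lit 2419)))) (mul s3 (k (.negSucc (nat_lit 11759)))))) (mul (pow s3 2) (k (.ofNat (nat_lit 12686)))))) (mul (pow s3 3) (k (.ofNat (nat_lit 12686)))))) (mul (pow s3 4) (k (.negSucc (nat_lit 11759)))))) (mul (pow s3 5) (k (.negSucc (nat_lit 2419))))))) (add (mul s2 (add (mul s2 (add (mul s2 (add (mul s2 (add (mul s2 (add (mul s2 (k (.negSucc (nat_lit 517)))) (mul s3 (k (.ofNat (nat_lit 18240)))))) (mul (pow s3 2) (k (.negSucc (nat_lit 97829)))))) (mul (pow s3 3) (k (.ofNat (nat_lit 148540)))))) (mul (pow s3 4) (k (.negSucc (nat_lit 97829)))))) (mul (pow s3 5) (k (.ofNat (nat_lit 18240)))))) (mul (pow s3 6) (k (.negSucc (nat_lit 517))))))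
def kr6000 : PExp := add (mul s0 (add (mul s0 (add (mul s0 (add (mul s0 (add (mul s0 (add (mul s0 (k (.ofNat (nat_lit 16176)))) (add (mul s1 (k (.ofNat (nat_lit 52)))) (add (mul s2 (k (.ofNat (nat_lit 52)))) (mul s3 (k (.ofNat (nat_lit 52)))))))) (add (mul s1 (add (mul s1 (k (.ofNat (nat_lit 24464)))) (add (mul s2 (k (.negSucc (nat_lit 1267)))) (mul s3 (k (.negSucc (nat_lit 1267))))))) (add (mul s2 (add (mul s2 (k (.ofNat (nat_lit 24464)))) (mul s3 (k (.negSucc (nat_lit 1267)))))) (mul (pow s3 2) (k (.ofNat (nat_lit 24464)))))))) (add (mul s1 (add (mul s1 (add (mul s1 (k (.ofNat (nat_lit 780)))) (add (mul s2 (k (.ofNat (nat_lit 10836)))) (mul s3 (k (.ofNat (nat_lit 10836))))))) (add (mul s2 (add (mul s2 (k (.ofNat (nat_lit 10836)))) (mul s3 (k (.ofNat (nat_lit 4716)))))) (mul (pow s3 2) (k (.ofNat (nat_lit 10836))))))) (add (mul s2 (add (mul s2 (add (mul s2 (k (.ofNat (nat_lit 780)))) (mul s3 (k (.ofNat (nat_lit 10836)))))) (mul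 (pow s3 2) (k (.ofNat (nat_lit 10836)))))) (mul (pow s3 3) (k (.ofNat (nat_lit 780)))))))) (add (mul s1 (add (mul s1 (add (mul s1 (add (mul s1 (k (.ofNat (nat_lit 14156)))) (add (mul s2 (k (.ofNat (nat_lit 2232)))) (mul s3 (k (.ofNat (nat_lit 2232))))))) (add (mul s2 (add (mul s2 (k (.ofNat (nat_lit 33412)))) (mul s3 (k (.negSucc (nat_lit 28991)))))) (mul (pow s3 2) (k (.ofNat (nat_lit 33412))))))) (add (mul s2 (add (mul s2 (add (mul s2 (k (.ofNat (nat_lit 2232)))) (mul s3 (k (.negSucc (nat_lit 28991)))))) (mul (pow s3 2) (k (.negSucc (nat_lit 28991)))))) (mul (pow s3 3) (k (.ofNat (nat_lit 2232))))))) (add (mul s2 (add (mul s2 (add (mul s2 (add (mul s2 (k (.ofNat (nat_lit 14156)))) (mul s3 (k (.ofNat (nat_lit 2232)))))) (mul (pow s3 2) (k (.ofNat (nat_lit 33412)))))) (mul (pow s3 3) (k (.ofNat (nat_lit 2232)))))) (mul (pow s3 4) (k (.ofNat (nat_lit 14156)))))))) (add (mul s1 (add (mul s1 (add (mul s1 (add (mul s1 (add (mul s1 (k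 (.ofNat (nat_lit 676)))) (add (mul s2 (k (.ofNat (nat_lit 924)))) (mul s3 (k (.ofNat (nat_lit 924))))))) (add (mul s2 (add (mul s2 (k (.negSucc (nat_lit 7007)))) (mul s3 (k (.negSucc (nat_lit 595)))))) (mul (pow s3 2) (k (.negSucc (nat_lit 7007))))))) (add (mul s2 (add (mul s2 (add (mul s2 (k (.negSucc (nat_lit 7007)))) (mul s3 (k (.ofNat (nat_lit 27980)))))) (mul (pow s3 2) (k (.ofNat (nat_lit 27980)))))) (mul (pow s3 3) (k (.negSucc (nat_lit 7007))))))) (add (mul s2 (add (mul s2 (add (mul s2 (add (mul s2 (k (.ofNat (nat_lit 924)))) (mul s3 (k (.negSucc (nat_lit 595)))))) (mul (pow s3 2) (k (.ofNat (nat_lit 27980)))))) (mul (pow s3 3) (k (.negSucc (nat_lit 595)))))) (mul (pow s3 4) (k (.ofNat (nat_lit 924))))))) (add (mul s2 (add (mul s2 (add (mul s2 (add (mul s2 (add (mul s2 (k (.ofNat (nat_lit 676)))) (mul s3 (k (.ofNat (nat_lit 924)))))) (mul (pow s3 2) (k (.negSucc (nat_lit 7007)))))) (mul (pow s3 3) (k (.negSucc (nat_lit 7007))))))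 (mul (pow s3 4) (k (.ofNat (nat_lit 924)))))) (mul (pow s3 5) (k (.ofNat (nat_lit 676)))))))) (add (mul s1 (add (mul s1 (add (mul s1 (add (mul s1 (add (mul s1 (add (mul s1 (k (.negSucc (nat_lit 295)))) (add (mul s2 (k (.negSucc (nat_lit 517)))) (mul s3 (k (.negSucc (nat_lit 517))))))) (add (mul s2 (add (mul s2 (k (.negSucc (nat_lit 287)))) (mul s3 (k (.ofNat (nat_lit 6840)))))) (mul (pow s3 2) (k (.negSucc (nat_lit 287))))))) (add (mul s2 (add (mul s2 (add (mul s2 (k (.ofNat (nat_lit 2168)))) (mul s3 (k (.negSucc (nat_lit 6683)))))) (mul (pow s3 2) (k (.negSucc (nat_lit 6683)))))) (mul (pow s3 3) (k (.ofNat (nat_lit 2168))))))) (add (mul s2 (add (mul s2 (add (mul s2 (add (mul s2 (k (.negSucc (nat_lit 287)))) (mul s3 (k (.negSucc (nat_lit 6683)))))) (mul (pow s3 2) (k (.ofNat (nat_lit 3456)))))) (mul (pow s3 3) (k (.negSucc (nat_lit 6683)))))) (mul (pow s3 4) (k (.negSucc (nat_lit 287))))))) (add (mul s2 (add (mul s2 (add (mul s2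 (add (mul s2 (add (mul s2 (k (.negSucc (nat_lit 517)))) (mul s3 (k (.ofNat (nat_lit 6840)))))) (mul (pow s3 2) (k (.negSucc (nat_lit 6683)))))) (mul (pow s3 3) (k (.negSucc (nat_lit 6683)))))) (mul (pow s3 4) (k (.ofNat (nat_lit 6840)))))) (mul (pow s3 5) (k (.negSucc (nat_lit 517))))))) (add (mul s2 (add (mul s2 (add (mul s2 (add (mul s2 (add (mul s2 (add (mul s2 (k (.negSucc (nat_lit 295)))) (mul s3 (k (.negSucc (nat_lit 517)))))) (mul (pow s3 2) (k (.negSucc (nat_lit 287)))))) (mul (pow s3 3) (k (.ofNat (nat_lit 2168)))))) (mul (pow s3 4) (k (.negSucc (nat_lit 287)))))) (mul (pow s3 5) (k (.negSucc (nat_lit 517)))))) (mul (pow s3 6) (k (.negSucc (nat_lit 295))))))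
def KKo : OExp :=
  (.a (.m (nat_lit 0) (.a (.m (nat_lit 0) (.a (.m (nat_lit 0) (.a (.m (nat_lit 0) (.a (.m (nat_lit 0) (.a (.m (nat_lit 0) (.c kr6000)) (.a (.m (nat_lit 1) (.c kr5100)) (.a (.m (nat_lit 2) (.c kr5010)) (.m (nat_lit 3) (.c kr5001)))))) (.a (.m (nat_lit 1) (.a (.m (nat_lit 1) (.c kr4200)) (.a (.m (nat_lit 2) (.c kr4110)) (.m (nat_lit 3) (.c kr4101))))) (.a (.m (nat_lit 2) (.a (.m (nat_lit 2) (.c kr4020)) (.m (nat_lit 3) (.c kr4011)))) (.m (nat_lit 3) (.m (nat_lit 3) (.c kr4002))))))) (.a (.m (nat_lit 1) (.a (.m (nat_lit 1) (.a (.m (nat_lit 1) (.c kr3300)) (.a (.m (nat_lit 2) (.c kr3210)) (.m (nat_lit 3) (.c kr3201))))) (.a (.m (nat_lit 2) (.a (.m (nat_lit 2) (.c kr3120)) (.m (nat_lit 3) (.c kr3111)))) (.m (nat_lit 3) (.m (nat_lit 3) (.c kr3102)))))) (.a (.m (nat_lit 2) (.a (.m (nat_lit 2) (.a (.m (nat_lit 2) (.c kr3030)) (.m (nat_lit 3) (.c kr3021)))) (.m (nat_lit 3) (.m (nat_lit 3) (.c kr3012))))) (.m (nat_lit 3)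 (.m (nat_lit 3) (.m (nat_lit 3) (.c kr3003)))))))) (.a (.m (nat_lit 1) (.a (.m (nat_lit 1) (.a (.m (nat_lit 1) (.a (.m (nat_lit 1) (.c kr2400)) (.a (.m (nat_lit 2) (.c kr2310)) (.m (nat_lit 3) (.c kr2301))))) (.a (.m (nat_lit 2) (.a (.m (nat_lit 2) (.c kr2220)) (.m (nat_lit 3) (.c kr2211)))) (.m (nat_lit 3) (.m (nat_lit 3) (.c kr2202)))))) (.a (.m (nat_lit 2) (.a (.m (nat_lit 2) (.a (.m (nat_lit 2) (.c kr2130)) (.m (nat_lit 3) (.c kr2121)))) (.m (nat_lit 3) (.m (nat_lit 3) (.c kr2112))))) (.m (nat_lit 3) (.m (nat_lit 3) (.m (nat_lit 3) (.c kr2103))))))) (.a (.m (nat_lit 2) (.a (.m (nat_lit 2) (.a (.m (nat_lit 2) (.a (.m (nat_lit 2) (.c kr2040)) (.m (nat_lit 3) (.c kr2031)))) (.m (nat_lit 3) (.m (nat_lit 3) (.c kr2022))))) (.m (nat_lit 3) (.m (nat_lit 3) (.m (nat_lit 3) (.c kr2013)))))) (.m (nat_lit 3) (.m (nat_lit 3) (.m (nat_lit 3) (.m (nat_lit 3) (.c kr2004))))))))) (.a (.m (nat_lit 1) (.a (.m (nat_lit 1) (.a (.m (nat_lit 1) (.a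 (.m (nat_lit 1) (.a (.m (nat_lit 1) (.c kr1500)) (.a (.m (nat_lit 2) (.c kr1410)) (.m (nat_lit 3) (.c kr1401))))) (.a (.m (nat_lit 2) (.a (.m (nat_lit 2) (.c kr1320)) (.m (nat_lit 3) (.c kr1311)))) (.m (nat_lit 3) (.m (nat_lit 3) (.c kr1302)))))) (.a (.m (nat_lit 2) (.a (.m (nat_lit 2) (.a (.m (nat_lit 2) (.c kr1230)) (.m (nat_lit 3) (.c kr1221)))) (.m (nat_lit 3) (.m (nat_lit 3) (.c kr1212))))) (.m (nat_lit 3) (.m (nat_lit 3) (.m (nat_lit 3) (.c kr1203))))))) (.a (.m (nat_lit 2) (.a (.m (nat_lit 2) (.a (.m (nat_lit 2) (.a (.m (nat_lit 2) (.c kr1140)) (.m (nat_lit 3) (.c kr1131)))) (.m (nat_lit 3) (.m (nat_lit 3) (.c kr1122))))) (.m (nat_lit 3) (.m (nat_lit 3) (.m (nat_lit 3) (.c kr1113)))))) (.m (nat_lit 3) (.m (nat_lit 3) (.m (nat_lit 3) (.m (nat_lit 3) (.c kr1104)))))))) (.a (.m (nat_lit 2) (.a (.m (nat_lit 2) (.a (.m (nat_lit 2) (.a (.m (nat_lit 2) (.a (.m (nat_lit 2) (.c kr1050)) (.m (nat_lit 3) (.c kr1041)))) (.m (nat_lit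 3) (.m (nat_lit 3) (.c kr1032))))) (.m (nat_lit 3) (.m (nat_lit 3) (.m (nat_lit 3) (.c kr1023)))))) (.m (nat_lit 3) (.m (nat_lit 3) (.m (nat_lit 3) (.m (nat_lit 3) (.c kr1014))))))) (.m (nat_lit 3) (.m (nat_lit 3) (.m (nat_lit 3) (.m (nat_lit 3) (.m (nat_lit 3) (.c kr1005)))))))))) (.a (.m (nat_lit 1) (.a (.m (nat_lit 1) (.a (.m (nat_lit 1) (.a (.m (nat_lit 1) (.a (.m (nat_lit 1) (.a (.m (nat_lit 1) (.c kr0600)) (.a (.m (nat_lit 2) (.c kr0510)) (.m (nat_lit 3) (.c kr0501))))) (.a (.m (nat_lit 2) (.a (.m (nat_lit 2) (.c kr0420)) (.m (nat_lit 3) (.c kr0411)))) (.m (nat_lit 3) (.m (nat_lit 3) (.c kr0402)))))) (.a (.m (nat_lit 2) (.a (.m (nat_lit 2) (.a (.m (nat_lit 2) (.c kr0330)) (.m (nat_lit 3) (.c kr0321)))) (.m (nat_lit 3) (.m (nat_lit 3) (.c kr0312))))) (.m (nat_lit 3) (.m (nat_lit 3) (.m (nat_lit 3) (.c kr0303))))))) (.a (.m (nat_lit 2) (.a (.m (nat_lit 2) (.a (.m (nat_lit 2) (.a (.m (nat_lit 2) (.c kr0240)) (.m (nat_lit 3) (.c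 kr0231)))) (.m (nat_lit 3) (.m (nat_lit 3) (.c kr0222))))) (.m (nat_lit 3) (.m (nat_lit 3) (.m (nat_lit 3) (.c kr0213)))))) (.m (nat_lit 3) (.m (nat_lit 3) (.m (nat_lit 3) (.m (nat_lit 3) (.c kr0204)))))))) (.a (.m (nat_lit 2) (.a (.m (nat_lit 2) (.a (.m (nat_lit 2) (.a (.m (nat_lit 2) (.a (.m (nat_lit 2) (.c kr0150)) (.m (nat_lit 3) (.c kr0141)))) (.m (nat_lit 3) (.m (nat_lit 3) (.c kr0132))))) (.m (nat_lit 3) (.m (nat_lit 3) (.m (nat_lit 3) (.c kr0123)))))) (.m (nat_lit 3) (.m (nat_lit 3) (.m (nat_lit 3) (.m (nat_lit 3) (.c kr0114))))))) (.m (nat_lit 3) (.m (nat_lit 3) (.m (nat_lit 3) (.m (nat_lit 3) (.m (nat_lit 3) (.c kr0105))))))))) (.a (.m (nat_lit 2) (.a (.m (nat_lit 2) (.a (.m (nat_lit 2) (.a (.m (nat_lit 2) (.a (.m (nat_lit 2) (.a (.m (nat_lit 2) (.c kr0060)) (.m (nat_lit 3) (.c kr0051)))) (.m (nat_lit 3) (.m (nat_lit 3) (.c kr0042))))) (.m (nat_lit 3) (.m (nat_lit 3) (.m (nat_lit 3) (.c kr0033)))))) (.m (nat_lit 3) (.m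 (nat_lit 3) (.m (nat_lit 3) (.m (nat_lit 3) (.c kr0024))))))) (.m (nat_lit 3) (.m (nat_lit 3) (.m (nat_lit 3) (.m (nat_lit 3) (.m (nat_lit 3) (.c kr0015)))))))) (.m (nat_lit 3) (.m (nat_lit 3) (.m (nat_lit 3) (.m (nat_lit 3) (.m (nat_lit 3) (.m (nat_lit 3) (.c kr0006))))))))))

end Vale.Agent.P154.Q4
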